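import Vale.Agent.P022G.Defs
import Vale.Agent.P022G.Obs.Defs
import Vale.Agent.P022G.Tor

/-!
# P022G: from the presentation to the ring of traces (statements)
-/

set_option linter.all false

noncomputable section

namespace Vale.Agent.P022G.Tr

open NumberField IsLocalRing MvPowerSeries
open Vale.Agent.P022 Vale.Agent.P022G.R Vale.Agent.P022G.Loc
open Vale.Agent.P027M.S (Inert mx)
open Vale.Agent.P022D.Sel (M2)
open Vale.Agent.P022D.Core (PS)
open Vale.Agent.P022E.Loc (Pl)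
open Vale.Agent.P022E.GW (Ov H1)
open Vale.Agent.P022G.Pres (PP Dt Jac Un)
open Vale.Agent.P022G.Obs (FX)

section
variable {O F : Type} [CommRing O] [Field F] {S : Dat O F} {L : Pl O} {κ : Type} {gk : κ → GQ}
  {ι : Type} (G : Gs S L gk ι)

open Classical in
/-- monomial lifts of the residual matrices -/
def c0 (i : ι) : M2 O :=
  if G.γ i ∈ L.H then !![G.rc i 0 0, 0; 0, G.rc i 1 1] else !![0, G.rc i 0 1; G.rc i 1 0, 0]

/-- the data of the presentation -/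
def dt : Dt O F ι := ⟨S.red, S.rb, Matrix.detMonoidHom.comp L.r, S.T, G.γ, c0 G⟩

/-- the universal matrices -/
abbrev Z (i : ι) : M2 (PP O ι) := (dt G).Z i

/-- the map from the ring of traces -/
def IsPhi (φ : PS O (Sy ι) →+* PP O ι) : Prop := Hm C (sv G.rc C (Z G)) φ

/-- the weights of the entries -/
def wt (s : Pres.Ix ι) : ℤ := (s.2.2 : ℕ) - (s.2.1 : ℕ)

/-- the ideal of the reducible locus -/
def NZ : Ideal (PP O ι) := Ideal.span {f | ∃ i k, f = Z G i 0 1 * Z G k 1 0}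

/-- the equation of the determinant -/
def de (i : ι) : PP O ι := (Z G i).det - C (G.rc i).det

/-- determinants and the normal form of `g0` -/
def L0 : Ideal (PP O ι) := Ideal.span (Set.range (de G) ∪ {Z G G.i0 0 1, Z G G.i0 1 0})

/-- the primes outside `J` are unramified -/
def Lu (J : Finset L.C) : Ideal (PP O ι) := Ideal.span {f | ∃ l, l ∉ J ∧
  (f = Z G (G.iτ l) 0 0 - 1 ∨ f = Z G (G.iτ l) 0 1 ∨ f = Z G (G.iτ l) 1 0)}

/-- the invariant equations -/
def Lt (J : Finset L.C) : Ideal (PP O ι) := Ideal.span {f | f = (Z G G.ic).trace ∨ ∃ l ∈ J,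
  f = (Z G (G.iτ l)).trace ∨ f = (Z G (G.iφ l)).trace ∨
    f = (Z G (G.iτ l) * Z G (G.iφ l)).trace}

/-- `θ` is the point given by `ρ` -/
structure Pt {V : Type} [CommRing V] (j : O →+* V) (ρ : GQ → M2 V) (θ : PP O ι →+* V) : Prop where
  c : ∀ o, θ (C o) = j o
  z : ∀ i a b, θ (Z G i a b) = ρ (G.γ i) a b

end

/-- more hypotheses on the set of auxiliary primes -/
structure Cz {O F : Type} [CommRing O] [Field F] (S : Dat O F) (X : Finset ℕ) : Prop where
  fx1 : FX S.rb.ker S.T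
  fx2 : FX ⊤ S.T
  big : ∃ (k : ℕ) (g : Fin k → GQ), 2 * k ≤ X.card ∧
    ∀ c ∈ H1 S.rb (S.T \ X) ⊤, (∀ i, c (g i) = 0) → c = 0

/-- the quantifiers of all rows -/
def All (p : ∀ (O F : Type) [CommRing O] [IsDomain O] [IsDiscreteValuationRing O] [Field F]
    (S : Dat O F) (L : Pl O) (κ : Type) (gk : κ → GQ) (ι : Type) [Fintype ι], Gs S L gk ι → O →
    Finset ℕ → Prop) : Prop :=
  ∀ (O F : Type) [CommRing O] [IsDomain O] [IsDiscreteValuationRing O]
    [IsAdicComplete (maximalIdeal O) O] [Field F] [Finite F] [CharP F 2] (S : Dat O F) (L : Pl O)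
    (κ : Type) (gk : κ → GQ) (ι : Type) [Fintype ι] (G : Gs S L gk ι) (ϖ : O) (X : Finset ℕ)
    (as : ℕ), (2 : O) ≠ 0 → Irreducible ϖ → Cx S L X as → p O F S L κ gk ι G ϖ X

/-- the data are admissible -/
def DOK : Prop := All fun O F _ _ _ _ S L κ gk ι _ G ϖ X => (dt G).Ok

/-- in the split case the relations are generated by homogeneous elements -/
def WT : Prop := All fun O F _ _ _ _ S L κ gk ι _ G ϖ X => L.H = ⊤ →
  Ideal.span {f | f ∈ Jac (dt G) ∧ ∃ k, Tor.Hom wt k f} = Jac (dt G)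

/-- points of the universal ring -/
def FRP : Prop := All fun O F _ _ _ _ S L κ gk ι _ G ϖ X =>
  ∀ (V : Type) [CommRing V] [IsLocalRing V] [IsNoetherianRing V]
    [IsAdicComplete (maximalIdeal V) V] [Finite (ResidueField V)] (j : O →+* V)
    (ρ : GQ →* M2 V), j ϖ ∈ maximalIdeal V →
    (∀ g a b, ρ g a b - j (L.r g a b) ∈ maximalIdeal V) → (∀ g, (ρ g).det = j (L.r g).det) →
    (∀ N : ℕ, IsOpen {g | (ρ g).map (Ideal.Quotient.mk (maximalIdeal V ^ N)) = 1}) →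
    Un S.T ρ → ∃ θ : PP O ι →+* V, Pt G j ρ θ ∧ Jac (dt G) ≤ RingHom.ker θ ∧
      ∀ f ∈ maximalIdeal (PP O ι), θ f ∈ maximalIdeal V

/-- the relations of the traces hold on the special fibre and on the components of the point -/
def AG : Prop := All fun O F _ _ _ _ S L κ gk ι _ G ϖ X =>
  ∀ φ, IsPhi G φ → ∀ q : Ideal (PP O ι), q.IsPrime → Jac (dt G) ⊔ L0 G ≤ q →
    (C ϖ ∈ q ∨ ∃ θ : PP O ι →+* O, Pt G (RingHom.id O) L.r θ ∧ q ≤ RingHom.ker θ) →
    G.aG.map φ ≤ q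

/-- the reducible locus is small -/
def RED : Prop := All fun O F _ _ _ _ S L κ gk ι _ G ϖ X => Cz S X → L.H = ⊤ →
  ∀ I : Ideal (PP O ι), I ≠ ⊤ → C ϖ ∈ I → L0 G ≤ I → Jac (dt G) ≤ I ⊔ Lt G Finset.univ →
    ¬ ((3 * X.card + 1 : ℕ) : WithBot ℕ∞) ≤ ringKrullDim (PP O ι ⧸ (I ⊔ NZ G))

/-- the presentation of the special fibre of type `J` -/
def PR2 : Prop := All fun O F _ _ _ _ S L κ gk ι _ G ϖ X => Cz S X →
  ∀ (J : Finset L.C) (𝓗 : Set (PP O ι)), Ideal.span 𝓗 = Jac (dt G) →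
    ∃ (n : ℕ) (e : Fin n → PP O ι), n + 3 * L.C.card + 6 ≤ 3 * Fintype.card ι ∧ (∀ i, e i ∈ 𝓗) ∧
      Jac (dt G) ≤ Ideal.span (Set.range e) ⊔ (Ideal.span {C ϖ} ⊔ L0 G ⊔ Lu G J ⊔ Lt G J)

open Classical in
/-- the presentation over `O`, the primes of `X` are unramified -/
def PR0 : Prop := All fun O F _ _ _ _ S L κ gk ι _ G ϖ X => Cz S X →
  ∃ (n : ℕ) (e : Fin n → PP O ι), n + 3 * X.card + 6 ≤ 3 * Fintype.card ι ∧
    (∀ i, e i ∈ Jac (dt G)) ∧ Jac (dt G) ≤ Ideal.span (Set.range e) ⊔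
      (L0 G ⊔ Lu G (Finset.univ.filter fun l => l.1 ∉ X) ⊔ Lt G ∅)

end Vale.Agent.P022G.Tr
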