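import Vale.Agent.P022G.Tr.Defs

/-!
# P022G: the data of the presentation are admissible
-/

set_option linter.all false

noncomputable section

namespace Vale.Agent.P022G.Tr

open NumberField IsLocalRing
open Vale.Agent.P022 Vale.Agent.P022G.R Vale.Agent.P022G.Loc
open Vale.Agent.P027M.S (Inert mx)
open Vale.Agent.P022D.Sel (M2)
open Vale.Agent.P022E.Loc (Pl)
open Vale.Agent.P022E.GW (Ov H1)
open Vale.Agent.P022G.Pres (PP Dt Jac Un)

namespace Dok

variable {F : Type} [Field F]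

theorem mx_one (rb : GQ →* GL (Fin 2) F) {g : GQ} (h : rb g = 1) : mx rb g = 1 :=
  congrArg Units.val h

theorem mx_mul (rb : GQ →* GL (Fin 2) F) (g h : GQ) : mx rb (g * h) = mx rb g * mx rb h :=
  congrArg Units.val (map_mul rb g h)

/-- the affine action given by a cocycle -/
def af (rb : GQ →* GL (Fin 2) F) (c : GQ → M2 F)
    (hc : ∀ g h, c (g * h) = c g + mx rb g * c h * mx rb g⁻¹) : GQ →* Function.End (M2 F) where
  toFun g := fun m => c g + mx rb g * m * mx rb g⁻¹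
  map_one' := by
    funext m
    have h1 := hc 1 1
    rw [mul_one, inv_one, mx_one rb (map_one rb), one_mul, mul_one] at h1
    have h2 : c 1 = 0 := by simpa using h1
    show c 1 + mx rb 1 * m * mx rb 1⁻¹ = m
    rw [h2, inv_one, mx_one rb (map_one rb), one_mul, mul_one, zero_add]
  map_mul' g h := by
    funext m
    show c (g * h) + mx rb (g * h) * m * mx rb (g * h)⁻¹ =
      c g + mx rb g * (c h + mx rb h * m * mx rb h⁻¹) * mx rb g⁻¹
    rw [hc, mul_inv_rev, mx_mul, mx_mul, mul_add, add_mul, add_assoc]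
    simp only [mul_assoc]

theorem af_one (rb : GQ →* GL (Fin 2) F) (c : GQ → M2 F)
    (hc : ∀ g h, c (g * h) = c g + mx rb g * c h * mx rb g⁻¹) {g : GQ} (h : rb g = 1)
    (m : M2 F) : (af rb c hc).toHomPerm g m = c g + m := by
  show c g + mx rb g * m * mx rb g⁻¹ = c g + m
  rw [mx_one rb h, mx_one rb (g := g⁻¹) (by rw [map_inv, h, inv_one]), one_mul, mul_one]

theorem af_triv (rb : GQ →* GL (Fin 2) F) (c : GQ → M2 F)
    (hc : ∀ g h, c (g * h) = c g + mx rb g * c h * mx rb g⁻¹) {g : GQ} (h : rb g = 1)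
    (h0 : c g = 0) : (af rb c hc).toHomPerm g = 1 := by
  refine Equiv.ext fun m => ?_
  rw [af_one rb c hc h, h0, zero_add]
  rfl

theorem af_zero (rb : GQ →* GL (Fin 2) F) (c : GQ → M2 F)
    (hc : ∀ g h, c (g * h) = c g + mx rb g * c h * mx rb g⁻¹) (g : GQ) :
    (af rb c hc).toHomPerm g 0 = c g := by
  show c g + mx rb g * 0 * mx rb g⁻¹ = c g
  rw [mul_zero, zero_mul, add_zero]

variable {O : Type} [CommRing O]

theorem gen [Finite F] [CharP F 2] (S : Dat O F) (Q : Finset ℕ) (hQ : ∀ l, l ∉ Q) {ι : Type}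
    (γ : ι → GQ) (hG : Gen S Q γ) (ho : IsOpen {g : GQ | S.rb g = 1}) (hu : Un S.T S.rb)
    (c : GQ → M2 F) (hc : c ∈ H1 S.rb S.T ⊤) (h0 : ∀ i, c (γ i) = 0) : c = 0 := by
  obtain ⟨h1, -, ⟨U, hU, hUc⟩, h4⟩ := hc
  have h1' : ∀ g h, c (g * h) = c g + mx S.rb g * c h * mx S.rb g⁻¹ :=
    fun g h => h1 g trivial h trivial
  have key := hG (Equiv.Perm (M2 F)) (af S.rb c h1').toHomPerm ?_ ?_ ?_
  · funext g
    have hle : Subgroup.closure (Set.range fun i => (af S.rb c h1').toHomPerm (γ i)) ≤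
        MulAction.stabilizer (Equiv.Perm (M2 F)) (0 : M2 F) := by
      rw [Subgroup.closure_le]
      rintro _ ⟨i, rfl⟩
      exact (af_zero S.rb c h1' _).trans (h0 i)
    exact (af_zero S.rb c h1' g).symm.trans (hle (key g))
  · have hk : IsOpen ((U ⊓ S.rb.ker : Subgroup GQ) : Set GQ) := hU.inter ho
    exact Subgroup.isOpen_mono (H₁ := U ⊓ S.rb.ker) (H₂ := (af S.rb c h1').toHomPerm.ker)
      (fun g hg => af_triv S.rb c h1' hg.2 (hUc g hg.1)) hk
  · intro g hg
    refine ⟨1, Equiv.ext fun m => ?_⟩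
    rw [pow_one, pow_two, Equiv.Perm.mul_apply, af_one S.rb c h1' hg, af_one S.rb c h1' hg,
      ← add_assoc]
    have : c g + c g = 0 := by
      ext a b
      exact CharTwo.add_self_eq_zero _
    rw [this, zero_add]
    rfl
  · intro l hl hT _ P hP hm s hs
    exact af_triv S.rb c h1' (hu l hT P ⟨hl, hP, hm⟩ s hs) (h4 l hT P ⟨hl, hP, hm⟩ s hs)

variable [IsLocalRing O] {S : Dat O F} {L : Pl O} {X : Finset ℕ} {as : ℕ}

theorem unr (hC : Cx S L X as) : Un S.T S.rb := by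
  intro l hl P hP g hg
  apply Units.ext
  have h := hC.ok.lift g
  rw [hC.unr l hP.1 (Or.inl hl) P hP.2.1 hP.2.2 g hg,
    Matrix.map_one _ (map_zero _) (map_one _)] at h
  exact h.symm

theorem lift (hC : Cx S L X as) {κ : Type} {gk : κ → GQ} {ι : Type} (G : Gs S L gk ι) (i : ι) :
    (c0 G i).map S.red = mx S.rb (G.γ i) := by
  have h : ∀ a b, S.red (G.rc i a b) = mx S.rb (G.γ i) a b := fun a b =>
    congrFun (congrFun (hC.ok.lift (G.γ i)) a) b
  unfold c0
  split_ifs with hi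
  · obtain ⟨h1, h2⟩ := hC.ok.dh.dg _ hi
    ext a b
    fin_cases a <;> fin_cases b <;> simp [h, h1, h2]
  · obtain ⟨h1, h2⟩ := hC.ok.dh.ad _ hi
    ext a b
    fin_cases a <;> fin_cases b <;> simp [h, h1, h2]

theorem dop (hC : Cx S L X as) (k : ℕ) :
    IsOpen {g : GQ | (Matrix.detMonoidHom.comp L.r) g - 1 ∈ maximalIdeal O ^ k} := by
  let f : GQ →* M2 (O ⧸ maximalIdeal O ^ k) :=
    (Ideal.Quotient.mk (maximalIdeal O ^ k)).mapMatrix.toMonoidHom.comp L.r
  let d : GQ →* O ⧸ maximalIdeal O ^ k := Matrix.detMonoidHom.comp f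
  have h1 : IsOpen ((f.toHomUnits.ker : Subgroup GQ) : Set GQ) := by
    have e : ((f.toHomUnits.ker : Subgroup GQ) : Set GQ) =
        {g : GQ | (L.r g).map (Ideal.Quotient.mk (maximalIdeal O ^ k)) = 1} :=
      Set.ext fun g => Units.ext_iff
    rw [e]
    exact hC.ok.cont k
  have h2 : IsOpen ((d.toHomUnits.ker : Subgroup GQ) : Set GQ) := by
    refine Subgroup.isOpen_mono (fun g hg => ?_) h1
    have h3 : f g = 1 := Units.ext_iff.1 hg
    apply Units.ext
    show (f g).det = 1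
    rw [h3, Matrix.det_one]
  have e : {g : GQ | (Matrix.detMonoidHom.comp L.r) g - 1 ∈ maximalIdeal O ^ k} =
      ((d.toHomUnits.ker : Subgroup GQ) : Set GQ) := by
    refine Set.ext fun g => ?_
    have h4 : d g = Ideal.Quotient.mk (maximalIdeal O ^ k) (L.r g).det :=
      (RingHom.map_det (Ideal.Quotient.mk (maximalIdeal O ^ k)) (L.r g)).symm
    show (L.r g).det - 1 ∈ maximalIdeal O ^ k ↔ d.toHomUnits g = 1
    rw [Units.ext_iff]
    show _ ↔ d g = 1
    rw [h4, ← Ideal.Quotient.eq, map_one]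
  rw [e]
  exact h2

end Dok

/-- **the data are admissible** -/
theorem dokC : DOK := by
  intro O F _ _ _ _ _ _ _ S L κ gk ι _ G ϖ X as _ _ hC
  refine ⟨S.surj, hC.ok.ker, Dok.lift hC G, hC.ok.dh.opn, Dok.unr hC, fun g => ?_, Dok.dop hC,
    fun l hl P hP g hg => ?_, fun c hc h0 => ?_⟩
  · show S.red (L.r g).det = (mx S.rb g).det
    rw [← hC.ok.lift g]
    exact RingHom.map_det _ _
  · show (L.r g).det = 1
    rw [hC.unr l hP.1 (Or.inl hl) P hP.2.1 hP.2.2 g hg, Matrix.det_one]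
  · refine Dok.gen S _ (by simp) _ (G.gen 0 Fin.elim0 Fin.elim0 fun i => i.elim0) hC.ok.dh.opn
      (Dok.unr hC) c hc ?_
    rintro (i | i)
    · exact h0 i
    · exact i.elim0

end Vale.Agent.P022G.Tr
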