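import Vale.Agent.P022G.Tr.Defs
import Vale.Agent.P022G.Pres.Uni
import Vale.Agent.P022G.Conn.Dim
import Vale.Agent.P022D.Rl.Ch0

/-! # P022G: points of the universal ring -/

set_option linter.all false

noncomputable section

namespace Vale.Agent.P022G.Tr

open NumberField IsLocalRing MvPowerSeries
open Vale.Agent.P022 Vale.Agent.P022G.R Vale.Agent.P022G.Loc
open Vale.Agent.P027M.S (Inert mx)
open Vale.Agent.P022D.Sel (M2)
open Vale.Agent.P022E.Loc (Pl)
open Vale.Agent.P022G.Pres (PP Dt Jac Un Adm pm pm_apply pm_one)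

namespace Frp

theorem sq_step {V : Type} [CommRing V] {m J : Ideal V} (h2 : (2 : V) ∈ m) (hJ : J ≤ m)
    {u : M2 V} (h : ∀ a b, (u - 1 : M2 V) a b ∈ J) (a b : Fin 2) :
    (u ^ 2 - 1 : M2 V) a b ∈ m * J := by
  have e : u ^ 2 - 1 = (u - 1) * (u - 1) + ((u - 1) + (u - 1)) := by noncomm_ring
  rw [e, Matrix.add_apply, Matrix.add_apply, Matrix.mul_apply, ← two_mul]
  exact add_mem (Ideal.sum_mem _ fun c _ => Ideal.mul_mem_mul (hJ (h a c)) (h c b))
    (Ideal.mul_mem_mul h2 (h a b))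

theorem pow_step {V : Type} [CommRing V] {m : Ideal V} (h2 : (2 : V) ∈ m) {u : M2 V}
    (h : ∀ a b, (u - 1 : M2 V) a b ∈ m) (n : ℕ) :
    ∀ a b, (u ^ 2 ^ n - 1 : M2 V) a b ∈ m ^ (n + 1) := by
  induction n with
  | zero => simpa using h
  | succ n ih =>
    intro a b
    rw [pow_succ 2 n, pow_mul, pow_succ' m (n + 1)]
    exact sq_step h2 (Ideal.pow_le_self (Nat.succ_ne_zero n)) ih a b

/-- pairs of matrices whose entries come from the same elements -/
def pairs {P A F : Type} [CommRing P] [CommRing A] [Field F] (φ : P →+* A) (π : P →+* F) :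
    Submonoid ((M2 A)ˣ × GL (Fin 2) F) where
  carrier := {x | ∃ p : M2 P, p.map φ = (x.1 : M2 A) ∧ p.map π = (x.2 : M2 F)}
  one_mem' := ⟨1, Matrix.map_one _ (map_zero φ) (map_one φ),
    Matrix.map_one _ (map_zero π) (map_one π)⟩
  mul_mem' := by
    rintro x y ⟨p, h1, h2⟩ ⟨q, k1, k2⟩
    exact ⟨p * q, by rw [Matrix.map_mul, h1, k1]; rfl, by rw [Matrix.map_mul, h2, k2]; rfl⟩

/-- every value is a polynomial in the generators -/
theorem res_gen {O F : Type} [CommRing O] [Field F] [Finite F] {S : Dat O F} {L : Pl O}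
    {κ : Type} {gk : κ → GQ} {ι : Type} (G : Gs S L gk ι) {P A : Type} [CommRing P] [CommRing A]
    [Finite A] (φ : P →+* A) (π : P →+* F) (ρ : GQ →* M2 A) (ho : IsOpen {g | ρ g = 1})
    (hr : IsOpen {g | S.rb g = 1}) (h2 : ∀ g, S.rb g = 1 → ∃ k : ℕ, ρ g ^ 2 ^ k = 1)
    (u1 : Un S.T ρ) (u2 : Un S.T S.rb) (Zi : ι → M2 P) (z1 : ∀ i, (Zi i).map φ = ρ (G.γ i))
    (z2 : ∀ i, (Zi i).map π = mx S.rb (G.γ i)) (g : GQ) :
    ∃ p : M2 P, p.map φ = ρ g ∧ p.map π = mx S.rb g := by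
  let f : GQ →* (M2 A)ˣ × GL (Fin 2) F := ρ.toHomUnits.prod S.rb
  have hf : ∀ g, f g = 1 ↔ ρ g = 1 ∧ S.rb g = 1 := by
    intro g
    rw [Prod.ext_iff, Units.ext_iff]
    exact Iff.rfl
  have h := G.gen 0 Fin.elim0 Fin.elim0 (fun i => i.elim0) _ f
    (by
      have : {g : GQ | f g = 1} = {g | ρ g = 1} ∩ {g | S.rb g = 1} := Set.ext hf
      rw [this]
      exact ho.inter hr)
    (fun g hg => by
      obtain ⟨k, hk⟩ := h2 g hg
      refine ⟨k, ?_⟩
      rw [← map_pow, hf, map_pow, map_pow, hg, one_pow]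
      exact ⟨hk, rfl⟩)
    (fun l hl hT _ Q hQ hlQ s hs =>
      (hf s).2 ⟨u1 l hT Q ⟨hl, hQ, hlQ⟩ s hs, u2 l hT Q ⟨hl, hQ, hlQ⟩ s hs⟩) g
  rw [← Subgroup.mem_toSubmonoid, Subgroup.closure_toSubmonoid_of_finite] at h
  refine (Submonoid.closure_le.2 ?_ : _ ≤ pairs φ π) h
  rintro _ ⟨i, rfl⟩
  rcases i with i | i
  · exact ⟨Zi i, z1 i, z2 i⟩
  · exact i.elim0

end Frp

theorem frpC (hD : DOK) : FRP := by
  intro O F _ _ _ _ _ _ _ S L κ gk ι _ G ϖ X as h2 hϖ hC V _ _ _ _ _ j ρ hj hρ hdet hop hun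
  have hS : (dt G).Ok := hD O F S L κ gk ι G ϖ X as h2 hϖ hC
  have hm := (IsDiscreteValuationRing.irreducible_iff_uniformizer ϖ).1 hϖ
  have hjm : ∀ o, S.red o = 0 → j o ∈ maximalIdeal V := by
    intro o ho
    have := (hC.ok.ker o).1 ho
    rw [hm] at this
    obtain ⟨c, rfl⟩ := Ideal.mem_span_singleton'.1 this
    rw [map_mul]
    exact Ideal.mul_mem_left _ _ hj
  have hL : ∀ g a b, S.red (L.r g a b) = mx S.rb g a b := fun g a b =>
    congrFun (congrFun (hC.ok.lift g) a) b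
  obtain ⟨θ, hC1, hX⟩ := P022G.Conn.exists_ev (ι := Pres.Ix ι) (maximalIdeal V) j
    (fun s => ρ (G.γ s.1) s.2.1 s.2.2 - j (c0 G s.1 s.2.1 s.2.2)) (fun s => by
      have k1 : S.red (c0 G s.1 s.2.1 s.2.2) = mx S.rb (G.γ s.1) s.2.1 s.2.2 :=
        congrFun (congrFun (hS.lift s.1) s.2.1) s.2.2
      have k2 := hjm (L.r (G.γ s.1) s.2.1 s.2.2 - c0 G s.1 s.2.1 s.2.2)
        (by rw [map_sub, hL, k1, sub_self])
      have k3 := add_mem (hρ (G.γ s.1) s.2.1 s.2.2) k2
      rwa [map_sub, sub_add_sub_cancel] at k3)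
  have hz : ∀ i a b, θ (Z G i a b) = ρ (G.γ i) a b := by
    intro i a b
    show θ (C (c0 G i a b) + MvPowerSeries.X (i, a, b)) = _
    rw [map_add, hC1, hX, add_sub_cancel]
  have hxm : ∀ s, θ (MvPowerSeries.X s) ∈ maximalIdeal V := by
    intro s
    have k1 : S.red (c0 G s.1 s.2.1 s.2.2) = mx S.rb (G.γ s.1) s.2.1 s.2.2 :=
      congrFun (congrFun (hS.lift s.1) s.2.1) s.2.2
    have k2 := hjm (L.r (G.γ s.1) s.2.1 s.2.2 - c0 G s.1 s.2.1 s.2.2)
      (by rw [map_sub, hL, k1, sub_self])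
    have k3 := add_mem (hρ (G.γ s.1) s.2.1 s.2.2) k2
    rwa [map_sub, sub_add_sub_cancel, ← hX s] at k3
  have hloc : maximalIdeal (PP O ι) ≤ (maximalIdeal V).comap θ := by
    rw [P022D.Rl.Ch0.max_eq hm, Ideal.span_le]
    rintro _ (rfl | ⟨s, rfl⟩)
    · show θ (C ϖ) ∈ maximalIdeal V
      rwa [hC1]
    · exact hxm s
  refine ⟨θ, ⟨hC1, hz⟩, fun f hf => ?_, fun f hf => hloc hf⟩
  have hN : ∀ N : ℕ, θ f ∈ maximalIdeal V ^ N := by
    intro N
    have hfin : Finite (V ⧸ maximalIdeal V ^ N) :=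
      haveI : Finite (V ⧸ maximalIdeal V) := inferInstanceAs (Finite (ResidueField V))
      Ideal.finite_quotient_pow (IsNoetherian.noetherian _) N
    have hgen : ∀ i, pm (Ideal.Quotient.mk (maximalIdeal V ^ N)) ρ (G.γ i) =
        (Z G i).map ((Ideal.Quotient.mk (maximalIdeal V ^ N)).comp θ) := by
      intro i
      ext a b
      exact congrArg (Ideal.Quotient.mk _) (hz i a b).symm
    have hu : Un S.T (pm (Ideal.Quotient.mk (maximalIdeal V ^ N)) ρ) :=
      fun l hl Q hQ g hg => pm_one _ _ (hun l hl Q hQ g hg)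
    have hA : Adm (dt G) ((Ideal.Quotient.mk (maximalIdeal V ^ N)).comp θ)
        (pm (Ideal.Quotient.mk (maximalIdeal V ^ N)) ρ) := by
      refine ⟨hgen, fun g => ?_, hop N, hu, fun g a b => ?_⟩
      · rw [pm_apply, ← RingHom.mapMatrix_apply, ← RingHom.map_det, hdet, RingHom.comp_apply, hC1]
        rfl
      · obtain ⟨p, p1, p2⟩ := Frp.res_gen G ((Ideal.Quotient.mk (maximalIdeal V ^ N)).comp θ)
          (dt G).π0 (pm (Ideal.Quotient.mk (maximalIdeal V ^ N)) ρ) (hop N) hS.opn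
          (fun g hg => ⟨N, by
            rw [← map_pow, pm_apply, map_pow]
            have k2 : (2 : V) ∈ maximalIdeal V := by
              have := hjm 2 (by rw [map_ofNat]; exact CharTwo.two_eq_zero)
              rwa [map_ofNat] at this
            have k1 : ∀ a b, (ρ g - 1 : M2 V) a b ∈ maximalIdeal V := by
              intro a b
              have k3 := hjm (L.r g a b - (1 : M2 O) a b) (by
                rw [map_sub, hL]
                show (S.rb g : M2 F) a b - _ = 0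
                rw [hg, Units.val_one, Matrix.one_apply, Matrix.one_apply, apply_ite S.red,
                  map_one, map_zero, sub_self])
              have k4 := add_mem (hρ g a b) k3
              rw [map_sub, sub_add_sub_cancel, Matrix.one_apply, apply_ite j, map_one,
                map_zero] at k4
              rw [Matrix.sub_apply, Matrix.one_apply]
              exact k4
            ext a b
            have k5 := Ideal.pow_le_pow_right (Nat.le_succ N) (Frp.pow_step k2 k1 N a b)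
            rw [Matrix.sub_apply, ← Ideal.Quotient.eq] at k5
            rw [Matrix.map_apply, k5, Matrix.one_apply, Matrix.one_apply, apply_ite
              (Ideal.Quotient.mk _), map_one, map_zero]⟩)
          hu hS.unr (Z G) (fun i => (hgen i).symm) hS.Z g
        exact ⟨p a b, congrFun (congrFun p1 a) b, congrFun (congrFun p2 a) b⟩
    have hk : maximalIdeal (PP O ι) ^ N ≤
        RingHom.ker ((Ideal.Quotient.mk (maximalIdeal V ^ N)).comp θ) := by
      rw [← RingHom.comap_ker, Ideal.mk_ker]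
      exact (Ideal.pow_right_mono hloc N).trans (Ideal.le_comap_pow θ N)
    exact Ideal.Quotient.eq_zero_iff_mem.1 (Pres.univ ⟨N, hk⟩ hA hf)
  have h0 := Ideal.iInf_pow_eq_bot_of_isLocalRing (maximalIdeal V) (maximalIdeal.isMaximal V).ne_top
  rw [RingHom.mem_ker, ← Ideal.mem_bot, ← h0]
  exact Ideal.mem_iInf.2 hN

end Vale.Agent.P022G.Tr
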