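import Vale.Agent.P022G.Sel.Finr

/-!
# P022G: a bound for the number of conditions which kill the unramified cocycles
-/

set_option linter.all false

noncomputable section

namespace Vale.Agent.P022G.Tr

open Vale.Agent.P022
open Vale.Agent.P027M.S (mx)
open Vale.Agent.P022E.GW (H1)

theorem big (K : Subgroup GQ) (T₀ : Finset ℕ) : ∃ (k : ℕ) (g : Fin k → GQ),
    ∀ (F : Type) [Field F] [Finite F] [CharP F 2] (rb : GQ →* GL (Fin 2) F), rb.ker = K →
      IsOpen {g | rb g = 1} → ∀ c ∈ H1 rb T₀ ⊤, (∀ i, c (g i) = 0) → c = 0 := by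
  by_cases ho : IsOpen (K : Set GQ)
  swap
  · exact ⟨0, Fin.elim0, fun F _ _ _ rb e h => absurd (e ▸ h) ho⟩
  obtain ⟨U, hU, hle, h⟩ := _root_.P022G.Sel.Finr.ex_U ho T₀
  haveI := H916.isGalois_Qb
  haveI : Finite (GQ ⧸ U) := Subgroup.quotient_finite_of_isOpen U hU
  obtain ⟨k, ⟨e⟩⟩ := Finite.exists_equiv_fin (GQ ⧸ U)
  refine ⟨k, fun i => (e.symm i).out, fun F _ _ _ rb hk _ c hc h0 => funext fun g => ?_⟩
  have hm : ∀ g ∈ K, mx rb g = 1 := fun g hg => by
    rw [← hk] at hg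
    rw [mx, MonoidHom.mem_ker.1 hg, Units.val_one]
  have h1 : ∀ u ∈ U, c u = 0 := h _ (fun x => by
      rw [two_nsmul]
      ext i j
      exact CharTwo.add_self_eq_zero _) c
    (fun g hg h hh => by
      rw [hc.1 g trivial h trivial, hm g hg, hm _ (K.inv_mem hg), one_mul, mul_one])
    hc.2.2.1 hc.2.2.2
  obtain ⟨u, hu⟩ := QuotientGroup.mk_out_eq_mul U g
  have h2 := h0 (e (QuotientGroup.mk g))
  beta_reduce at h2
  rw [Equiv.symm_apply_apply, hu, hc.1 g trivial u trivial, h1 u u.2, mul_zero, zero_mul,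
    add_zero] at h2
  exact h2

end Vale.Agent.P022G.Tr
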