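import Vale.Agent.P022G.Loc.BW

/-!
# P022G: tools for the relations of the traces (limits, roots of unity, the first character)
-/

set_option linter.all false

noncomputable section

namespace Vale.Agent.P022G.Tr.Ag

open IsLocalRing
open Vale.Agent.P022 Vale.Agent.P022D.W
open Vale.Agent.P022E.Loc (Rt En)

section alg
variable {R : Type} [CommRing R]

theorem lim (m q : Ideal R) [IsPrecomplete m R] (p : ℕ → R)
    (h : ∀ k, p (k + 1) - p k ∈ q ⊔ m ^ k) : ∃ U, ∀ k, U - p k ∈ q ⊔ m ^ k := by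
  choose x hx d hd e using fun k => Submodule.mem_sup.1 (h k)
  let s : ℕ → R := fun n => p 0 + ∑ k ∈ Finset.range n, d k
  have hs1 : ∀ n, s (n + 1) = s n + d n := fun n => by
    simp only [s, Finset.sum_range_succ, add_assoc]
  have hs : ∀ n, p n - s n ∈ q := by
    intro n
    induction n with
    | zero => simp [s]
    | succ n ih =>
      have e2 : p (n + 1) - s (n + 1) = p n - s n + x n := by
        rw [hs1]; linear_combination - e n
      rw [e2]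
      exact q.add_mem ih (hx n)
  obtain ⟨U, hU⟩ := IsPrecomplete.prec' (I := m) s (fun {a b} hab => by
    rw [SModEq.sub_mem, smul_eq_mul, Ideal.mul_top]
    induction hab with
    | refl => simp
    | @step b hab ih =>
      have := (m ^ a).sub_mem ih (Ideal.pow_le_pow_right hab (hd b))
      rwa [sub_sub, ← hs1] at this)
  refine ⟨U, fun k => ?_⟩
  have h1 := hU k
  rw [SModEq.sub_mem, smul_eq_mul, Ideal.mul_top] at h1
  have e3 : U - p k = -(p k - s k) + -(s k - U) := by ring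
  rw [e3]
  exact Submodule.add_mem_sup (q.neg_mem (hs k)) ((m ^ k).neg_mem h1)

theorem krull [IsNoetherianRing R] [IsLocalRing R] (q : Ideal R) {x : R}
    (h : ∀ k, x ∈ q ⊔ maximalIdeal R ^ (k + 1)) : x ∈ q := by
  have h0 := Ideal.iInf_pow_smul_eq_bot_of_isLocalRing (M := R ⧸ q) (maximalIdeal R)
    (maximalIdeal.isMaximal R).ne_top
  rw [← Ideal.Quotient.eq_zero_iff_mem, ← Submodule.mem_bot R, ← h0, Submodule.mem_iInf]
  intro k
  obtain ⟨y, hy, z, hz, rfl⟩ := Submodule.mem_sup.1 (h k)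
  have e : Ideal.Quotient.mk q (y + z) = z • (1 : R ⧸ q) := by
    rw [map_add, Ideal.Quotient.eq_zero_iff_mem.2 hy, zero_add, Algebra.smul_def, mul_one]
    rfl
  rw [e]
  exact Submodule.smul_mem_smul (Ideal.pow_le_pow_right (Nat.le_succ k) hz) trivial

theorem root {q : Ideal R} (hq : q.IsPrime) {U a : R}
    (hc : ∀ n, U ^ n + a ^ n ∈ q → U ^ n - a ^ n ∈ q) (e : ℕ)
    (h : U ^ 2 ^ e - a ^ 2 ^ e ∈ q) : U - a ∈ q := by
  induction e with
  | zero => simpa using h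
  | succ e ih =>
    have e1 : U ^ 2 ^ (e + 1) - a ^ 2 ^ (e + 1) =
        (U ^ 2 ^ e - a ^ 2 ^ e) * (U ^ 2 ^ e + a ^ 2 ^ e) := by
      rw [pow_succ, pow_mul, pow_mul]; ring
    rw [e1] at h
    exact ih ((hq.mem_or_mem h).elim id (hc _))

end alg

section chr
variable {A F : Type} [CommRing A] [Field F] {π : A →+* F} {ℓ : ℕ}
  {D I N H : Subgroup GQ} {τ φ g0 : GQ} {rb : GQ →* Mt F}

/-- the first character of a lift -/
def ch (π : A →+* F) (rb : GQ →* Mt F) (g0 s : GQ) (ρ : GQ →* Mt A) : A :=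
  dd π (rb g0 0 0) g0 (trc ρ) (dtm ρ) 0 s

theorem ch_nat {B : Type} [CommRing B] {π' : B →+* F} (hW : WD ℓ D H g0 rb) (hA : LR π)
    (hB : LR π') (u : A →+* B) (hu : ∀ a, π' (u a) = π a) {ρ : GQ →* Mt A} (hρ : Lift π rb ρ)
    {ρ' : GQ →* Mt B} (h : ∀ g, (ρ g).map u = ρ' g) (s : GQ) :
    ch π' rb g0 s ρ' = u (ch π rb g0 s ρ) := dd_nat hW hA hB u hu hρ h 0 s

theorem ch_iff (hW : WD ℓ D H g0 rb) (hA : LR π) {ρ : GQ →* Mt A} (hρ : Lift π rb ρ) {y : A}
    (h1 : Rt ρ g0 y) (h2 : π y = rb g0 1 1) (s : GQ) (x : A) :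
    En ρ g0 s y x ↔ ch π rb g0 s ρ = x := by
  have ht : π (trc ρ g0) = rb g0 0 0 + rb g0 1 1 := by
    rw [trc, Matrix.trace_fin_two, map_add, hρ.ent, hρ.ent]
  have e : rt π (rb g0 0 0) (trc ρ g0) (dtm ρ g0) = trc ρ g0 - y :=
    rt_eq hA (by unfold Rt at h1; unfold trc dtm; linear_combination h1)
      (by rw [map_sub, ht, h2, add_sub_cancel_right]) (res_g0 hW hρ).2
  have hu : IsUnit (2 * (trc ρ g0 - y) - trc ρ g0) := hA.loc _ (by
    rw [map_sub, map_mul, map_sub, map_ofNat, ht, h2]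
    intro h0
    exact hW.ne (by linear_combination h0))
  have i1 := Ring.inverse_mul_cancel _ hu
  have e2 : trc ρ (g0 * s) = (ρ (s * g0)).trace := by
    rw [trc, map_mul, map_mul, Matrix.trace_mul_comm]
  show _ ↔ d1 π (rb g0 0 0) g0 (trc ρ) (dtm ρ) s = x
  rw [d1, e, e2]
  unfold En
  unfold trc at i1 ⊢
  constructor
  · intro h
    linear_combination Ring.inverse (2 * ((ρ g0).trace - y) - (ρ g0).trace) * h + x * i1
  · intro h
    linear_combination ((ρ g0).trace - 2 * y) * h -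
      ((ρ (s * g0)).trace - y * (ρ s).trace) * i1

theorem ch_pow (hW : WD ℓ D H g0 rb) (hA : LR π) {ρ ρ' : GQ →* Mt A} (l1 : Lift π rb ρ)
    (l2 : Lift π rb ρ') (hT : TameAt ℓ D I N τ φ (ρ.prod ρ')) {e m : ℕ} (hm : Odd m)
    (he : ℓ ^ 2 = 2 ^ e * m + 1) : ch π rb g0 τ ρ ^ 2 ^ e = ch π rb g0 τ ρ' ^ 2 ^ e := by
  obtain ⟨P, Q, a1, a2, a3, m1⟩ := exists_mon hW hA l1 (hT.comp (MonoidHom.fst _ _))
  obtain ⟨P', Q', b1, b2, b3, m2⟩ := exists_mon hW hA l2 (hT.comp (MonoidHom.snd _ _))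
  have h : Two π ℓ D I N H τ φ g0 rb ((cjH P Q a1 a2).comp ρ) ((cjH P' Q' b1 b2).comp ρ') :=
    ⟨hW, hA, l1.cj a1 a2 a3, l2.cj b1 b2 b3, m1, m2,
      hT.comp (MonoidHom.prodMap (cjH P Q a1 a2) (cjH P' Q' b1 b2))⟩
  have c1 : ch π rb g0 τ ρ = ch π rb g0 τ ((cjH P Q a1 a2).comp ρ) := by
    rw [ch, ch, trc_cj, dtm_cj]
  have c2 : ch π rb g0 τ ρ' = ch π rb g0 τ ((cjH P' Q' b1 b2).comp ρ') := by
    rw [ch, ch, trc_cj, dtm_cj]
  rw [c1, c2]
  generalize (cjH P Q a1 a2).comp ρ = σ at h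
  generalize (cjH P' Q' b1 b2).comp ρ' = σ' at h
  have hD := hT.ID hT.tau
  by_cases hτ : τ ∈ H
  · rw [ch, ch, h.m1.dd hW hA h.l1 hD hτ, h.m2.dd hW hA h.l2 hD hτ]
    have ex : ∀ i, ∃ y, σ τ i i = y * σ' τ i i ∧ π y = 1 := fun i => by
      obtain ⟨v, hv⟩ := (h.unit hτ i).exists_left_inv
      refine ⟨σ τ i i * v, by rw [mul_assoc, hv, mul_one], ?_⟩
      rw [map_mul, h.l1.ent, ← h.l2.ent, ← map_mul, mul_comm, hv, map_one]
    choose y hy hy1 using ex
    have key : y 0 ^ ℓ ^ 2 = y 0 := by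
      rw [sq, pow_mul]
      by_cases hφ : φ ∈ H
      · have := h.rel hτ (Or.inl ⟨hφ, rfl⟩) (hy 0) (hy 0)
        rw [← this, ← this]
      · rw [← h.rel hτ (Or.inr ⟨hφ, by decide⟩) (hy 0) (hy 1),
          ← h.rel hτ (Or.inr ⟨hφ, by decide⟩) (hy 1) (hy 0)]
    rw [he] at key
    rw [hy 0, mul_pow, two_pow_of hA hW.two (hy1 0) hm key, one_mul]
  · have z : ∀ {σ : GQ →* Mt A}, Mon D H σ → ch π rb g0 τ σ = 0 := fun {σ} hM => by
      have hn : g0 * τ ∉ H := fun k => hτ (by simpa using H.mul_mem (H.inv_mem hW.g0H) k)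
      have t1 : trc σ τ = 0 := by
        rw [trc, Matrix.trace_fin_two, hM.dia τ hD hτ, hM.dia τ hD hτ, add_zero]
      have t2 : trc σ (g0 * τ) = 0 := by
        rw [trc, Matrix.trace_fin_two, hM.dia _ (D.mul_mem hW.g0D hD) hn,
          hM.dia _ (D.mul_mem hW.g0D hD) hn, add_zero]
      show d1 π (rb g0 0 0) g0 (trc σ) (dtm σ) τ = 0
      rw [d1, t1, t2, mul_zero, sub_zero, zero_mul]
    rw [z h.m1, z h.m2]

end chr

end Vale.Agent.P022G.Tr.Ag
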