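import Vale.Agent.P022G.Tr.Defs
import Vale.Agent.P022G.Tr.Ag0
import Vale.Agent.P022G.Pres.Uni
import Vale.Agent.P022G.Loc.Clo
import Vale.Agent.P022D.Rl.Ch0

/-!
# P022G: the relations of the traces hold on the special fibre and on the components of the point
-/

set_option linter.all false

noncomputable section

namespace Vale.Agent.P022G.Tr

open NumberField IsLocalRing MvPowerSeries
open Vale.Agent.P022 Vale.Agent.P022G.R Vale.Agent.P022G.Loc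
open Vale.Agent.P027M.S (Inert mx)
open Vale.Agent.P022D.Sel (M2)
open Vale.Agent.P022D.Core (PS)
open Vale.Agent.P022E.Loc (Pl Rt En)
open Vale.Agent.P022G.Pres (PP Dt Jac Un Adm pm pm_apply pm_one)
open Vale.Agent.P022D.W (LR Lift)
open Vale.Agent.P022D.R (opn_of_le)

namespace Ag

variable {O F : Type} [CommRing O] [IsLocalRing O] [Field F] {S : Dat O F} {L : Pl O} {κ : Type}
  {gk : κ → GQ} {ι : Type} {G : Gs S L gk ι} {a : Ideal (PP O ι)}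

theorem loc (hS : (dt G).Ok) (ha : a ≤ maximalIdeal (PP O ι)) (x : PP O ι ⧸ a)
    (hx : hS.πq ha x ≠ 0) : IsUnit x := by
  obtain ⟨p, rfl⟩ := Ideal.Quotient.mk_surjective x
  exact (IsLocalRing.notMem_maximalIdeal.1 fun k => hx (hS.max.2 k)).map _

theorem pC (o : O) : (dt G).π0 (C o) = S.red o := by simp [Dt.π0, dt]

/-- the test object of a good ideal -/
def ob (hS : (dt G).Ok) (ha : a ≤ maximalIdeal (PP O ι)) (hf : Finite (PP O ι ⧸ a))
    {ρ : GQ →* M2 (PP O ι ⧸ a)} (h : Adm (dt G) (Ideal.Quotient.mk a) ρ) (hL : L0 G ≤ a) :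
    Obj S (PP O ι ⧸ a) where
  ι := (Ideal.Quotient.mk a).comp C
  π := hS.πq ha
  ρ := ρ
  α _ := 1
  β _ := 1
  fin := hf
  loc := loc hS ha
  alg c := pC c
  res := h.red fun _ => rfl
  opn := h.opn
  dg := by
    have e : ρ S.g0 = (Z G G.i0).map (Ideal.Quotient.mk a) := G.h0 ▸ h.gen G.i0
    rw [e]
    exact ⟨Ideal.Quotient.eq_zero_iff_mem.2 (hL (Ideal.subset_span (Or.inr (Or.inl rfl)))),
      Ideal.Quotient.eq_zero_iff_mem.2 (hL (Ideal.subset_span (Or.inr (Or.inr rfl))))⟩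
  inv _ := mul_one _
  one _ := Matrix.map_one _ (map_zero _) (map_one _)
  off _ _ := rfl
  fr := ⟨rfl, rfl⟩

theorem hm {φ : PS O (Sy ι) →+* PP O ι} (hφ : IsPhi G φ) {B : Type} [CommRing B]
    (u : PP O ι →+* B) {ρ : GQ → M2 B} (h : ∀ i, ρ (G.γ i) = (Z G i).map u) :
    Hm (u.comp C) (sv G.rc (u.comp C) fun i => ρ (G.γ i)) (u.comp φ) := by
  refine ⟨fun o => congrArg u (hφ.c o), fun s => ?_⟩
  rw [RingHom.comp_apply, hφ.x]
  rcases s with i | i | ⟨i, k⟩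
  · show u (Z G i 0 0 - C _) = ρ (G.γ i) 0 0 - u (C _)
    rw [h, map_sub, Matrix.map_apply]
  · show u (Z G i 1 1 - C _) = ρ (G.γ i) 1 1 - u (C _)
    rw [h, map_sub, Matrix.map_apply]
  · show u (Z G i 0 1 * Z G k 1 0 - C _) = ρ (G.γ i) 0 1 * ρ (G.γ k) 1 0 - u (C _)
    rw [h, h, map_sub, map_mul, Matrix.map_apply, Matrix.map_apply]

/-- the point, seen over a quotient -/
abbrev rq (L : Pl O) (a : Ideal (PP O ι)) : GQ →* M2 (PP O ι ⧸ a) :=
  pm ((Ideal.Quotient.mk a).comp C) L.r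

theorem rq_opn (hS : (dt G).Ok) (hO : OkG L S) {k : ℕ} (hk : maximalIdeal (PP O ι) ^ k ≤ a) :
    IsOpen {g | rq L a g = 1} := by
  have h1 : maximalIdeal O ≤ (maximalIdeal (PP O ι)).comap (C : O →+* PP O ι) := fun o ho =>
    hS.max.1 ((pC o).trans ((hO.ker o).2 ho))
  let w : O ⧸ maximalIdeal O ^ k →+* PP O ι ⧸ a :=
    Ideal.Quotient.lift _ ((Ideal.Quotient.mk a).comp C) fun o ho =>
      Ideal.Quotient.eq_zero_iff_mem.2
        (hk (Ideal.le_comap_pow C k (Ideal.pow_right_mono h1 k ho)))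
  exact opn_of_le (pm (Ideal.Quotient.mk (maximalIdeal O ^ k)) L.r) _ (hO.cont k)
    fun g hg => pm_one w _ hg

theorem rq_lift (hS : (dt G).Ok) (hO : OkG L S) (ha : a ≤ maximalIdeal (PP O ι)) :
    Lift (hS.πq ha) (rbm S) (rq L a) := fun g => by
  ext i j
  exact (pC _).trans (congrFun (congrFun (hO.lift g) i) j)

theorem rq_ch [CharP F 2] (hS : (dt G).Ok) (hO : OkG L S) (ha : a ≤ maximalIdeal (PP O ι))
    (hA : LR (hS.πq ha)) {l : ℕ} (hl : l ∈ L.W) :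
    ch (hS.πq ha) (rbm S) (L.g0 l) (L.τ l) (rq L a) = Ideal.Quotient.mk a (C (L.a l)) := by
  obtain ⟨y, h1, h2, h3⟩ := hO.ty l hl
  set j : O →+* PP O ι ⧸ a := (Ideal.Quotient.mk a).comp C with hj
  have t : ∀ g, (rq L a g).trace = j (L.r g).trace := fun g => by
    rw [Matrix.trace_fin_two, Matrix.trace_fin_two, map_add]; rfl
  have d : ∀ g, (rq L a g).det = j (L.r g).det := fun g => by
    rw [RingHom.map_det]; rfl
  refine (ch_iff (hO.wd hl) hA (rq_lift hS hO ha) (y := j y) ?_ ((pC y).trans h2) _ _).1 ?_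
  · unfold Rt at h1 ⊢
    have := congrArg j h1
    rwa [map_add, map_sub, map_mul j, map_pow, ← t, ← d, map_zero] at this
  · unfold En at h3 ⊢
    have := congrArg j h3
    rwa [map_sub j, map_mul j, map_mul j, map_sub j, map_mul j, map_ofNat j, ← t, ← t, ← t] at this

theorem pw [CharP F 2] (hS : (dt G).Ok) (hO : OkG L S) (ha : a ≤ maximalIdeal (PP O ι))
    (hA : LR (hS.πq ha)) {k : ℕ} (hk : maximalIdeal (PP O ι) ^ k ≤ a) {l : ℕ} (hl : l ∈ L.W)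
    {ρ : GQ →* M2 (PP O ι ⧸ a)} (h : Adm (dt G) (Ideal.Quotient.mk a) ρ) {e m : ℕ} (hm : Odd m)
    (he : l ^ 2 = 2 ^ e * m + 1) :
    ch (hS.πq ha) (rbm S) (L.g0 l) (L.τ l) ρ ^ 2 ^ e = Ideal.Quotient.mk a (C (L.a l)) ^ 2 ^ e := by
  obtain ⟨N, hT⟩ := (hO.tm l (Finset.mem_union_left _ hl)).tame _ (ρ.prod (rq L a)) (by
    have : {g | (ρ.prod (rq L a)) g = 1} = {g | ρ g = 1} ∩ {g | rq L a g = 1} :=
      Set.ext fun g => Prod.ext_iff
    rw [this]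
    exact h.opn.inter (rq_opn hS hO hk))
  rw [← rq_ch hS hO ha hA hl]
  exact ch_pow (hO.wd hl) hA (h.red fun _ => rfl) (rq_lift hS hO ha) hT hm he

/-- the value of the character at the point -/
theorem at_pt [CharP F 2] (hS : (dt G).Ok) {X : Finset ℕ} {as : ℕ} (hC : Cx S L X as)
    (ha : a ≤ maximalIdeal (PP O ι)) (hA : LR (hS.πq ha)) {k : ℕ}
    (hk : maximalIdeal (PP O ι) ^ k ≤ a) {l : ℕ} (hl : l ∈ L.W)
    {ρ : GQ →* M2 (PP O ι ⧸ a)} (h : Adm (dt G) (Ideal.Quotient.mk a) ρ) {θ : PP O ι →+* O}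
    (hθ : Pt G (RingHom.id O) L.r θ) (hπ : ∀ p, S.red (θ p) = (dt G).π0 p)
    (hθa : ∀ p ∈ a, C (θ p) ∈ a) {U : PP O ι}
    (hU : Ideal.Quotient.mk a U = ch (hS.πq ha) (rbm S) (L.g0 l) (L.τ l) ρ) :
    C (θ U) - C (L.a l) ∈ a := by
  let e : PP O ι ⧸ a →+* PP O ι ⧸ a :=
    Ideal.Quotient.lift a (((Ideal.Quotient.mk a).comp C).comp θ) fun p hp =>
      Ideal.Quotient.eq_zero_iff_mem.2 (hθa p hp)
  have he : ∀ p, e (Ideal.Quotient.mk a p) = Ideal.Quotient.mk a (C (θ p)) := fun _ => rfl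
  have hc : ∀ o, θ (C o) = o := hθ.c
  have h2 : Adm (dt G) (e.comp (Ideal.Quotient.mk a)) (rq L a) := by
    refine ⟨fun i => ?_, fun g => ?_, rq_opn hS hC.ok hk, fun l hl P hP g hg =>
      pm_one _ _ (hC.unr l hP.1 (Or.inl hl) P hP.2.1 hP.2.2 g hg), fun g i j =>
        ⟨C (L.r g i j), ?_, (pC _).trans (congrFun (congrFun (hC.ok.lift g) i) j)⟩⟩
    · ext x y
      exact congrArg (fun o => Ideal.Quotient.mk a (C o)) (hθ.z i x y).symm
    · rw [RingHom.comp_apply, he, hc]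
      exact (((Ideal.Quotient.mk a).comp C).map_det (L.r g)).symm
    · rw [RingHom.comp_apply, he, hc]
      rfl
  have h3 := Pres.uniq hS ⟨k, fun p hp => by
    rw [RingHom.mem_ker, RingHom.comp_apply, Ideal.Quotient.eq_zero_iff_mem.2 (hk hp), map_zero]⟩
    (h.map e) h2
  have h4 := ch_nat (hC.ok.wd hl) hA hA e (fun x => by
    obtain ⟨p, rfl⟩ := Ideal.Quotient.mk_surjective x
    exact (pC _).trans (hπ p)) (ρ := ρ) (h.red fun _ => rfl) (ρ' := rq L a)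
    (fun g => DFunLike.congr_fun h3 g) (L.τ l)
  rw [rq_ch hS hC.ok ha hA hl, ← hU, he] at h4
  exact Ideal.Quotient.eq.1 h4.symm

theorem step [CharP F 2] (hS : (dt G).Ok) (hO : OkG L S) {b : Ideal (PP O ι)} (hle : b ≤ a)
    (ha : a ≤ maximalIdeal (PP O ι)) (hb : b ≤ maximalIdeal (PP O ι)) (hA : LR (hS.πq ha))
    (hB : LR (hS.πq hb)) {k : ℕ} (hk : maximalIdeal (PP O ι) ^ k ≤ a) {l : ℕ} (hl : l ∈ L.W)
    {ρ : GQ →* M2 (PP O ι ⧸ a)} (h : Adm (dt G) (Ideal.Quotient.mk a) ρ)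
    {ρ' : GQ →* M2 (PP O ι ⧸ b)} (h' : Adm (dt G) (Ideal.Quotient.mk b) ρ') {p p' : PP O ι}
    (hp : Ideal.Quotient.mk a p = ch (hS.πq ha) (rbm S) (L.g0 l) (L.τ l) ρ)
    (hp' : Ideal.Quotient.mk b p' = ch (hS.πq hb) (rbm S) (L.g0 l) (L.τ l) ρ') : p' - p ∈ a := by
  have h3 := Pres.uniq0 hS hk (h'.map (Ideal.Quotient.factor hle)) h
  have h4 := ch_nat (hO.wd hl) hB hA (Ideal.Quotient.factor hle) (fun x => by
    obtain ⟨p, rfl⟩ := Ideal.Quotient.mk_surjective x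
    rfl) (ρ := ρ') (h'.red fun _ => rfl) (ρ' := ρ) (fun g => DFunLike.congr_fun h3 g) (L.τ l)
  rw [← hp, ← hp'] at h4
  exact Ideal.Quotient.eq.1 h4.symm

theorem th_res [Fintype ι] (hS : (dt G).Ok) (hO : OkG L S) {ϖ : O}
    (hm : maximalIdeal O = Ideal.span {ϖ}) {θ : PP O ι →+* O} (hθ : Pt G (RingHom.id O) L.r θ)
    (p : PP O ι) : S.red (θ p) = (dt G).π0 p := by
  have hc : ∀ o, θ (C o) = o := hθ.c
  have hloc : maximalIdeal (PP O ι) ≤ (maximalIdeal O).comap θ := by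
    rw [P022D.Rl.Ch0.max_eq hm, Ideal.span_le]
    rintro _ (rfl | ⟨s, rfl⟩)
    · show θ (C ϖ) ∈ maximalIdeal O
      rw [hc, hm]
      exact Ideal.mem_span_singleton_self ϖ
    · have k0 : θ (C (c0 G s.1 s.2.1 s.2.2) + MvPowerSeries.X s) =
          L.r (G.γ s.1) s.2.1 s.2.2 := hθ.z s.1 s.2.1 s.2.2
      have k1 : S.red (c0 G s.1 s.2.1 s.2.2) = mx S.rb (G.γ s.1) s.2.1 s.2.2 :=
        congrFun (congrFun (hS.lift s.1) s.2.1) s.2.2
      have k2 : S.red (L.r (G.γ s.1) s.2.1 s.2.2) = mx S.rb (G.γ s.1) s.2.1 s.2.2 :=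
        congrFun (congrFun (hO.lift _) s.2.1) s.2.2
      rw [map_add, hc] at k0
      show θ (MvPowerSeries.X s) ∈ maximalIdeal O
      rw [← hO.ker, eq_sub_of_add_eq' k0, map_sub, k1, k2, sub_self]
  have k1 : p - C (constantCoeff p) ∈ maximalIdeal (PP O ι) := hS.max.1 (by
    rw [map_sub, pC]; exact sub_self _)
  have k2 := (hO.ker _).2 (hloc k1)
  rw [map_sub, map_sub, hc] at k2
  exact sub_eq_zero.1 k2

theorem th_le (hS : (dt G).Ok) {θ : PP O ι →+* O} (hπ : ∀ p, S.red (θ p) = (dt G).π0 p)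
    {q : Ideal (PP O ι)} (hq : q ≤ RingHom.ker θ) (k : ℕ) :
    ∀ p ∈ q ⊔ maximalIdeal (PP O ι) ^ k, C (θ p) ∈ q ⊔ maximalIdeal (PP O ι) ^ k := by
  intro p hp
  have hl2 : maximalIdeal (PP O ι) ≤
      (maximalIdeal (PP O ι)).comap ((C : O →+* PP O ι).comp θ) := fun p hp =>
    hS.max.1 ((pC _).trans ((hπ p).trans (hS.max.2 hp)))
  obtain ⟨y, hy, z, hz, rfl⟩ := Submodule.mem_sup.1 hp
  rw [map_add, show θ y = 0 from hq hy, zero_add]
  exact Ideal.mem_sup_right (Ideal.le_comap_pow ((C : O →+* PP O ι).comp θ) k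
    (Ideal.pow_right_mono hl2 k hz))

theorem r2 {R : Type} [CommRing R] {q : Ideal R} (j : O →+* R) {ϖ : O} (h0 : j ϖ ∈ q)
    (t : (2 : O) ∈ Ideal.span {ϖ}) {x y : R} (h : x + y ∈ q) : x - y ∈ q := by
  obtain ⟨c, hc⟩ := Ideal.mem_span_singleton'.1 t
  have t2 : (2 : R) ∈ q := by
    rw [← map_ofNat j, ← hc, map_mul]
    exact q.mul_mem_left _ h0
  have := q.sub_mem h (q.mul_mem_right y t2)
  rwa [show x + y - 2 * y = x - y by ring] at this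

theorem r0 [IsDomain O] (h2 : (2 : O) ≠ 0) {R : Type} [CommRing R] {q : Ideal R} (j : O →+* R)
    (θ : R →+* O) (hc : ∀ o, θ (j o) = o) (hq : q ≤ RingHom.ker θ) {U : R} {x : O}
    (k3 : j (θ U) - j x ∈ q) (n : ℕ) (h : U ^ n + j x ^ n ∈ q) : U ^ n - j x ^ n ∈ q := by
  have k4 : θ (j (θ U) - j x) = 0 := hq k3
  have k5 : θ (U ^ n + j x ^ n) = 0 := hq h
  rw [map_sub, hc, hc, sub_eq_zero] at k4
  rw [map_add, map_pow, map_pow, hc, k4, ← two_mul] at k5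
  have k6 := (mul_eq_zero.1 k5).resolve_left h2
  rw [← map_pow, k6, map_zero] at h ⊢
  rwa [add_zero, ← sub_zero (U ^ n)] at h

theorem sq2 {l : ℕ} (hp : l.Prime) : ∃ e n, Odd n ∧ l ^ 2 = 2 ^ e * n + 1 := by
  have h1 : l ^ 2 - 1 ≠ 0 := by
    have := hp.two_le
    have : 2 ^ 2 ≤ l ^ 2 := Nat.pow_le_pow_left this 2
    omega
  obtain ⟨e, n, hn, he⟩ := Nat.exists_eq_two_pow_mul_odd h1
  exact ⟨e, n, hn, by omega⟩

theorem fin [CharP F 2] (hS : (dt G).Ok) (hO : OkG L S) (ha : a ≤ maximalIdeal (PP O ι))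
    (hf : Finite (PP O ι ⧸ a)) (hA : LR (hS.πq ha)) {ρ : GQ →* M2 (PP O ι ⧸ a)}
    (h : Adm (dt G) (Ideal.Quotient.mk a) ρ) (hL : L0 G ≤ a)
    (key : ∀ l ∈ L.W, ch (hS.πq ha) (rbm S) (L.g0 l) (L.τ l) ρ = Ideal.Quotient.mk a (C (L.a l)))
    {φ : PS O (Sy ι) →+* PP O ι} (hφ : IsPhi G φ) {f : PS O (Sy ι)} (hf' : f ∈ G.aG) : φ f ∈ a := by
  refine Ideal.Quotient.eq_zero_iff_mem.1 ?_
  refine hf' _ _ _ ((Ideal.Quotient.mk a).comp φ) ⟨ob hS ha hf h hL, ⟨⟨fun g _ => h.det g, ?_,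
    fun l _ => h.det _, fun l hl => ?_⟩, fun l h1 h2 _ P h3 h4 g hg =>
      h.unr l h2 P ⟨h1, h3, h4⟩ g hg⟩, rfl, rfl⟩ (Ag.hm hφ _ h.gen)
  · refine (h.det L.c).trans ?_
    show Ideal.Quotient.mk a (C (L.r L.c).det) = -1
    rw [hO.odd, map_neg, map_neg, map_one, map_one]
  · obtain ⟨-, hH, hne⟩ := hO.reg l hl
    obtain ⟨y, y1, y2⟩ := obj_rt (ob hS ha hf h hL) hO.dh hH hne
    exact ⟨y, y1, y2, (ch_iff (hO.wd hl) hA (h.red fun _ => rfl) y1 y2 _ _).2 (key l hl)⟩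

theorem main [IsDomain O] [IsNoetherianRing O] [IsAdicComplete (maximalIdeal O) O] [Finite F]
    [CharP F 2] [Fintype ι] (hS : (dt G).Ok) {X : Finset ℕ} {as : ℕ} (hC : Cx S L X as) {ϖ : O}
    (h2 : (2 : O) ≠ 0) (hm : maximalIdeal O = Ideal.span {ϖ}) {φ : PS O (Sy ι) →+* PP O ι}
    (hφ : IsPhi G φ) {q : Ideal (PP O ι)} (hq : q.IsPrime) (hJ : Jac (dt G) ⊔ L0 G ≤ q)
    (hcase : C ϖ ∈ q ∨ ∃ θ : PP O ι →+* O, Pt G (RingHom.id O) L.r θ ∧ q ≤ RingHom.ker θ)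
    {f : PS O (Sy ι)} (hf' : f ∈ G.aG) : φ f ∈ q := by
  have := P022D.L2b.isAdicCompleteV (σ := Pres.Ix ι) (V := O) inferInstance
  have ha : ∀ k, q ⊔ maximalIdeal (PP O ι) ^ (k + 1) ≤ maximalIdeal (PP O ι) := fun k =>
    sup_le (le_maximalIdeal hq.ne_top) (Ideal.pow_le_self (Nat.succ_ne_zero k))
  have hf : ∀ k, Finite (PP O ι ⧸ (q ⊔ maximalIdeal (PP O ι) ^ (k + 1))) := fun k =>
    haveI := Pres.fin_pow hS (k + 1)
    Finite.of_surjective _ (Ideal.Quotient.factor_surjective le_sup_right)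
  choose ρ hρ using fun k => ((Pres.go_jac hS (k + 1)).mono
    (sup_le_sup_right (le_sup_left.trans hJ) _)).2
  have hA : ∀ k, LR (hS.πq (ha k)) := fun k =>
    haveI := hf k
    LR.of_finite _ (loc hS (ha k))
  refine krull q fun k => fin hS hC.ok (ha k) (hf k) (hA k) (hρ k)
    ((le_sup_right.trans hJ).trans le_sup_left) (fun l hl => ?_) hφ hf'
  obtain ⟨e, n, hn, he⟩ := sq2 (hC.ok.pr l (Finset.mem_union_left _ hl)).1
  choose p hp using fun k => Ideal.Quotient.mk_surjective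
    (ch (hS.πq (ha k)) (rbm S) (L.g0 l) (L.τ l) (ρ k))
  have st : ∀ k, p (k + 1) - p k ∈ q ⊔ maximalIdeal (PP O ι) ^ (k + 1) := fun k =>
    step hS hC.ok (sup_le_sup_left (Ideal.pow_le_pow_right (Nat.le_succ _)) _) (ha k) (ha (k + 1))
      (hA k) (hA (k + 1)) le_sup_right hl (hρ k) (hρ (k + 1)) (hp k) (hp (k + 1))
  obtain ⟨U, hU⟩ := lim (maximalIdeal (PP O ι)) q p fun k =>
    sup_le_sup_left (Ideal.pow_le_pow_right (Nat.le_succ k)) q (st k)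
  have hU' : ∀ k, Ideal.Quotient.mk _ U = ch (hS.πq (ha k)) (rbm S) (L.g0 l) (L.τ l) (ρ k) :=
    fun k => by
      rw [← hp, Ideal.Quotient.eq, ← sub_add_sub_cancel U (p (k + 1))]
      exact Ideal.add_mem _ (hU (k + 1)) (st k)
  have hq1 : U ^ 2 ^ e - C (L.a l) ^ 2 ^ e ∈ q := krull q fun k => Ideal.Quotient.eq.1 (by
    rw [map_pow, map_pow, hU']
    exact pw hS hC.ok (ha k) (hA k) le_sup_right hl (hρ k) hn he)
  have hq2 : U - C (L.a l) ∈ q := by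
    refine root hq (fun n h => ?_) e hq1
    rcases hcase with h0 | ⟨θ, hθ, hθq⟩
    · exact r2 C h0 (hm ▸ (hC.ok.ker 2).1 (by rw [map_ofNat]; exact CharTwo.two_eq_zero)) h
    · have hπ := th_res hS hC.ok hm hθ
      exact r0 h2 C θ hθ.c hθq (krull q fun k => at_pt hS hC (ha k) (hA k) le_sup_right hl (hρ k)
        hθ hπ (th_le hS hπ hθq (k + 1)) (hU' k)) n h
  rw [← hU']
  exact Ideal.Quotient.eq.2 (Ideal.mem_sup_left hq2)

end Ag

/-- **the relations of the traces** -/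
theorem agC (hD : DOK) : AG := by
  intro O F _ _ _ _ _ _ _ S L κ gk ι _ G ϖ X as h2 hϖ hC φ hφ q hq hJ hcase
  rw [Ideal.map_le_iff_le_comap]
  exact fun f hf => Ag.main (hD O F S L κ gk ι G ϖ X as h2 hϖ hC) hC h2
    ((IsDiscreteValuationRing.irreducible_iff_uniformizer ϖ).1 hϖ) hφ hq hJ hcase hf

end Vale.Agent.P022G.Tr
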