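import Vale.Agent.P022G.Tr.CrvPtH87

/-! # P022G: normalising a curve in the induced case -/

set_option linter.all false

noncomputable section

namespace Vale.Agent.P022G.Tr.H87

open NumberField IsLocalRing MvPowerSeries
open Vale.Agent.P022 Vale.Agent.P022G.R Vale.Agent.P022G.Loc
open Vale.Agent.P027M.S (Inert mx)
open Vale.Agent.P022D.Sel (M2)
open Vale.Agent.P022D.Core (PS)
open Vale.Agent.P022E.Loc (Pl)

section
variable {V : Type} [CommRing V]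

/-- the diagonal matrix with entries `u`, `1` -/
def dg (u : Vˣ) : GL (Fin 2) V :=
  ⟨!![(u : V), 0; 0, 1], !![((u⁻¹ : Vˣ) : V), 0; 0, 1],
    by rw [Matrix.mul_fin_two, Matrix.one_fin_two]; simp,
    by rw [Matrix.mul_fin_two, Matrix.one_fin_two]; simp⟩

/-- the conjugate representation -/
def cj (u : Vˣ) (ρ : GQ →* GL (Fin 2) V) : GQ →* GL (Fin 2) V :=
  (MulAut.conj (dg u)).toMonoidHom.comp ρ

theorem cj_val (u : Vˣ) (ρ : GQ →* GL (Fin 2) V) (g : GQ) :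
    (cj u ρ g : M2 V) = !![(ρ g : M2 V) 0 0, u * (ρ g : M2 V) 0 1;
      (u⁻¹ : Vˣ) * (ρ g : M2 V) 1 0, (ρ g : M2 V) 1 1] := by
  show !![(u : V), 0; 0, 1] * (ρ g : M2 V) * !![((u⁻¹ : Vˣ) : V), 0; 0, 1] = _
  rw [Matrix.eta_fin_two (ρ g : M2 V), Matrix.mul_fin_two, Matrix.mul_fin_two]
  have e : (u : V) * (ρ g : M2 V) 0 0 * (u⁻¹ : Vˣ) = (ρ g : M2 V) 0 0 := by
    rw [mul_right_comm, Units.mul_inv, one_mul]
  simp [e, mul_comm]

theorem cj_00 (u : Vˣ) (ρ : GQ →* GL (Fin 2) V) (g : GQ) :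
    (cj u ρ g : M2 V) 0 0 = (ρ g : M2 V) 0 0 := by rw [cj_val]; rfl

theorem cj_01 (u : Vˣ) (ρ : GQ →* GL (Fin 2) V) (g : GQ) :
    (cj u ρ g : M2 V) 0 1 = u * (ρ g : M2 V) 0 1 := by rw [cj_val]; rfl

theorem cj_10 (u : Vˣ) (ρ : GQ →* GL (Fin 2) V) (g : GQ) :
    (cj u ρ g : M2 V) 1 0 = (u⁻¹ : Vˣ) * (ρ g : M2 V) 1 0 := by rw [cj_val]; rfl

theorem cj_11 (u : Vˣ) (ρ : GQ →* GL (Fin 2) V) (g : GQ) :
    (cj u ρ g : M2 V) 1 1 = (ρ g : M2 V) 1 1 := by rw [cj_val]; rfl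

theorem cj_tr (u : Vˣ) (ρ : GQ →* GL (Fin 2) V) (g : GQ) :
    (cj u ρ g : M2 V).trace = (ρ g : M2 V).trace := by
  rw [Matrix.trace_fin_two, Matrix.trace_fin_two, cj_00, cj_11]

theorem cj_bc (u : Vˣ) (ρ : GQ →* GL (Fin 2) V) (g h : GQ) :
    (cj u ρ g : M2 V) 0 1 * (cj u ρ h : M2 V) 1 0 = (ρ g : M2 V) 0 1 * (ρ h : M2 V) 1 0 := by
  rw [cj_01, cj_10, mul_mul_mul_comm, Units.mul_inv, one_mul]

theorem cj_det (u : Vˣ) (ρ : GQ →* GL (Fin 2) V) (g : GQ) :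
    (cj u ρ g : M2 V).det = (ρ g : M2 V).det := by
  rw [Matrix.det_fin_two, Matrix.det_fin_two, cj_00, cj_11, cj_bc]

theorem cj_rd (u : Vˣ) (ρ : GQ →* GL (Fin 2) V) (J : Ideal V) (g : GQ) :
    _root_.P022G.Sel.rd J (cj u ρ) g = 1 ↔ _root_.P022G.Sel.rd J ρ g = 1 := by
  show Matrix.GeneralLinearGroup.map (Ideal.Quotient.mk J) (dg u * ρ g * (dg u)⁻¹) = 1 ↔
    Matrix.GeneralLinearGroup.map (Ideal.Quotient.mk J) (ρ g) = 1
  rw [map_mul, map_mul, map_inv, mul_inv_eq_one, mul_eq_left]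

end

variable {O F : Type} [CommRing O] [Field F] {S : Dat O F} {L : Pl O} {κ : Type} {gk : κ → GQ}
  {ι : Type} {G : Gs S L gk ι} {V : Type} [CommRing V]
  {t : V} {j : O →+* V} {ρ : GQ →* GL (Fin 2) V} {θ : PS O (Sy ι) →+* V}

theorem crv_cj (hc : G.Crv t j ρ θ) (u : Vˣ) (hu : t ∣ (u : V) - 1) : G.Crv t j (cj u ρ) θ := by
  have hv : t ∣ ((u⁻¹ : Vˣ) : V) - 1 := by
    have e : ((u⁻¹ : Vˣ) : V) - 1 = -((u⁻¹ : Vˣ) : V) * ((u : V) - 1) := by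
      rw [mul_sub, neg_mul, Units.inv_mul]
      ring
    rw [e]
    exact hu.mul_left _
  have key : ∀ w x y : V, t ∣ w - 1 → t ∣ x - y → t ∣ w * x - y := by
    intro w x y h1 h2
    have e : w * x - y = (w - 1) * x + (x - y) := by ring
    rw [e]
    exact dvd_add (h1.mul_right _) h2
  refine ⟨⟨hc.hm.c, fun s => ?_⟩, fun g a b => ?_, ?_, fun N => ?_, fun g => ?_, fun l hl => ?_⟩
  · rw [hc.hm.x]
    rcases s with i | i | ⟨i, k⟩
    · exact congrArg (· - _) (cj_00 u ρ _).symm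
    · exact congrArg (· - _) (cj_11 u ρ _).symm
    · exact congrArg (· - _) (cj_bc u ρ _ _).symm
  · fin_cases a <;> fin_cases b
    · show t ∣ (cj u ρ g : M2 V) 0 0 - j (L.r g 0 0)
      rw [cj_00]
      exact hc.res g 0 0
    · show t ∣ (cj u ρ g : M2 V) 0 1 - j (L.r g 0 1)
      rw [cj_01]
      exact key _ _ _ hu (hc.res g 0 1)
    · show t ∣ (cj u ρ g : M2 V) 1 0 - j (L.r g 1 0)
      rw [cj_10]
      exact key _ _ _ hv (hc.res g 1 0)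
    · show t ∣ (cj u ρ g : M2 V) 1 1 - j (L.r g 1 1)
      rw [cj_11]
      exact hc.res g 1 1
  · rw [cj_01, cj_10, hc.dg.1, hc.dg.2, mul_zero, mul_zero]
    exact ⟨rfl, rfl⟩
  · refine ⟨?_, (hc.lv N).h0, (hc.lv N).h2, (hc.lv N).dec, fun l hl P hP g hg =>
      (cj_rd u ρ _ g).2 ((hc.lv N).unr l hl P hP g hg)⟩
    simpa only [cj_rd] using (hc.lv N).opn
  · rw [cj_det, hc.det]
  · simpa only [cj_tr] using hc.ty l hl

theorem off_unit [IsLocalRing O] (hL : OkG L S) {g : GQ} (hg : g ∉ L.H) :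
    IsUnit (L.r g 0 1) ∧ IsUnit (L.r g 1 0) := by
  have h1 := hL.det g
  rw [Matrix.det_fin_two, (hL.dh.ad g hg).1, zero_mul, zero_sub] at h1
  have e : ∀ a b, S.red (L.r g a b) = mx S.rb g a b := fun a b =>
    congrFun (congrFun (hL.lift g) a) b
  constructor
  · by_contra h
    have h2 := (hL.ker _).2 ((mem_maximalIdeal _).2 h)
    rw [e] at h2
    rw [h2, zero_mul, neg_zero] at h1
    exact zero_ne_one h1
  · by_contra h
    have h2 := (hL.ker _).2 ((mem_maximalIdeal _).2 h)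
    rw [e] at h2
    rw [h2, mul_zero, neg_zero] at h1
    exact zero_ne_one h1

/-- **normal form of a curve in the induced case** -/
theorem crv_norm [IsLocalRing O] [IsLocalRing V] (hL : OkG L S) (ht : ¬ IsUnit t)
    (hc : G.Crv t j ρ θ) {i : ι} (hi : G.γ i ∉ L.H) :
    ∃ ρ' : GQ →* GL (Fin 2) V, G.Crv t j ρ' θ ∧ (ρ' (G.γ i) : M2 V) 0 1 = j (G.rc i 0 1) := by
  obtain ⟨b0, hb0⟩ := (off_unit hL hi).1.map j
  have h1 := hc.res (G.γ i) 0 1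
  have hb : IsUnit ((ρ (G.γ i) : M2 V) 0 1) := by
    by_contra h
    obtain ⟨c, hc'⟩ := h1
    have h2 : j (L.r (G.γ i) 0 1) = (ρ (G.γ i) : M2 V) 0 1 - t * c := by rw [← hc']; ring
    have h3 : j (L.r (G.γ i) 0 1) ∈ maximalIdeal V := by
      rw [h2]
      exact sub_mem ((mem_maximalIdeal _).2 h)
        (Ideal.mul_mem_right _ _ ((mem_maximalIdeal _).2 ht))
    exact (mem_maximalIdeal _).1 h3 (hb0 ▸ b0.isUnit)
  obtain ⟨b, hb⟩ := hb
  refine ⟨cj (b0 * b⁻¹) ρ, crv_cj hc _ ?_, ?_⟩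
  · have e : ((b0 * b⁻¹ : Vˣ) : V) - 1 = -((b⁻¹ : Vˣ) : V) * ((b : V) - b0) := by
      rw [mul_sub, neg_mul, Units.inv_mul, Units.val_mul]
      ring
    rw [e, hb, hb0]
    exact h1.mul_left _
  · rw [cj_01, ← hb, Units.val_mul, mul_assoc, Units.inv_mul, mul_one, hb0]
    rfl

/-- in the induced case a generator lies outside `H` -/
theorem ex_i1 [IsLocalRing O] [Finite F] (G : Gs S L gk ι) {X : Finset ℕ} {as : ℕ}
    (hC : Cx S L X as) (hH : L.H ≠ ⊤) : ∃ i, G.γ i ∉ L.H := by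
  by_contra hn
  have hn' : ∀ i, G.γ i ∈ L.H := fun i => by_contra fun h => hn ⟨i, h⟩
  obtain ⟨g, hg⟩ : ∃ g, g ∉ L.H := by
    by_contra h
    exact hH (eq_top_iff.2 fun g _ => by_contra fun k => h ⟨g, k⟩)
  have h := G.gen 0 Fin.elim0 Fin.elim0 (fun i => i.elim0) _ S.rb hC.ok.dh.opn
    (fun g hg => ⟨0, by rw [hg, one_pow]⟩)
    (fun l hl hT _ Q hQ hlQ s hs => by
      have h1 := hC.ok.lift s
      rw [hC.unr l hl (Or.inl hT) Q hQ hlQ s hs, Matrix.map_one _ (map_zero _) (map_one _)] at h1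
      exact Units.ext h1.symm) g
  have hle : Subgroup.closure (Set.range fun i : ι ⊕ Fin 0 =>
      S.rb (Sum.elim G.γ Fin.elim0 i)) ≤ L.H.map S.rb := by
    rw [Subgroup.closure_le]
    rintro _ ⟨i, rfl⟩
    rcases i with i | i
    · exact ⟨G.γ i, hn' i, rfl⟩
    · exact i.elim0
  obtain ⟨k, hk, e⟩ := hle h
  have h2 : mx S.rb g 0 1 = 0 := by
    have h3 := (hC.ok.dh.dg k hk).1
    show (S.rb g : M2 F) 0 1 = 0
    rw [← e]
    exact h3
  have h4 : S.red (L.r g 0 1) = mx S.rb g 0 1 := congrFun (congrFun (hC.ok.lift g) 0) 1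
  exact ((off_unit hC.ok hg).1.map S.red).ne_zero (h4.trans h2)

end Vale.Agent.P022G.Tr.H87
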