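import Vale.Agent.P022G.Tr.Phi
import Vale.Agent.P022D.Loc2.Obj

/-!
# P022G: the lists of equations
-/

set_option linter.all false

noncomputable section

namespace Vale.Agent.P022G.Tr

open IsLocalRing MvPowerSeries
open Vale.Agent.P022 Vale.Agent.P022G.R Vale.Agent.P022G.Loc
open Vale.Agent.P027M.S (mx)
open Vale.Agent.P022D.Sel (M2)
open Vale.Agent.P022D.Core (PS)
open Vale.Agent.P022E.Loc (Pl)
open Vale.Agent.P022G.Pres (PP Dt Jac Un)
open Vale.Agent.P022D.CA Vale.Agent.P022G.Trc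

section lists
variable {R : Type} [CommRing R]

/-- the ideal is generated by a list of length `n` -/
def Ln (I : Ideal R) (n : ℕ) : Prop := ∃ fs : List R, fs.length = n ∧ Ideal.ofList fs = I

theorem Ln.sup {I J : Ideal R} {n m : ℕ} (h : Ln I n) (h' : Ln J m) : Ln (I ⊔ J) (n + m) := by
  obtain ⟨fs, rfl, rfl⟩ := h
  obtain ⟨gs, rfl, rfl⟩ := h'
  exact ⟨fs ++ gs, List.length_append, Ideal.ofList_append _ _⟩

theorem ln_range {α : Type} [Fintype α] (f : α → R) :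
    Ln (Ideal.span (Set.range f)) (Fintype.card α) := by
  refine ⟨Finset.univ.toList.map f, by simp, congrArg Ideal.span ?_⟩
  ext x
  simp

theorem ln_one (x : R) : Ln (Ideal.span {x}) 1 := ⟨[x], rfl, Ideal.ofList_singleton x⟩

theorem ln_bot : Ln (⊥ : Ideal R) 0 := ⟨[], rfl, Ideal.ofList_nil⟩

theorem ln_three {α : Type} (p : α → Prop) [Fintype {a // p a}] (f g h : α → R) :
    Ln (Ideal.span {u | ∃ a, p a ∧ (u = f a ∨ u = g a ∨ u = h a)})
      (3 * Fintype.card {a // p a}) := by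
  have := ln_range fun x : {a // p a} × Fin 3 => ![f x.1, g x.1, h x.1] x.2
  rw [Fintype.card_prod, Fintype.card_fin, mul_comm] at this
  suffices e : (Set.range fun x : {a // p a} × Fin 3 => ![f x.1, g x.1, h x.1] x.2) =
      {u | ∃ a, p a ∧ (u = f a ∨ u = g a ∨ u = h a)} by rwa [e] at this
  ext u
  constructor
  · rintro ⟨⟨⟨a, ha⟩, k⟩, rfl⟩
    refine ⟨a, ha, ?_⟩
    fin_cases k
    · exact Or.inl rfl
    · exact Or.inr (Or.inl rfl)
    · exact Or.inr (Or.inr rfl)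
  · rintro ⟨a, ha, rfl | rfl | rfl⟩
    · exact ⟨⟨⟨a, ha⟩, 0⟩, rfl⟩
    · exact ⟨⟨⟨a, ha⟩, 1⟩, rfl⟩
    · exact ⟨⟨⟨a, ha⟩, 2⟩, rfl⟩

theorem mem_ofList {fs : List R} {f : R} (h : f ∈ fs) : f ∈ Ideal.ofList fs := Ideal.subset_span h

end lists

variable {O F : Type} [CommRing O] [Field F] {S : Dat O F} {L : Pl O} {κ : Type} {gk : κ → GQ}
  {ι : Type} (G : Gs S L gk ι)

/-- the invariant equations in the ring of traces -/
def LA (J : Finset L.C) : Ideal (PS O (Sy ι)) := Ideal.span {trS G.rc id G.ic} ⊔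
  Ideal.span {u | ∃ l, l ∈ J ∧ (u = trS G.rc id (G.iτ l) ∨ u = trS G.rc id (G.iφ l) ∨
    u = tr2 G.rc id (G.iτ l) (G.iφ l))}

theorem ln_LA (J : Finset L.C) : Ln (LA G J) (1 + 3 * J.card) := by
  have := ln_three (fun l => l ∈ J) (fun l => trS G.rc id (G.iτ l)) (fun l => trS G.rc id (G.iφ l))
    fun l => tr2 G.rc id (G.iτ l) (G.iφ l)
  rw [Fintype.card_coe] at this
  exact (ln_one _).sup this

theorem ln_L0 [Fintype ι] : Ln (L0 G) (Fintype.card ι + 2) := by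
  rw [L0, Ideal.span_union, Ideal.span_insert]
  exact (ln_range _).sup ((ln_one _).sup (ln_one _))

theorem ln_Lu (J : Finset L.C) : ∃ m, m + 3 * J.card = 3 * L.C.card ∧ Ln (Lu G J) m := by
  classical
  refine ⟨_, ?_, ln_three (fun l => l ∉ J) (fun l => Z G (G.iτ l) 0 0 - 1)
    (fun l => Z G (G.iτ l) 0 1) fun l => Z G (G.iτ l) 1 0⟩
  rw [Fintype.card_subtype_compl, Fintype.card_coe, Fintype.card_coe]
  have := J.card_le_univ
  rw [Fintype.card_coe] at this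
  omega

/-- the trace of complex conjugation vanishes -/
theorem trc_mem [IsLocalRing O] (hL : OkG L S) : trS G.rc id G.ic ∈ G.aG := by
  rintro B _ j v ψ ⟨Y, hY, rfl, rfl⟩ h
  have h1 : ψ (trS G.rc id G.ic) = (Y.ρ L.c).trace := by
    rw [trS, aS, dS, map_add, map_add, map_add, h.c, h.c, h.x, h.x, Matrix.trace_fin_two, ← G.hc]
    exact congrArg₂ (· + ·) (add_sub_cancel _ _) (add_sub_cancel _ _)
  have h2 : Y.ρ L.c * Y.ρ L.c = 1 := by rw [← map_mul, P022D.Loc2.conj_sq hL.cj, map_one]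
  have h3 := hY.1.dc
  have e00 := congrFun (congrFun h2 0) 0
  have e01 := congrFun (congrFun h2 0) 1
  have e10 := congrFun (congrFun h2 1) 0
  simp only [Matrix.mul_apply, Fin.sum_univ_two, Matrix.one_apply_eq, Matrix.one_apply_ne,
    ne_eq, zero_ne_one, one_ne_zero, not_false_eq_true] at e00 e01 e10
  rw [Matrix.det_fin_two] at h3
  rw [h1, Matrix.trace_fin_two]
  generalize Y.ρ L.c 0 0 = a at *
  generalize Y.ρ L.c 0 1 = b at *
  generalize Y.ρ L.c 1 0 = c at *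
  generalize Y.ρ L.c 1 1 = d at *
  linear_combination (a + d) * h3 - d * e00 - d * h3 + c * e01

theorem LA_le [IsLocalRing O] (hL : OkG L S) (ϖ : O) (J : Finset L.C) : LA G J ≤ G.IT ϖ J :=
  sup_le ((Ideal.span_singleton_le_iff_mem _).2
    (Ideal.mem_sup_left (Ideal.mem_sup_left (trc_mem G hL))))
    (Ideal.span_le.2 fun u hu => Ideal.mem_sup_right (Ideal.subset_span (Or.inl hu)))

variable {G}

theorem IsPhi.lt {φ : PS O (Sy ι) →+* PP O ι} (h : IsPhi G φ) (J : Finset L.C) :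
    Lt G J ≤ (LA G J).map φ := by
  refine Ideal.span_le.2 ?_
  rintro f (rfl | ⟨l, hl, rfl | rfl | rfl⟩)
  · rw [← h.tr]
    exact Ideal.mem_map_of_mem φ (Ideal.mem_sup_left (Ideal.mem_span_singleton_self _))
  · rw [← h.tr]
    exact Ideal.mem_map_of_mem φ (Ideal.mem_sup_right (Ideal.subset_span ⟨l, hl, Or.inl rfl⟩))
  · rw [← h.tr]
    exact Ideal.mem_map_of_mem φ
      (Ideal.mem_sup_right (Ideal.subset_span ⟨l, hl, Or.inr (Or.inl rfl)⟩))
  · rw [← h.tr2]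
    exact Ideal.mem_map_of_mem φ
      (Ideal.mem_sup_right (Ideal.subset_span ⟨l, hl, Or.inr (Or.inr rfl)⟩))

/-- the equations `τ_l = 1` of the traces, when the determinant is one -/
theorem IsPhi.tau {φ : PS O (Sy ι) →+* PP O ι} (h : IsPhi G φ) {q : Ideal (PP O ι)}
    (h0 : L0 G ≤ q) {J : Finset L.C} (hu : Lu G J ≤ q) {l : L.C} (hl : l ∉ J)
    (hd : C (G.rc (G.iτ l)).det - 1 ∈ q) : ∀ u ∈ tauP G.rc id (G.iτ l), φ u ∈ q := by
  have ha : Z G (G.iτ l) 0 0 - 1 ∈ q := hu (Ideal.subset_span ⟨l, hl, Or.inl rfl⟩)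
  have hb : Z G (G.iτ l) 0 1 ∈ q := hu (Ideal.subset_span ⟨l, hl, Or.inr (Or.inl rfl)⟩)
  have hc : Z G (G.iτ l) 1 0 ∈ q := hu (Ideal.subset_span ⟨l, hl, Or.inr (Or.inr rfl)⟩)
  have he : de G (G.iτ l) ∈ q := h0 (Ideal.subset_span (Or.inl ⟨_, rfl⟩))
  rintro u ((rfl | rfl) | ⟨k, rfl⟩ | ⟨k, rfl⟩)
  · rwa [map_sub, h.a, map_one]
  · rw [map_sub, h.d, map_one]
    rw [de, Matrix.det_fin_two] at he
    have := q.add_mem (q.add_mem (q.sub_mem he (q.mul_mem_right (Z G (G.iτ l) 1 1) ha))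
      (q.mul_mem_right (Z G (G.iτ l) 1 0) hb)) hd
    rwa [show ∀ a b c d δ : PP O ι, a * d - b * c - δ - (a - 1) * d + b * c + (δ - 1) = d - 1 from
      fun _ _ _ _ _ => by ring] at this
  · show φ (xS G.rc id _ k) ∈ q
    rw [h.xx]; exact q.mul_mem_right _ hb
  · show φ (xS G.rc id k _) ∈ q
    rw [h.xx]; exact q.mul_mem_left _ hc

section
variable [IsDomain O] [IsDiscreteValuationRing O] {ϖ : O}

theorem det_sub (hL : OkG L S) (hϖ : Irreducible ϖ) (g : GQ) : ϖ ∣ (L.r g).det - 1 := by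
  rw [← Ideal.mem_span_singleton, ← hϖ.maximalIdeal_eq, ← hL.ker, map_sub, map_one,
    RingHom.map_det, RingHom.mapMatrix_apply, hL.lift, hL.det, sub_self]

variable [Fintype ι]

/-- the data of the descent; `E` contains the relations and possibly one more equation -/
theorem td (hL : OkG L S) (hϖ : Irreducible ϖ) {φ : PS O (Sy ι) →+* PP O ι} (h : IsPhi G φ)
    (hAG : ∀ q : Ideal (PP O ι), q.IsPrime → Jac (dt G) ⊔ L0 G ≤ q → C ϖ ∈ q → G.aG.map φ ≤ q)
    (J : Finset L.C) {E N : Ideal (PP O ι)} {n e : ℕ} (hE : Ln E n)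
    (hn : n + e + 3 * L.C.card + 5 ≤ 3 * Fintype.card ι)
    (hJ : Jac (dt G) ≤ E ⊔ (Ideal.span {C ϖ} ⊔ L0 G ⊔ Lu G J ⊔ Lt G J))
    (hd : Down φ (Ideal.span {C ϖ} ⊔ (E ⊔ L0 G ⊔ Lu G J)) N e) :
    ∃ fs gs, Ideal.ofList fs = E ⊔ L0 G ⊔ Lu G J ∧ Ideal.ofList gs = LA G J ∧
      gs.length = 1 + 3 * J.card ∧ TD φ (Ideal.span {C ϖ}) N e fs gs (G.IT ϖ J) 2 := by
  obtain ⟨m, hm, hu⟩ := ln_Lu G J
  obtain ⟨fs, hf, hf'⟩ := (hE.sup (ln_L0 G)).sup hu
  obtain ⟨gs, hg, hg'⟩ := ln_LA G J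
  refine ⟨fs, gs, hf', hg', hg, fib_prime S.red S.surj hL.ker hϖ _,
    le_trans ?_ (fib_dim hϖ _), by rwa [hf'], ?_⟩
  · rw [hf, hg, Fintype.card_prod, Fintype.card_prod, Fintype.card_fin]
    exact_mod_cast (by omega)
  · rw [hf', hg', Ideal.radical_eq_sInf]
    refine le_sInf fun q hq => ?_
    obtain ⟨hq, hp⟩ := hq
    have hπ : C ϖ ∈ q := hq (Ideal.mem_sup_left (Ideal.mem_sup_left
      (Ideal.mem_span_singleton_self _)))
    have h1 : E ⊔ L0 G ⊔ Lu G J ≤ q := (le_sup_right.trans le_sup_left).trans hq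
    have h2 : Lt G J ≤ q := (h.lt J).trans (le_sup_right.trans hq)
    have h0 : L0 G ≤ q := (le_sup_right.trans le_sup_left).trans h1
    have hU : Lu G J ≤ q := le_sup_right.trans h1
    have hj : Jac (dt G) ≤ q := hJ.trans (sup_le ((le_sup_left.trans le_sup_left).trans h1)
      (sup_le (sup_le (sup_le ((Ideal.span_singleton_le_iff_mem _).2 hπ) h0) hU) h2))
    rw [Gs.IT, Ideal.map_sup, Ideal.map_sup]
    refine sup_le (sup_le (hAG q hp (sup_le hj h0) hπ) ?_) ?_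
    · rw [Ideal.map_le_iff_le_comap, Ideal.span_singleton_le_iff_mem, Ideal.mem_comap, h.c]
      exact hπ
    · rw [Ideal.map_le_iff_le_comap]
      refine Ideal.span_le.2 ?_
      rintro u (hu | ⟨l, hl, hu⟩)
      · exact le_sup_right.trans hq
          (Ideal.mem_map_of_mem φ (Ideal.mem_sup_right (Ideal.subset_span hu)))
      · refine h.tau h0 hU hl ?_ u hu
        obtain ⟨c, hc⟩ := det_sub hL hϖ (G.γ (G.iτ l))
        rw [← map_one (C : O →+* PP O ι), ← map_sub, Gs.rc, hc, map_mul]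
        exact q.mul_mem_right _ hπ

end

end Vale.Agent.P022G.Tr
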