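import Vale.Agent.P022G.Rows2
import Vale.Agent.P022G.Tr.Td
import Vale.Agent.P022G.Tr.CjH87

/-!
# P022G: components and connectedness of the ring of traces
-/

set_option linter.all false

noncomputable section

namespace Vale.Agent.P022G.Tr

open IsLocalRing MvPowerSeries
open Vale.Agent.P022 Vale.Agent.P022G.R Vale.Agent.P022G.Loc
open Vale.Agent.P027M.S (mx)
open Vale.Agent.P022D.Sel (M2)
open Vale.Agent.P022D.Core (PS Coef)
open Vale.Agent.P022E.Loc (Pl)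
open Vale.Agent.P022G.Pres (Dt Jac Un)
open Vale.Agent.P022D.CA Vale.Agent.P022G.Trc Vale.Agent.P022G.Chain

section surj
variable {O σ τ : Type} [CommRing O] [IsLocalRing O] [IsNoetherianRing O]
  [IsAdicComplete (maximalIdeal O) O] [Fintype σ] [Fintype τ]

theorem surj_of_gen {φ : MvPowerSeries τ O →+* MvPowerSeries σ O} (hC : ∀ o, φ (C o) = C o)
    (hl : ∀ u ∈ maximalIdeal (MvPowerSeries τ O), φ u ∈ maximalIdeal (MvPowerSeries σ O))
    {I : Ideal (MvPowerSeries σ O)} (hI : I ≠ ⊤) (hX : ∀ s, ∃ u, X s - φ u ∈ I) :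
    ∀ x, ∃ u, x - φ u ∈ I := by
  choose u hu using hX
  have hX : ∀ s, (X s : MvPowerSeries σ O) ∈ maximalIdeal _ := fun s =>
    (Cpl.mem_max_iff _).2 (by simp)
  have hm : ∀ s, u s ∈ maximalIdeal (MvPowerSeries τ O) := fun s => by
    by_contra h
    have h1 : φ (u s) ∈ maximalIdeal (MvPowerSeries σ O) := by
      simpa using Ideal.sub_mem _ (hX s) (le_maximalIdeal hI (hu s))
    exact h1 ((notMem_maximalIdeal.1 h).map φ)
  haveI := Cpl.isAdicCompleteV (σ := τ) (V := O) inferInstance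
  obtain ⟨ψ, h1, h2⟩ := Conn.exists_ev (maximalIdeal (MvPowerSeries τ O)) C u hm
  haveI : Nontrivial (MvPowerSeries σ O ⧸ I) := Ideal.Quotient.nontrivial_iff.2 hI
  haveI : IsLocalRing (MvPowerSeries σ O ⧸ I) :=
    .of_surjective' _ (Ideal.Quotient.mk_surjective (I := I))
  have hq : ∀ f ∈ maximalIdeal (MvPowerSeries σ O),
      Ideal.Quotient.mk I f ∈ maximalIdeal (MvPowerSeries σ O ⧸ I) := fun f hf => by
    rw [← map_maximalIdeal_of_surjective _ (Ideal.Quotient.mk_surjective (I := I))]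
    exact Ideal.mem_map_of_mem _ hf
  have hψ : ∀ f ∈ maximalIdeal (MvPowerSeries σ O), ψ f ∈ maximalIdeal (MvPowerSeries τ O) :=
    Tor.loc_of (fun c hc => by rw [h1, Cpl.mem_max_iff, constantCoeff_C]; exact hc)
      fun s => by rw [h2]; exact hm s
  have e : Ideal.Quotient.mk I = (Ideal.Quotient.mk I).comp (φ.comp ψ) :=
    Tor.hom_ext hq (fun f hf => hq _ (hl _ (hψ f hf)))
      (fun c => by rw [RingHom.comp_apply, RingHom.comp_apply, h1, hC])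
      fun s => by rw [RingHom.comp_apply, RingHom.comp_apply, h2]; exact Ideal.Quotient.eq.2 (hu s)
  exact fun x => ⟨ψ x, Ideal.Quotient.eq.1 (RingHom.congr_fun e x)⟩

end surj

variable {O F : Type} [CommRing O] [IsDomain O] [IsDiscreteValuationRing O] [Field F]
  {S : Dat O F} {L : Pl O} {κ : Type} {gk : κ → GQ} {ι : Type} {G : Gs S L gk ι} [Fintype ι]
  [IsAdicComplete (maximalIdeal O) O] {φ : PS O (Sy ι) →+* Pres.PP O ι}

/-- in the dihedral case one more equation kills the torus -/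
theorem surj_dih (hL : OkG L S) (hD : (dt G).Ok) (h : IsPhi G φ) {i1 : ι} (hi : G.γ i1 ∉ L.H)
    {I : Ideal (Pres.PP O ι)} (hI : I ≠ ⊤) (hb : Z G i1 0 1 - C (G.rc i1 0 1) ∈ I) :
    ∀ x, ∃ u, x - φ u ∈ I := by
  obtain ⟨⟨la, hla⟩, hmu⟩ := H87.off_unit hL hi
  have hla' : (la : O) = G.rc i1 0 1 := hla
  have hc : ∀ k, Z G k 1 0 - φ (C (la⁻¹ : Oˣ).1 * xS G.rc id i1 k) ∈ I := fun k => by
    have e : (C (la⁻¹ : Oˣ).1 : Pres.PP O ι) * C (G.rc i1 0 1) = 1 := by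
      rw [← map_mul, ← hla', Units.inv_mul, map_one]
    rw [map_mul, h.c, h.xx, show Z G k 1 0 - C (la⁻¹ : Oˣ).1 * (Z G i1 0 1 * Z G k 1 0) =
      -(C (la⁻¹ : Oˣ).1 * Z G k 1 0) * (Z G i1 0 1 - C (G.rc i1 0 1)) by
        linear_combination (-Z G k 1 0) * e]
    exact I.mul_mem_left _ hb
  obtain ⟨w, hw⟩ : IsUnit (C (la⁻¹ : Oˣ).1 * xS G.rc id i1 i1 : PS O (Sy ι)) := by
    rw [isUnit_iff_constantCoeff, xS, map_mul, map_add, constantCoeff_C, constantCoeff_C,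
      constantCoeff_X, add_zero, ← hla']
    exact (Units.isUnit _).mul ((Units.isUnit _).mul hmu)
  have hbb : ∀ i, Z G i 0 1 - φ (xS G.rc id i i1 * (w⁻¹ : (PS O (Sy ι))ˣ).1) ∈ I := fun i => by
    have e : φ w * φ (w⁻¹ : (PS O (Sy ι))ˣ).1 = 1 := by rw [← map_mul, Units.mul_inv, map_one]
    have := hc i1
    rw [← hw] at this
    rw [map_mul, h.xx, show Z G i 0 1 - Z G i 0 1 * Z G i1 1 0 * φ (w⁻¹ : (PS O (Sy ι))ˣ).1 =
      -(Z G i 0 1 * φ (w⁻¹ : (PS O (Sy ι))ˣ).1) * (Z G i1 1 0 - φ w) by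
        linear_combination (-Z G i 0 1) * e]
    exact I.mul_mem_left _ this
  refine surj_of_gen h.c (h.loc hL hD) hI fun s => ?_
  obtain ⟨u, e | ⟨i, e | e⟩⟩ := h.gen s
  · exact ⟨u, by rw [e, sub_self]; exact I.zero_mem⟩
  · exact ⟨u + _, by rw [e, map_add, add_sub_add_left_eq_sub]; exact hbb i⟩
  · exact ⟨u + _, by rw [e, map_add, add_sub_add_left_eq_sub]; exact hc i⟩

/-- the framed point over an irreducible curve -/
theorem frame (hF : FRP) [Finite F] [CharP F 2] {ϖ : O} {X : Finset ℕ} {as : ℕ}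
    (h2 : (2 : O) ≠ 0) (hϖ : Irreducible ϖ) (hC : Cx S L X as) (h : IsPhi G φ)
    {V : Type} [CommRing V] [IsDomain V] [IsDiscreteValuationRing V] [CharP V 2]
    [IsAdicComplete (maximalIdeal V) V] [Finite (ResidueField V)] {t : V} {j : O →+* V}
    {ρ : GQ →* GL (Fin 2) V} {θ : PS O (Sy ι) →+* V} (ht : Irreducible t) (hc : G.Crv t j ρ θ)
    {J : Finset L.C} (hJ : G.IT ϖ J ≤ RingHom.ker θ) (hi : G.Irr (RingHom.ker θ)) :
    ∃ p : Ideal (Pres.PP O ι), p.IsPrime ∧ Ideal.span {C ϖ} ≤ p ∧ Jac (dt G) ≤ p ∧ L0 G ≤ p ∧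
      Lu G J ≤ p ∧ p.comap φ = RingHom.ker θ ∧ ¬ NZ G ≤ p ∧
      ∀ i, (ρ (G.γ i) : M2 V) 0 1 = j (G.rc i 0 1) → Z G i 0 1 - C (G.rc i 0 1) ∈ p := by
  obtain ⟨th, h1, h3, -, h4, h5, h6⟩ := H87.crvpt hF h2 hϖ hC ht hc
  have hp : (RingHom.ker th).IsPrime := RingHom.ker_isPrime th
  have he : (RingHom.ker th).comap φ = RingHom.ker θ := by rw [RingHom.comap_ker, h6 φ h]
  obtain ⟨i, k, hik⟩ := hi
  rw [← he, Ideal.mem_comap, h.xx] at hik
  refine ⟨_, hp, (Ideal.span_singleton_le_iff_mem _).2 h4, h3, h5, Ideal.span_le.2 ?_, he,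
    fun hN => hik (hN (Ideal.subset_span ⟨i, k, rfl⟩)), fun i hi => ?_⟩
  · rintro f ⟨l, hl, hf⟩
    have ht : ∀ u ∈ tauP G.rc id (G.iτ l), φ u ∈ RingHom.ker th := fun u hu => by
      rw [← Ideal.mem_comap, he]
      exact hJ (Ideal.mem_sup_right (Ideal.subset_span (Or.inr ⟨l, hl, hu⟩)))
    rcases hf with rfl | rfl | rfl
    · have := ht _ (Or.inl (Or.inl rfl))
      rwa [map_sub, h.a, map_one] at this
    · have := ht _ (Or.inr (Or.inl ⟨k, rfl⟩))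
      rw [h.xx] at this
      exact (hp.mem_or_mem this).resolve_right fun h => hik (Ideal.mul_mem_left _ _ h)
    · have := ht _ (Or.inr (Or.inr ⟨i, rfl⟩))
      rw [h.xx] at this
      exact (hp.mem_or_mem this).resolve_left fun h => hik (Ideal.mul_mem_right _ _ h)
  · rw [RingHom.mem_ker, map_sub, h1.z, h1.c]
    exact sub_eq_zero.2 hi

end Vale.Agent.P022G.Tr

namespace Vale.Agent.P022G

open IsLocalRing MvPowerSeries
open Vale.Agent.P022 Vale.Agent.P022G.R Vale.Agent.P022G.Loc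
open Vale.Agent.P022D.Core (PS Coef)
open Vale.Agent.P022G.Pres (Dt Jac Un)
open Vale.Agent.P022D.CA Vale.Agent.P022G.Trc Vale.Agent.P022G.Chain Vale.Agent.P022G.Tr

theorem presc2C (hD : DOK) (hF : FRP) (hA : AG) (hP : PR2) (hCrv : CRV) (hK : KDA) : PRESC2 := by
  intro O F _ _ _ _ _ _ _ ϖ S L X as β τ ι' _ _ _ K ι _ G hϖ hC hKo hE J p hp hJ hi
  haveI : IsAdicComplete (maximalIdeal O) O := Coef.cpl
  haveI := (P022D.Rl.Ch0.reg (σ := Sy ι) hϖ.maximalIdeal_eq).1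
  haveI := (P022D.Rl.Ch0.reg (σ := Pres.Ix ι) hϖ.maximalIdeal_eq).1
  haveI := Cpl.isAdicCompleteV (σ := Sy ι) (V := O) inferInstance
  haveI := Cpl.isAdicCompleteV (σ := Pres.Ix ι) (V := O) inferInstance
  have hS := hD O F S L _ K.g ι G ϖ X as Coef.ne hϖ hC.cx
  obtain ⟨φ, h⟩ := exists_phi hC.cx.ok hS
  obtain ⟨n, e, hn, he, hj⟩ := hP O F S L _ K.g ι G ϖ X as Coef.ne hϖ hC.cx hE.cz J _
    (Ideal.span_eq _)
  obtain ⟨fs, gs, h1, h2, -, H⟩ := td hC.cx.ok hϖ h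
    (fun q hq h1 h2 => hA O F S L _ K.g ι G ϖ X as Coef.ne hϖ hC.cx φ h q hq h1 (Or.inl h2)) J
    (ln_range e) (e := 1) (by rw [Fintype.card_fin]; omega) hj (h.down _)
  obtain ⟨V, _, _, _, _, _, _, t, j, ρ, θ, ht, hc, rfl⟩ := hCrv O F ϖ S L X as β τ ι' K ι G hϖ hC
    hKo p hp ((hK O F ϖ S L X as β τ ι' K ι G hϖ hC hKo).1.trans
      ((le_sup_left.trans le_sup_left).trans hJ))
    (hJ (Ideal.mem_sup_left (Ideal.mem_sup_right (Ideal.mem_span_singleton_self _))))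
  obtain ⟨p', k1, k2, k3, k4, k5, k6, k7, -⟩ := frame hF Coef.ne hϖ hC.cx h ht hc hJ hi
  have hf : Ideal.ofList fs ≤ p' := by
    rw [h1]
    exact sup_le (sup_le (Ideal.span_le.2 (Set.range_subset_iff.2 fun i => k3 (he i))) k4) k5
  obtain ⟨E, hE1, hE2, -⟩ := H.pres k1 k2 (fun f h => hf (mem_ofList h)) (fun g hg => by
    rw [← Ideal.mem_comap, k6]
    exact hJ (LA_le G hC.cx.ok ϖ J (h2 ▸ mem_ofList hg))) k7
  exact ⟨E, hE1, k6 ▸ hE2⟩

theorem connj2C (hD : DOK) (hF : FRP) (hA : AG) (hP : PR2) (hW : WT) (hR : RED) (hCrv : CRV)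
    (hK : KDA) (hN : NICE) : CONNJ2 := by
  intro O F _ _ _ _ _ _ _ ϖ S L X as β τ ι' _ _ _ K ι _ G hϖ hC hKo hE J hX E E' hE1 hE2
  haveI : IsAdicComplete (maximalIdeal O) O := Coef.cpl
  haveI := (P022D.Rl.Ch0.reg (σ := Sy ι) hϖ.maximalIdeal_eq).1
  haveI := (P022D.Rl.Ch0.reg (σ := Pres.Ix ι) hϖ.maximalIdeal_eq).1
  haveI := Cpl.isAdicCompleteV (σ := Sy ι) (V := O) inferInstance
  haveI := Cpl.isAdicCompleteV (σ := Pres.Ix ι) (V := O) inferInstance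
  have hL := hC.cx.ok
  have hS := hD O F S L _ K.g ι G ϖ X as Coef.ne hϖ hC.cx
  obtain ⟨φ, h⟩ := exists_phi hL hS
  have ag := fun q hq h1 h2 =>
    hA O F S L _ K.g ι G ϖ X as Coef.ne hϖ hC.cx φ h q hq h1 (Or.inl h2)
  have hKt : G.IT ϖ J ≠ ⊤ := ne_top_of_le_ne_top hE1.1.ne_top hE1.2.1
  have hπ : (C ϖ : Pres.PP O ι) ∈ Ideal.span {C ϖ} := Ideal.mem_span_singleton_self _
  have c1 : Trc.Cf (Ideal.span {(C ϖ : Pres.PP O ι)}) := fib_cf S.red S.surj hL.ker hϖ hπ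
  have c0 : Trc.Cf ((Ideal.span {(C ϖ : Pres.PP O ι)}).comap φ) :=
    fib_cf S.red S.surj hL.ker hϖ (by rw [Ideal.mem_comap, h.c]; exact hπ)
  -- framed points over all curves
  have fr : ∀ p, Cv p → G.IT ϖ J ≤ p → ∀ i1 : ι, ∃ p' : Ideal (Pres.PP O ι), p'.IsPrime ∧
      Ideal.span {C ϖ} ≤ p' ∧ Jac (dt G) ≤ p' ∧ L0 G ≤ p' ∧ Lu G J ≤ p' ∧ p'.comap φ = p ∧
      (G.γ i1 ∉ L.H → Z G i1 0 1 - C (G.rc i1 0 1) ∈ p') := by
    intro p hp hJ i1
    obtain ⟨V, _, _, _, _, _, _, t, j, ρ, θ, ht, hc, rfl⟩ := hCrv O F ϖ S L X as β τ ι' K ι G hϖ hC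
      hKo p hp ((hK O F ϖ S L X as β τ ι' K ι G hϖ hC hKo).1.trans
        ((le_sup_left.trans le_sup_left).trans hJ))
      (hJ (Ideal.mem_sup_left (Ideal.mem_sup_right (Ideal.mem_span_singleton_self _))))
    have hi := (hN O F ϖ S L X as β τ ι' K ι G hϖ hC hKo V t j ρ θ ht hc hp fun ha =>
      hJ (Ideal.mem_sup_right (Ideal.subset_span (Or.inl
        ⟨⟨as, ha⟩, hX _ hC.cx.mem, Or.inr (Or.inl rfl)⟩)))).2.2
    by_cases h1 : G.γ i1 ∈ L.H
    · obtain ⟨p', k1, k2, k3, k4, k5, k6, -, -⟩ := frame hF Coef.ne hϖ hC.cx h ht hc hJ hi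
      exact ⟨p', k1, k2, k3, k4, k5, k6, fun k => absurd h1 k⟩
    · obtain ⟨ρ', hc', e⟩ := H87.crv_norm hL ht.not_isUnit hc h1
      obtain ⟨p', k1, k2, k3, k4, k5, k6, -, k8⟩ := frame hF Coef.ne hϖ hC.cx h ht hc' hJ hi
      exact ⟨p', k1, k2, k3, k4, k5, k6, fun _ => k8 i1 e⟩
  obtain ⟨p0, hp0, hle⟩ := exists_cv (hE1.mono le_rfl (Nat.le_succ 1)).2.2
  by_cases hH : L.H = ⊤
  · obtain ⟨n, e, hn, he, hj⟩ := hP O F S L _ K.g ι G ϖ X as Coef.ne hϖ hC.cx hE.cz J _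
      (hW O F S L _ K.g ι G ϖ X as Coef.ne hϖ hC.cx hH)
    obtain ⟨fs, gs, h1, h2, h3, H⟩ := td hL hϖ h ag J (ln_range e) (e := 1)
      (by rw [Fintype.card_fin]; omega) hj (h.down _)
    have up : ∀ p, Cv p → G.IT ϖ J ≤ p → ∃ p' : Ideal (Pres.PP O ι), p'.IsPrime ∧
        Ideal.span {C ϖ} ⊔ Ideal.ofList fs ≤ p' ∧ p'.comap φ = p := fun p hp hJ => by
      obtain ⟨p', k1, k2, k3, k4, k5, k6, -⟩ := fr p hp hJ G.i0
      refine ⟨p', k1, sup_le k2 ?_, k6⟩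
      rw [h1]
      exact sup_le (sup_le (Ideal.span_le.2 (Set.range_subset_iff.2 fun i => k3 (he i).1)) k4) k5
    obtain ⟨p', k1, k2, -⟩ := up p0 hp0 (hE1.2.1.trans hle)
    have hne := ne_top_of_le_ne_top k1.ne_top k2
    refine H.conn c1 c0 (fun f hf => le_maximalIdeal hne (Ideal.mem_sup_right (mem_ofList hf)))
      (fun g hg => LA_le G hL ϖ J (h2 ▸ mem_ofList hg)) hKt ((h.tor hH hL hS).rey ?_) (fun hd => ?_)
      (fun p hp hJ => ?_) E E' hE1 hE2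
    · rw [h1]
      refine (Tor.st_span ?_).sup (((Tor.st_span ?_).sup (Tor.st_span ?_)).sup (Tor.st_span ?_))
      · rintro f rfl
        exact ⟨0, Tor.hom_C _⟩
      · rintro f ⟨i, rfl⟩
        exact (he i).2
      · rintro f (⟨i, rfl⟩ | rfl | rfl)
        · exact ⟨0, hom_de hH i⟩
        · exact ⟨_, hom01 hH _⟩
        · exact ⟨_, hom10 hH _⟩
      · rintro f ⟨l, -, rfl | rfl | rfl⟩
        · exact ⟨0, (hom00 _).sub (Tor.R0 wt).one_mem⟩
        · exact ⟨_, hom01 hH _⟩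
        · exact ⟨_, hom10 hH _⟩
    · have hc : X.card ≤ J.card := by
        refine (Finset.card_le_card fun a ha => ?_).trans (Finset.card_image_le (f := Subtype.val))
        exact Finset.mem_image.2 ⟨⟨a, hC.cx.sub ha⟩, hX _ ha, rfl⟩
      refine hR O F S L _ K.g ι G ϖ X as Coef.ne hϖ hC.cx hE.cz hH _ hne (Ideal.mem_sup_left hπ)
        ?_ (hj.trans ?_) (le_trans (by rw [h3]; exact_mod_cast (by omega)) hd)
      · rw [h1]
        exact (le_sup_right.trans le_sup_left).trans le_sup_right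
      · rw [h1]
        refine sup_le (((le_sup_left.trans le_sup_left).trans le_sup_right).trans le_sup_left)
          (sup_le (sup_le (sup_le (le_sup_left.trans le_sup_left)
            (((le_sup_right.trans le_sup_left).trans le_sup_right).trans le_sup_left))
            ((le_sup_right.trans le_sup_right).trans le_sup_left))
            ((Ideal.span_mono ?_).trans le_sup_right))
        rintro f (hf | ⟨l, -, hf⟩)
        · exact Or.inl hf
        · exact Or.inr ⟨l, Finset.mem_univ _, hf⟩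
    · obtain ⟨p', -, k2, rfl⟩ := up p hp hJ
      exact Ideal.comap_mono k2
  · obtain ⟨i1, hi1⟩ := H87.ex_i1 G hC.cx hH
    obtain ⟨n, e, hn, he, hj⟩ := hP O F S L _ K.g ι G ϖ X as Coef.ne hϖ hC.cx hE.cz J _
      (Ideal.span_eq _)
    have up : ∀ p, Cv p → G.IT ϖ J ≤ p → ∃ p' : Ideal (Pres.PP O ι), p'.IsPrime ∧
        Ideal.span {C ϖ} ⊔ (Ideal.span (Set.range e) ⊔
          Ideal.span {Z G i1 0 1 - C (G.rc i1 0 1)} ⊔ L0 G ⊔ Lu G J) ≤ p' ∧
        p'.comap φ = p := fun p hp hJ => by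
      obtain ⟨p', k1, k2, k3, k4, k5, k6, k7⟩ := fr p hp hJ i1
      exact ⟨p', k1, sup_le k2 (sup_le (sup_le (sup_le
        (Ideal.span_le.2 (Set.range_subset_iff.2 fun i => k3 (he i)))
        ((Ideal.span_singleton_le_iff_mem _).2 (k7 hi1))) k4) k5), k6⟩
    obtain ⟨p', k1, k2, -⟩ := up p0 hp0 (hE1.2.1.trans hle)
    have hne := ne_top_of_le_ne_top k1.ne_top k2
    have sj := surj_dih hL hS h hi1 hne (Ideal.mem_sup_right (Ideal.mem_sup_left
      (Ideal.mem_sup_left (Ideal.mem_sup_right (Ideal.mem_span_singleton_self _)))))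
    obtain ⟨fs, gs, h1, h2, h3, H⟩ := td hL hϖ h ag J ((ln_range e).sup (ln_one _)) (e := 0)
      (by rw [Fintype.card_fin]; omega) (hj.trans (sup_le_sup_right le_sup_left _))
      (down_of_surj sj ⊤)
    rw [← h1] at hne sj up
    refine H.conn c1 c0 (fun f hf => le_maximalIdeal hne (Ideal.mem_sup_right (mem_ofList hf)))
      (fun g hg => LA_le G hL ϖ J (h2 ▸ mem_ofList hg)) hKt (rey_of_surj sj) (fun hd => ?_)
      (fun p hp hJ => ?_) E E' hE1 hE2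
    · obtain ⟨q, hq, hle, -⟩ := dimGE_prime hd
      exact hq.ne_top (top_le_iff.1 (le_sup_right.trans hle))
    · obtain ⟨p', -, k2, rfl⟩ := up p hp hJ
      exact Ideal.comap_mono k2

end Vale.Agent.P022G
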