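import Vale.Agent.P022G.Tr.Dok
import Vale.Agent.P022G.Pres.Cnt
import Vale.Agent.P022G.Pres.Locl
import Vale.Agent.P022D.Loc.BC
import Vale.Agent.P022D.Loc2.Obj
import Vale.Agent.P022E.GW.ChrC
import Vale.Agent.P022G.Obs.Sc2H62
import Vale.Agent.P022.H811.L3.Zeta

/-!
# P022G: the two presentations
-/

set_option linter.all false

noncomputable section

namespace Vale.Agent.P022G.Tr

namespace H35

open NumberField IsLocalRing MvPowerSeries
open Vale.Agent.P022 Vale.Agent.P022D Vale.Agent.P022G.R Vale.Agent.P022G.Loc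
open Vale.Agent.P027M.S (Inert mx)
open Vale.Agent.P022D.Sel (M2 IsDec)
open Vale.Agent.P022E.Loc (Pl)
open Vale.Agent.P022E.GW (Ov H1)
open Vale.Agent.P022G.Pres (PP Dt Jac Un PRES LOCL Adm)

variable {O F : Type} [CommRing O] [IsLocalRing O] [Field F] [CharP F 2] {S : R.Dat O F}
  {L : Pl O}

theorem sq2 {a d : F} (h : a * a = d * d) : a = d := by
  have h2 : (2 : F) = 0 := CharTwo.two_eq_zero
  have : (a - d) ^ 2 = 0 := by linear_combination h + (d * d - a * d) * h2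
  exact sub_eq_zero.1 (pow_eq_zero_iff two_ne_zero |>.1 this)

theorem one_of (hL : OkG L S) {g : GQ} (hg : g ∈ L.H) (ht : (mx S.rb g).trace = 0) :
    mx S.rb g = 1 := by
  have h2 : (2 : F) = 0 := CharTwo.two_eq_zero
  obtain ⟨a, b⟩ := hL.dh.dg g hg
  have d := hL.det g
  rw [Matrix.trace_fin_two] at ht
  rw [Matrix.det_fin_two, a] at d
  have e : mx S.rb g 0 0 = 1 := sq2 (by linear_combination mx S.rb g 0 0 * ht - d - h2)
  rw [Matrix.eta_fin_two (mx S.rb g), a, b, e, show mx S.rb g 1 1 = 1 by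
    linear_combination ht - e - h2, ← Matrix.one_fin_two]

theorem tau_one (hL : OkG L S) {l : ℕ} (hl : l ∈ L.C) : mx S.rb (L.τ l) = 1 := by
  have hl' : l ∈ L.W ∪ L.C := Finset.mem_union_right _ hl
  refine one_of hL (hL.dh.cy8 _ fun z hz => ?_) (hL.uni l hl _ (W.inP_le_dec (hL.tm l hl').tau))
  exact H811.L3.inert_zeta (by norm_num : 0 < 8) (hL.pr l hl').1 (Nat.Coprime.pow_right 3
    ((Nat.coprime_primes (hL.pr l hl').1 Nat.prime_two).2 (hL.pr l hl').2)) _ (hL.hP l hl').1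
    (hL.hP l hl').2 (hL.tm l hl').tau z hz

theorem phi_out (hL : OkG L S) {l : ℕ} (hl : l ∈ L.C) {g : GQ} (hg : g ∈ W.dec (L.P l))
    (h : g ∉ L.H) : mx S.rb (L.φ l) 0 0 = 0 := by
  have hl' : l ∈ L.W ∪ L.C := Finset.mem_union_right _ hl
  have hT := hL.tm l hl'
  refine (hL.dh.ad _ fun hφ => ?_).1
  have e := one_of hL hφ (hL.uni l hl _ (W.phi_mem (hL.pr l hl').1 (hL.hP l hl').1 hT.frob))
  let f : GQ →* M2 F := (Units.coeHom (M2 F)).comp S.rb
  have o : IsOpen {g : GQ | f g = 1} := by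
    have : {g : GQ | f g = 1} = {g | S.rb g = 1} := Set.ext fun g => Units.val_eq_one
    rw [this]
    exact hL.dh.opn
  obtain ⟨N, hN⟩ := hT.tame _ f o
  obtain ⟨k, j, e1⟩ := P022D.Loc.BCA.gen (RingHom.id F) (fun a => Ne.isUnit) hN
    (fun g hg => P022D.Loc.BCA.sq_one (hL.uni l hl g hg) (hL.det g)) hg
  rw [show f (L.φ l) = 1 from e, show f (L.τ l) = 1 from tau_one hL hl, one_pow, one_pow,
    one_mul] at e1
  have := (hL.dh.ad g h).1
  rw [show mx S.rb g = 1 from e1] at this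
  exact one_ne_zero this

/-- the group at infinity -/
def Dc (c : GQ) (hc : c * c = 1) : Subgroup GQ where
  carrier := {1, c}
  one_mem' := Or.inl rfl
  mul_mem' := by
    rintro a b (rfl | rfl) (rfl | rfl)
    · exact Or.inl (mul_one _)
    · exact Or.inr (one_mul _)
    · exact Or.inr (mul_one _)
    · exact Or.inl hc
  inv_mem' := by
    rintro a (rfl | rfl)
    · exact Or.inl inv_one
    · exact Or.inr (inv_eq_of_mul_eq_one_right hc)

variable {κ : Type} {gk : κ → GQ} {ι : Type} [Fintype ι] (G : Gs S L gk ι)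

theorem core (hP : PRES) [IsNoetherianRing O] [IsAdicComplete (maximalIdeal O) O] [Finite F]
    (h2 : (2 : O) ≠ 0) (hL : OkG L S) (hS : (dt G).Ok) {X : Finset ℕ} (hz : Cz S X)
    {C' : Finset ℕ} (hC : C' ⊆ L.C) {Lst : Ideal (PP O ι)} (hm : Lst ≤ maximalIdeal (PP O ι))
    (hd : ∀ i, de G i ∈ Lst) (hc : (Z G G.ic).trace ∈ Lst)
    (ht : ∀ l : L.C, (l : ℕ) ∈ C' → (Z G (G.iτ l) 0 0 - 1 ∈ Lst ∧ Z G (G.iτ l) 0 1 ∈ Lst ∧
      Z G (G.iτ l) 1 0 ∈ Lst ∧ C (G.rc (G.iτ l)).det - 1 ∈ Lst) ∨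
      ((∀ c ∈ maximalIdeal O, (C c : PP O ι) ∈ Lst) ∧ (Z G (G.iτ l)).trace ∈ Lst ∧
        (Z G (G.iφ l)).trace ∈ Lst ∧ (Z G (G.iτ l) * Z G (G.iφ l)).trace ∈ Lst))
    (𝓗 : Set (PP O ι)) (hH : Ideal.span 𝓗 = Jac (dt G)) :
    ∃ (n : ℕ) (e : Fin n → PP O ι), n + 3 * C'.card + 6 ≤ 3 * Fintype.card ι ∧ (∀ i, e i ∈ 𝓗) ∧
      Jac (dt G) ≤ Ideal.span (Set.range e) ⊔ Lst := by
  classical
  have cc := Loc2.conj_sq hL.cj
  have hpr : ∀ l ∈ L.W ∪ L.C, l ≠ 0 ∧ l ≠ 2 := fun l hl =>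
    ⟨(hL.pr l hl).1.ne_zero, (hL.pr l hl).2⟩
  have u : ∀ {l}, l ∈ C' → l ∈ L.W ∪ L.C := fun h => Finset.mem_union_right _ (hC h)
  let D : ℕ → Subgroup GQ := fun l => if l = 0 then Dc L.c cc else W.dec (L.P l)
  have D0 : D 0 = Dc L.c cc := if_pos rfl
  have D1 : ∀ {l}, l ≠ 0 → D l = W.dec (L.P l) := fun h => if_neg h
  have δc : (dt G).δ L.c = -1 := hL.odd
  have c1 : L.c ≠ 1 := fun e => h2 (by
    have := hL.odd
    rw [e, map_one, Matrix.det_one] at this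
    linear_combination this)
  have dτ : ∀ l : L.C, (Z G (G.iτ l)).det - C ((dt G).δ (L.τ l)) ∈ Lst := fun l => by
    rw [← G.hτ]; exact hd _
  have dφ : ∀ l : L.C, (Z G (G.iφ l)).det - C ((dt G).δ (L.φ l)) ∈ Lst := fun l => by
    rw [← G.hφ]; exact hd _
  have n0 : 0 ∉ C' := fun h => (hpr 0 (u h)).1 rfl
  obtain ⟨g1, a1, -, a2⟩ := hL.dh.irr
  refine (Pres.Cn.presN hP Obs.obs P022E.GW.chrC hS (H := L.H)
    ⟨hL.dh.dg, hL.dh.ad, hL.dh.opn⟩ ⟨g1, a1, a2⟩ hz.fx1 hz.fx2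
    (by show 2 ∈ S.T; rw [hL.hT]; simp) (D := D) (fun l hl => ?_) (B := insert 0 C')
    (fun l hl => ?_) (Finset.mem_insert_self _ _) (fun h => ?_) hm (fun l hl => ?_) hd
    (fun l hl g hg hH => ?_) (fun l => if h : l ∈ L.C then G.iτ ⟨l, h⟩ else G.ic)
    (fun l hl l' hl' k => ?_) (fun l hl hg => ?_) 𝓗 hH).imp fun n h => h.imp fun e h =>
      ⟨by have := h.1; rw [Finset.card_insert_of_notMem n0] at this; omega, h.2⟩
  · change l ∈ S.T at hl
    rw [hL.hT, Finset.mem_insert, Finset.mem_insert] at hl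
    rcases hl with rfl | rfl | hl
    · exact Or.inl ⟨rfl, L.c, hL.cj, by rw [D0]; rfl⟩
    · refine Or.inr ⟨Nat.prime_two, L.P 2, ?_, ?_, by rw [D1 two_ne_zero]; rfl⟩
      · rw [hL.h2]; exact Loc2.PP_prime 2
      · rw [hL.h2]; exact Loc2.p_mem_PP 2
    · exact Or.inr ⟨(hL.pr l hl).1, L.P l, (hL.hP l hl).1, (hL.hP l hl).2,
        by rw [D1 (hpr l hl).1]; rfl⟩
  · show l ∈ S.T
    rw [hL.hT]
    rcases Finset.mem_insert.1 hl with rfl | hl
    · exact Finset.mem_insert_self _ _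
    · exact Finset.mem_insert_of_mem (Finset.mem_insert_of_mem (u hl))
  · rcases Finset.mem_insert.1 h with h | h
    · exact two_ne_zero h
    · exact (hpr 2 (u h)).2 rfl
  · rcases Finset.mem_insert.1 hl with rfl | hl
    · rw [D0]
      exact Pres.H96.loclR rfl c1 G.hc δc hc (by rw [← G.hc]; exact hd _)
    · rw [D1 (hpr l (u hl)).1]
      have ov : Ov l (L.P l) := ⟨(hL.pr l (u hl)).1, hL.hP l (u hl)⟩
      have hu := fun g hg => And.intro (hL.uni l (hC hl) g hg) (hL.det g)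
      rcases ht ⟨l, hC hl⟩ hl with ⟨b1, b2, b3, b4⟩ | ⟨b1, b2, b3, b4⟩
      · exact Pres.H96.loclT0 hS ov (hL.tm l (u hl)) hu (G.hτ ⟨l, hC hl⟩) (G.hφ ⟨l, hC hl⟩)
          (dτ _) (dφ _) b1 b2 b3 (Or.inr (by rw [← G.hτ ⟨l, hC hl⟩]; exact b4))
      · exact Pres.H96.loclT1 hS ov (hL.tm l (u hl)) hu (G.hτ ⟨l, hC hl⟩) (G.hφ ⟨l, hC hl⟩)
          (dτ _) (dφ _) b1 b2 b3 b4
  · show mx S.rb g 0 0 = mx S.rb g 1 1
    rcases Finset.mem_insert.1 hl with rfl | hl
    · rw [D0] at hg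
      have gg : g * g = 1 := by
        rcases hg with rfl | rfl
        · exact mul_one _
        · exact cc
      have k := Pres.mxm S.rb g g
      rw [gg, Pres.mx1] at k
      have k0 := congrFun (congrFun k 0) 0
      have k1 := congrFun (congrFun k 1) 1
      obtain ⟨a, b⟩ := hL.dh.dg g hH
      simp only [Matrix.mul_apply, Fin.sum_univ_two, a, b, Matrix.one_apply_eq] at k0 k1
      exact sq2 (by linear_combination k1 - k0)
    · rw [D1 (hpr l (u hl)).1] at hg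
      rw [one_of hL hH (hL.uni l (hC hl) g hg)]
      rfl
  · have z0 : 0 ∉ L.C := fun h => (hpr 0 (Finset.mem_union_right _ h)).1 rfl
    have k1 : ∀ l : L.C, G.iτ l ≠ G.ic := fun l k =>
      Sum.inr_ne_inl (@G.inj (Sum.inr (Sum.inl l)) (Sum.inl 1) k)
    rcases Finset.mem_insert.1 (Finset.mem_coe.1 hl) with rfl | hl <;>
      rcases Finset.mem_insert.1 (Finset.mem_coe.1 hl') with rfl | hl'
    · rfl
    · simp only [dif_neg z0, dif_pos (hC hl')] at k
      exact absurd k.symm (k1 _)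
    · simp only [dif_neg z0, dif_pos (hC hl)] at k
      exact absurd k (k1 _)
    · simp only [dif_pos (hC hl), dif_pos (hC hl')] at k
      exact congrArg Subtype.val (Sum.inl_injective (Sum.inr_injective
        (@G.inj (Sum.inr (Sum.inl ⟨l, hC hl⟩)) (Sum.inr (Sum.inl ⟨l', hC hl'⟩)) k)))
  · obtain ⟨g, hg, hH⟩ := hg
    rcases Finset.mem_insert.1 hl with rfl | hl
    · have z0 : 0 ∉ L.C := fun h => (hpr 0 (Finset.mem_union_right _ h)).1 rfl
      rw [D0] at hg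
      simp only [dif_neg z0]
      have gc : (dt G).gam G.ic = L.c := G.hc
      rcases hg with rfl | rfl
      · exact absurd L.H.one_mem hH
      · exact Pres.Cn.sv_tr hS (by rw [gc, cc]) (by rw [gc, δc]) (by
          rw [gc]; exact (hL.dh.ad _ hH).2) hc
    · rw [D1 (hpr l (u hl)).1] at hg
      simp only [dif_pos (hC hl)]
      have gτ : (dt G).gam (G.iτ ⟨l, hC hl⟩) = L.τ l := G.hτ _
      have gφ : (dt G).gam (G.iφ ⟨l, hC hl⟩) = L.φ l := G.hφ _
      refine Pres.Cn.sv_tame hS (j := G.iφ ⟨l, hC hl⟩) (l := l) (fun a ρ _ hρ => ?_)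
        (by rw [gτ]; exact tau_one hL (hC hl)) (by rw [gφ]; exact phi_out hL (hC hl) hg hH) ?_
      · by_cases ha : a = ⊤
        · haveI := Ideal.Quotient.subsingleton_iff.2 ha
          exact Subsingleton.elim _ _
        · obtain ⟨π, p1, p2⟩ := Pres.H96.ex_pi hS (Ideal.Quotient.mk_surjective (I := a))
            fun p hp => le_maximalIdeal ha (Ideal.Quotient.eq_zero_iff_mem.1 hp)
          obtain ⟨N, hN⟩ := (hL.tm l (u hl)).tame _ ρ hρ.opn
          rw [gτ, gφ]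
          exact P022D.Loc.BCA.rel π p2 hN fun g hg => by
            rw [hρ.red p1]
            exact P022D.Loc.BCA.sq_one (hL.uni l (hC hl) g hg) (hL.det g)
      · rcases ht ⟨l, hC hl⟩ hl with ⟨b1, b2, b3, b4⟩ | ⟨b1, b2, b3, b4⟩
        · refine Pres.Cn.tm_one l (fun a b => ?_) 0 0
          have b5 : Z G (G.iτ ⟨l, hC hl⟩) 1 1 - 1 ∈ Lst := by
            have := Lst.add_mem (Lst.sub_mem (Lst.add_mem (hd (G.iτ ⟨l, hC hl⟩)) b4)
              (Lst.mul_mem_left (Z G (G.iτ ⟨l, hC hl⟩) 1 1) b1))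
              (Lst.mul_mem_left (Z G (G.iτ ⟨l, hC hl⟩) 1 0) b2)
            rw [de, Matrix.det_fin_two] at this
            refine (congrArg (· ∈ Lst) ?_).mp this
            ring
          fin_cases a <;> fin_cases b
          · exact b1
          · exact (congrArg (· ∈ Lst) (sub_zero _)).mpr b2
          · exact (congrArg (· ∈ Lst) (sub_zero _)).mpr b3
          · exact b5
        · refine Pres.Cn.tm_uni ((hL.pr l (u hl)).1.odd_of_ne_two (hL.pr l (u hl)).2) ?_ ?_ b2 b3 b4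
            0 0
          · rw [← map_ofNat (C : O →+* PP O ι) 2]
            exact b1 2 ((hL.ker 2).1 (by rw [map_ofNat]; exact CharTwo.two_eq_zero))
          · have := Lst.add_mem (hd (G.iτ ⟨l, hC hl⟩)) (b1 ((G.rc (G.iτ ⟨l, hC hl⟩)).det - 1)
              ((hL.ker _).1 (by
                rw [map_sub, map_one, RingHom.map_det, RingHom.mapMatrix_apply, Gs.rc, hL.lift,
                  hL.det, sub_self])))
            rwa [de, map_sub, map_one, sub_add_sub_cancel] at this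

theorem pz (hS : (dt G).Ok) (i : ι) (a b : Fin 2) :
    (dt G).π0 (Z G i a b) = mx S.rb (G.γ i) a b := Pres.Cn.piZ' hS i a b

theorem l0_le (hL : OkG L S) (hS : (dt G).Ok) : L0 G ≤ maximalIdeal (PP O ι) := by
  rw [L0, Ideal.span_le]
  rintro _ (⟨i, rfl⟩ | rfl | rfl) <;> refine hS.max.1 ?_
  · rw [de, map_sub, RingHom.map_det, RingHom.mapMatrix_apply, Pres.Cn.piZ hS, sub_eq_zero]
    exact (hS.det _).symm.trans (by simp [Dt.π0, dt, Gs.rc])
  · rw [pz G hS, G.h0, S.d01]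
  · rw [pz G hS, G.h0, S.d10]

theorem lu_le (hL : OkG L S) (hS : (dt G).Ok) (J : Finset L.C) :
    Lu G J ≤ maximalIdeal (PP O ι) := by
  rw [Lu, Ideal.span_le]
  rintro _ ⟨l, -, rfl | rfl | rfl⟩ <;> refine hS.max.1 ?_
  · rw [map_sub, pz G hS, G.hτ, tau_one hL l.2, map_one]; exact sub_self _
  · rw [pz G hS, G.hτ, tau_one hL l.2]; rfl
  · rw [pz G hS, G.hτ, tau_one hL l.2]; rfl

theorem ptr (M : M2 (PP O ι)) : (dt G).π0 M.trace = (M.map (dt G).π0).trace := by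
  rw [Matrix.trace_fin_two, Matrix.trace_fin_two, map_add]; rfl

theorem lt_le (hL : OkG L S) (hS : (dt G).Ok) (J : Finset L.C) :
    Lt G J ≤ maximalIdeal (PP O ι) := by
  rw [Lt, Ideal.span_le]
  have hφ : ∀ l : L.C, (mx S.rb (G.γ (G.iφ l))).trace = 0 := fun l => by
    have hl' : l.1 ∈ L.W ∪ L.C := Finset.mem_union_right _ l.2
    rw [G.hφ]
    exact hL.uni l l.2 _ (W.phi_mem (hL.pr l hl').1 (hL.hP l hl').1 (hL.tm l hl').frob)
  have hτ : ∀ l : L.C, mx S.rb (G.γ (G.iτ l)) = 1 := fun l => by rw [G.hτ, tau_one hL l.2]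
  rintro _ (rfl | ⟨l, -, rfl | rfl | rfl⟩)
  · exact Pres.jac_le hS (Pres.Cn.tr_jac (S := dt G)
      (by rw [show (dt G).gam G.ic = L.c from G.hc]; exact Loc2.conj_sq hL.cj)
      (by rw [show (dt G).gam G.ic = L.c from G.hc]; exact hL.odd))
  · refine hS.max.1 ?_
    rw [ptr, Pres.Cn.piZ hS]
    exact (congrArg Matrix.trace (hτ l)).trans (by
      rw [Matrix.trace_one, Fintype.card_fin]; exact CharTwo.two_eq_zero)
  · refine hS.max.1 ?_
    rw [ptr, Pres.Cn.piZ hS]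
    exact hφ l
  · refine hS.max.1 ?_
    rw [ptr, Matrix.map_mul, Pres.Cn.piZ hS, Pres.Cn.piZ hS]
    show (mx S.rb (G.γ (G.iτ l)) * mx S.rb (G.γ (G.iφ l))).trace = 0
    rw [hτ, one_mul, hφ]

theorem pr2C (hP : PRES) : PR2 := by
  intro O F _ _ _ _ _ _ _ S L κ gk ι _ G ϖ X as h2 hϖ hC hz J 𝓗 hH
  have hS := dokC O F S L κ gk ι G ϖ X as h2 hϖ hC
  have hL := hC.ok
  have m1 : ∀ c ∈ maximalIdeal O, (C c : PP O ι) ∈
      Ideal.span {C ϖ} ⊔ L0 G ⊔ Lu G J ⊔ Lt G J := fun c hc => by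
    rw [hϖ.maximalIdeal_eq, Ideal.mem_span_singleton] at hc
    exact Ideal.mem_sup_left (Ideal.mem_sup_left (Ideal.mem_sup_left
      (Ideal.mem_span_singleton.2 (map_dvd _ hc))))
  refine core G hP h2 hL hS hz (Finset.Subset.refl _) (sup_le (sup_le (sup_le ?_ (l0_le G hL hS))
    (lu_le G hL hS J)) (lt_le G hL hS J)) (fun i => Ideal.mem_sup_left (Ideal.mem_sup_left
      (Ideal.mem_sup_right (Ideal.subset_span (Or.inl ⟨i, rfl⟩)))))
    (Ideal.mem_sup_right (Ideal.subset_span (Or.inl rfl))) (fun l _ => ?_) 𝓗 hH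
  · rw [Ideal.span_le, Set.singleton_subset_iff]
    refine hS.max.1 ?_
    have : S.red ϖ = 0 := (hL.ker ϖ).2 hϖ.not_isUnit
    simpa [Dt.π0, dt] using this
  · by_cases hl : l ∈ J
    · exact Or.inr ⟨m1, Ideal.mem_sup_right (Ideal.subset_span (Or.inr ⟨l, hl, Or.inl rfl⟩)),
        Ideal.mem_sup_right (Ideal.subset_span (Or.inr ⟨l, hl, Or.inr (Or.inl rfl)⟩)),
        Ideal.mem_sup_right (Ideal.subset_span (Or.inr ⟨l, hl, Or.inr (Or.inr rfl)⟩))⟩
    · refine Or.inl ⟨Ideal.mem_sup_left (Ideal.mem_sup_right (Ideal.subset_span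
          ⟨l, hl, Or.inl rfl⟩)), Ideal.mem_sup_left (Ideal.mem_sup_right (Ideal.subset_span
          ⟨l, hl, Or.inr (Or.inl rfl)⟩)), Ideal.mem_sup_left (Ideal.mem_sup_right
          (Ideal.subset_span ⟨l, hl, Or.inr (Or.inr rfl)⟩)), ?_⟩
      rw [← map_one (C : O →+* PP O ι), ← map_sub]
      exact m1 _ ((hL.ker _).1 (by
        rw [map_sub, map_one, RingHom.map_det, RingHom.mapMatrix_apply, Gs.rc, hL.lift,
          hL.det, sub_self]))

theorem pr0C (hP : PRES) : PR0 := by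
  intro O F _ _ _ _ _ _ _ S L κ gk ι _ G ϖ X as h2 hϖ hC hz
  have hS := dokC O F S L κ gk ι G ϖ X as h2 hϖ hC
  have hL := hC.ok
  refine core G hP h2 hL hS hz hC.sub (sup_le (sup_le (l0_le G hL hS) (lu_le G hL hS _))
    (lt_le G hL hS _)) (fun i => Ideal.mem_sup_left (Ideal.mem_sup_left
      (Ideal.subset_span (Or.inl ⟨i, rfl⟩))))
    (Ideal.mem_sup_right (Ideal.subset_span (Or.inl rfl))) (fun l hl => ?_) (Jac (dt G))
    (Ideal.span_eq _)
  have hl' : l.1 ∈ L.W ∪ L.C := Finset.mem_union_right _ l.2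
  refine Or.inl ⟨Ideal.mem_sup_left (Ideal.mem_sup_right (Ideal.subset_span
      ⟨l, fun h => (Finset.mem_filter.1 h).2 hl, Or.inl rfl⟩)), Ideal.mem_sup_left (Ideal.mem_sup_right (Ideal.subset_span
      ⟨l, fun h => (Finset.mem_filter.1 h).2 hl, Or.inr (Or.inl rfl)⟩)), Ideal.mem_sup_left (Ideal.mem_sup_right
      (Ideal.subset_span ⟨l, fun h => (Finset.mem_filter.1 h).2 hl, Or.inr (Or.inr rfl)⟩)), ?_⟩
  rw [Gs.rc, G.hτ, hC.unr l (hL.pr l hl').1 (Or.inr hl) _ (hL.hP l hl').1 (hL.hP l hl').2 _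
    (hL.tm l hl').tau, Matrix.det_one, map_one, sub_self]
  exact Ideal.zero_mem _

end H35

end Vale.Agent.P022G.Tr
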