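import Vale.Agent.P022G.Tr.Frp

/-! # P022G: the relations are generated by homogeneous elements -/

set_option linter.all false

noncomputable section

namespace Vale.Agent.P022G.Tr

open NumberField IsLocalRing MvPowerSeries
open Vale.Agent.P022 Vale.Agent.P022G.R Vale.Agent.P022G.Loc
open Vale.Agent.P027M.S (Inert mx)
open Vale.Agent.P022D.Sel (M2)
open Vale.Agent.P022E.Loc (Pl)
open Vale.Agent.P022G.Pres (PP Dt Jac Un Adm Go pm pm_apply pm_one)
open Vale.Agent.P022D.CA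
open Vale.Agent.P022G.Tor (Hom pr hom_pr coeff_pr hom_C hom_X)

namespace Wt

section alg
variable {σ O : Type} [CommRing O] [IsLocalRing O] [Fintype σ] (w : σ → ℤ)

theorem pr_pow (n : ℕ) (k : ℤ) {f : MvPowerSeries σ O}
    (hf : f ∈ maximalIdeal (MvPowerSeries σ O) ^ n) :
    pr w k f ∈ maximalIdeal (MvPowerSeries σ O) ^ n := by
  refine Cpl.JI_le_pow n fun m => ?_
  rw [coeff_pr]
  split_ifs
  · exact Cpl.pow_le_JI n hf m
  · exact Ideal.zero_mem _

theorem dec (n : ℕ) (f : MvPowerSeries σ O) : ∃ D : Finset ℤ,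
    f - ∑ j ∈ D, pr w j f ∈ maximalIdeal (MvPowerSeries σ O) ^ n := by
  classical
  refine ⟨(Finsupp.finite_of_degree_le (σ := σ) n).toFinset.image (Finsupp.weight w),
    Cpl.JI_le_pow n fun m => ?_⟩
  by_cases hm : m.degree ≤ n
  · rw [map_sub, map_sum, Finset.sum_eq_single (Finsupp.weight w m)
      (fun b _ hb => by rw [coeff_pr, if_neg hb.symm])
      (fun h => absurd (Finset.mem_image_of_mem _ (by simpa using hm)) h), coeff_pr, if_pos rfl,
      sub_self]
    exact Ideal.zero_mem _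
  · rw [show n - m.degree = 0 by omega, pow_zero, Ideal.one_eq_top]
    trivial

/-- the elements all of whose parts are in `a` -/
def co (a : Ideal (MvPowerSeries σ O)) {n : ℕ} (h : maximalIdeal (MvPowerSeries σ O) ^ n ≤ a) :
    Ideal (MvPowerSeries σ O) where
  carrier := {f | ∀ k, pr w k f ∈ a}
  zero_mem' := fun k => by rw [map_zero]; exact a.zero_mem
  add_mem' := fun {f g} hf hg k => by rw [map_add]; exact a.add_mem (hf k) (hg k)
  smul_mem' := fun s f hf k => by
    obtain ⟨D, hD⟩ := dec w n s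
    have e : s • f = (∑ j ∈ D, pr w j s * f) + (s - ∑ j ∈ D, pr w j s) * f := by
      rw [smul_eq_mul, ← Finset.sum_mul]; ring
    rw [e, map_add, map_sum]
    refine a.add_mem (a.sum_mem fun j _ => ?_) (h (pr_pow w n k (Ideal.mul_mem_right _ _ hD)))
    rw [(hom_pr j s).pr_mul]
    exact a.mul_mem_left _ (hf _)

theorem mem_co {a : Ideal (MvPowerSeries σ O)} {n : ℕ}
    (h : maximalIdeal (MvPowerSeries σ O) ^ n ≤ a) {j : ℤ} {f : MvPowerSeries σ O}
    (hf : Hom w j f) (ha : f ∈ a) : f ∈ co w a h := fun k => by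
  by_cases e : k = j
  · rw [e, hf.pr_eq]; exact ha
  · have : pr w k f = 0 := by
      ext m
      rw [coeff_pr, map_zero]
      split_ifs with e2
      · exact hf m (by rw [e2]; exact e)
      · rfl
    rw [this]; exact a.zero_mem

theorem hom_zero (k : ℤ) : Hom w k (0 : MvPowerSeries σ O) := fun _ _ => map_zero _

/-- matrices whose entries have the right weights -/
def Tm (p : M2 (MvPowerSeries σ O)) : Prop := ∀ a b : Fin 2, Hom w (((b : ℕ) : ℤ) - (a : ℕ)) (p a b)

theorem tm_C (c : M2 O) (h : ∀ a b, a ≠ b → c a b = 0) : Tm w (c.map C) := fun a b => by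
  by_cases e : a = b
  · rw [e, sub_self]; exact hom_C _
  · rw [Matrix.map_apply, h a b e, map_zero]; exact hom_zero w _

theorem tm_one : Tm w (1 : M2 (MvPowerSeries σ O)) := by
  have := tm_C w (1 : M2 O) fun a b h => Matrix.one_apply_ne h
  rwa [Matrix.map_one _ (map_zero _) (map_one _)] at this

theorem Tm.mul {p q : M2 (MvPowerSeries σ O)} (hp : Tm w p) (hq : Tm w q) : Tm w (p * q) :=
  fun a b => by
    rw [Matrix.mul_apply, Fin.sum_univ_two]
    have h0 := (hp a 0).mul (hq 0 b)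
    have h1 := (hp a 1).mul (hq 1 b)
    rw [show ∀ x y z : ℤ, x - y + (z - x) = z - y from fun x y z => by ring] at h0 h1
    exact h0.add h1

theorem Tm.det {p : M2 (MvPowerSeries σ O)} (hp : Tm w p) : Hom w 0 p.det := by
  rw [Matrix.det_fin_two]
  have h0 := (hp 0 0).mul (hp 1 1)
  have h1 := (hp 0 1).mul (hp 1 0)
  norm_num at h0 h1
  exact h0.sub h1

theorem tm_eq {a : Ideal (MvPowerSeries σ O)} {n : ℕ}
    (h : maximalIdeal (MvPowerSeries σ O) ^ n ≤ a) {p q : M2 (MvPowerSeries σ O)} (hp : Tm w p)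
    (hq : Tm w q) (e : p.map (Ideal.Quotient.mk a) = q.map (Ideal.Quotient.mk a)) :
    p.map (Ideal.Quotient.mk (co w a h)) = q.map (Ideal.Quotient.mk (co w a h)) := by
  ext i j
  exact Ideal.Quotient.eq.2 (mem_co w h ((hp i j).sub (hq i j))
    (Ideal.Quotient.eq.1 (congrFun (congrFun e i) j)))

end alg

/-- pairs of matrices whose entries come from the same element of a submonoid -/
def pairs {P A F : Type} [CommRing P] [CommRing A] [Field F] (φ : P →+* A) (π : P →+* F)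
    (M : Submonoid (M2 P)) : Submonoid ((M2 A)ˣ × GL (Fin 2) F) where
  carrier := {x | ∃ p ∈ M, p.map φ = (x.1 : M2 A) ∧ p.map π = (x.2 : M2 F)}
  one_mem' := ⟨1, M.one_mem, Matrix.map_one _ (map_zero φ) (map_one φ),
    Matrix.map_one _ (map_zero π) (map_one π)⟩
  mul_mem' := by
    rintro x y ⟨p, hp, h1, h2⟩ ⟨q, hq, k1, k2⟩
    exact ⟨p * q, M.mul_mem hp hq, by rw [Matrix.map_mul, h1, k1]; rfl,
      by rw [Matrix.map_mul, h2, k2]; rfl⟩

theorem res_gen {O F : Type} [CommRing O] [Field F] [Finite F] {S : Dat O F} {L : Pl O}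
    {κ : Type} {gk : κ → GQ} {ι : Type} (G : Gs S L gk ι) {P A : Type} [CommRing P] [CommRing A]
    [Finite A] (φ : P →+* A) (π : P →+* F) (ρ : GQ →* M2 A) (ho : IsOpen {g | ρ g = 1})
    (hr : IsOpen {g | S.rb g = 1}) (h2 : ∀ g, S.rb g = 1 → ∃ k : ℕ, ρ g ^ 2 ^ k = 1)
    (u1 : Un S.T ρ) (u2 : Un S.T S.rb) (M : Submonoid (M2 P)) (Zi : ι → M2 P) (z0 : ∀ i, Zi i ∈ M)
    (z1 : ∀ i, (Zi i).map φ = ρ (G.γ i))
    (z2 : ∀ i, (Zi i).map π = mx S.rb (G.γ i)) (g : GQ) :
    ∃ p ∈ M, p.map φ = ρ g ∧ p.map π = mx S.rb g := by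
  let f : GQ →* (M2 A)ˣ × GL (Fin 2) F := ρ.toHomUnits.prod S.rb
  have hf : ∀ g, f g = 1 ↔ ρ g = 1 ∧ S.rb g = 1 := by
    intro g
    rw [Prod.ext_iff, Units.ext_iff]
    exact Iff.rfl
  have h := G.gen 0 Fin.elim0 Fin.elim0 (fun i => i.elim0) _ f
    (by
      have : {g : GQ | f g = 1} = {g | ρ g = 1} ∩ {g | S.rb g = 1} := Set.ext hf
      rw [this]
      exact ho.inter hr)
    (fun g hg => by
      obtain ⟨k, hk⟩ := h2 g hg
      refine ⟨k, ?_⟩
      rw [← map_pow, hf, map_pow, map_pow, hg, one_pow]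
      exact ⟨hk, rfl⟩)
    (fun l hl hT _ Q hQ hlQ s hs =>
      (hf s).2 ⟨u1 l hT Q ⟨hl, hQ, hlQ⟩ s hs, u2 l hT Q ⟨hl, hQ, hlQ⟩ s hs⟩) g
  rw [← Subgroup.mem_toSubmonoid, Subgroup.closure_toSubmonoid_of_finite] at h
  refine (Submonoid.closure_le.2 ?_ : _ ≤ pairs φ π M) h
  rintro _ ⟨i, rfl⟩
  rcases i with i | i
  · exact ⟨Zi i, z0 i, z1 i, z2 i⟩
  · exact i.elim0

end Wt

open Wt in
theorem wtC (hD : DOK) : WT := by
  intro O F _ _ _ _ _ _ _ S L κ gk ι _ G ϖ X as h2 hϖ hC hH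
  have hS : (dt G).Ok := hD O F S L κ gk ι G ϖ X as h2 hϖ hC
  have hZ : ∀ i, Tm wt (Z G i) := by
    intro i a b
    have h1 : Tm (wt (ι := ι)) ((c0 G i).map C) := tm_C _ _ fun a b h => by
      unfold c0
      rw [if_pos (hH ▸ Subgroup.mem_top _)]
      fin_cases a <;> fin_cases b <;> first | rfl | exact absurd rfl h
    exact (h1 a b).add (hom_X (w := wt) (i, a, b))
  have key : ∀ a : Ideal (PP O ι), Go (dt G) a → ∀ f ∈ Jac (dt G), ∀ k, pr wt k f ∈ a := by
    rintro a ⟨⟨n, hn⟩, ρ, hρ⟩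
    have hfin : Finite (PP O ι ⧸ a) :=
      haveI := Pres.fin_pow hS n
      Finite.of_surjective _ (Ideal.Quotient.factor_surjective hn)
    let M : Submonoid (M2 (PP O ι)) := ⟨⟨{p | Tm wt p}, fun hp hq => Tm.mul _ hp hq⟩, tm_one _⟩
    have hg := res_gen G (Ideal.Quotient.mk a) (dt G).π0 ρ hρ.opn hS.opn (fun g hg => ⟨n, by
      have k2 : (2 : PP O ι ⧸ a) ∈ (maximalIdeal (PP O ι)).map (Ideal.Quotient.mk a) := by
        have := Ideal.mem_map_of_mem (Ideal.Quotient.mk a) (hS.max.1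
          (show (dt G).π0 2 = 0 by rw [map_ofNat]; exact CharTwo.two_eq_zero))
        rwa [map_ofNat] at this
      have k1 : ∀ i j, (ρ g - 1 : M2 (PP O ι ⧸ a)) i j ∈
          (maximalIdeal (PP O ι)).map (Ideal.Quotient.mk a) := by
        intro i j
        obtain ⟨p, p1, p2⟩ := hρ.res g i j
        have k3 : (dt G).π0 (p - (1 : M2 (PP O ι)) i j) = 0 := by
          rw [map_sub, p2]
          show (S.rb g : M2 F) i j - _ = 0
          rw [hg, Units.val_one, Matrix.one_apply, Matrix.one_apply, apply_ite (dt G).π0,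
            map_one, map_zero, sub_self]
        have k4 := Ideal.mem_map_of_mem (Ideal.Quotient.mk a) (hS.max.1 k3)
        rw [map_sub, p1, Matrix.one_apply, apply_ite (Ideal.Quotient.mk a), map_one,
          map_zero] at k4
        rw [Matrix.sub_apply, Matrix.one_apply]
        exact k4
      ext i j
      have k5 := Ideal.pow_le_pow_right (Nat.le_succ n) (Frp.pow_step k2 k1 n i j)
      rw [← Ideal.map_pow] at k5
      have k6 : (maximalIdeal (PP O ι) ^ n).map (Ideal.Quotient.mk a) ≤ ⊥ :=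
        Ideal.map_le_iff_le_comap.2 fun x hx => Ideal.Quotient.eq_zero_iff_mem.2 (hn hx)
      have k7 := k6 k5
      rwa [Ideal.mem_bot, Matrix.sub_apply, sub_eq_zero] at k7⟩)
      hρ.unr hS.unr M (Z G) hZ (fun i => (hρ.gen i).symm) hS.Z
    choose p p0 p1 p2 using hg
    have e1 : ∀ b : Ideal (PP O ι), (1 : M2 (PP O ι)).map (Ideal.Quotient.mk b) = 1 := fun b =>
      Matrix.map_one _ (map_zero _) (map_one _)
    have one : ∀ g, ρ g = 1 → (p g).map (Ideal.Quotient.mk (co wt a hn)) = 1 := fun g k => by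
      rw [tm_eq wt hn (p0 g) (tm_one _) (by rw [p1, k, e1]), e1]
    let ρ' : GQ →* M2 (PP O ι ⧸ co wt a hn) :=
      ⟨⟨fun g => (p g).map (Ideal.Quotient.mk (co wt a hn)), one 1 (map_one ρ)⟩, fun g h => by
        show (p (g * h)).map _ = (p g).map _ * (p h).map _
        rw [← Matrix.map_mul]
        exact tm_eq wt hn (p0 _) (Tm.mul _ (p0 g) (p0 h))
          (by rw [Matrix.map_mul, p1, p1, p1, map_mul])⟩
    have go : Go (dt G) (co wt a hn) := by
      refine ⟨⟨n, fun f hf k => hn (pr_pow wt n k hf)⟩, ρ', fun i => ?_, fun g => ?_,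
        P022D.R.opn_of_le ρ ρ' hρ.opn one, fun l hl P hP g hg => one g (hρ.unr l hl P hP g hg),
        fun g i j => ⟨p g i j, rfl, congrFun (congrFun (p2 g) i) j⟩⟩
      · exact tm_eq wt hn (p0 _) (hZ i) (by rw [p1]; exact hρ.gen i)
      · show ((p g).map _).det = _
        rw [← RingHom.mapMatrix_apply, ← RingHom.map_det]
        refine Ideal.Quotient.eq.2 (mem_co wt hn ((Tm.det _ (p0 g)).sub (hom_C _))
          (Ideal.Quotient.eq.1 ?_))
        rw [RingHom.map_det, RingHom.mapMatrix_apply, p1, hρ.det]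
    exact fun f hf => (sInf_le go : Jac (dt G) ≤ co wt a hn) hf
  refine le_antisymm (Ideal.span_le.2 fun f hf => hf.1) fun f hf => ?_
  set I : Ideal (PP O ι) := Ideal.span {f | f ∈ Jac (dt G) ∧ ∃ k, Tor.Hom wt k f} with hI
  have h : ∀ j : ℕ, f ∈ I ⊔ maximalIdeal (PP O ι) ^ j := fun j => by
    obtain ⟨D, hD⟩ := dec wt j f
    have : ∑ k ∈ D, pr wt k f ∈ I := I.sum_mem fun k _ => Ideal.subset_span
      ⟨Submodule.mem_sInf.2 fun a ha => key a ha f hf k, k, hom_pr k f⟩
    have h3 := Submodule.add_mem_sup this hD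
    rwa [add_sub_cancel] at h3
  have h1 := Ideal.iInf_pow_smul_eq_bot_of_isLocalRing (M := PP O ι ⧸ I) (maximalIdeal (PP O ι))
    (maximalIdeal.isMaximal (PP O ι)).ne_top
  rw [← Ideal.Quotient.eq_zero_iff_mem, ← Submodule.mem_bot (PP O ι), ← h1, Submodule.mem_iInf]
  intro j
  obtain ⟨b, hb, c, hc, e⟩ := Submodule.mem_sup.1 (h j)
  rw [← e, map_add, Ideal.Quotient.eq_zero_iff_mem.2 hb, zero_add]
  have e2 : Ideal.Quotient.mk I c = c • (1 : PP O ι ⧸ I) := by
    show _ = Ideal.Quotient.mk I (c * 1)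
    rw [mul_one]
  rw [e2]
  exact Submodule.smul_mem_smul hc Submodule.mem_top

end Vale.Agent.P022G.Tr
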