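import Vale.Agent.P022G.Tr.Defs
import Vale.Agent.P022G.Pres.Cnt
import Vale.Agent.P022G.Pres.Locl
import Vale.Agent.P022D.Loc.BC

/-!
# P022G: the two presentations
-/

set_option linter.all false

noncomputable section

namespace Vale.Agent.P022G.Tr

open NumberField IsLocalRing MvPowerSeries
open Vale.Agent.P022 Vale.Agent.P022.H443 Vale.Agent.P022G.R Vale.Agent.P022G.Loc
open Vale.Agent.P027M.S (Inert mx)
open Vale.Agent.P022D (W.dec W.phi_mem W.inP_le_dec)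
open Vale.Agent.P022D.Sel (M2 IsDec)
open Vale.Agent.P022E.Loc (Pl)
open Vale.Agent.P022E.GW (Ov CHR)
open Vale.Agent.P022G.Pres (PP Dt Jac Un PRES LOCL Adm)
open Vale.Agent.P022G.Obs (OBS Dz)
open Vale.Agent.P022G.Pres.Cn (tm Sv presN sv_tr sv_tame tm_one tm_uni piZ')
open Vale.Agent.P022G.Pres.H96 (loclR loclT0 loclT1 ex_pi)

namespace Pr

theorem fix8 {l : ℕ} (hl : l.Prime) (h2 : l ≠ 2) {P : Ideal (𝓞 Qb)} (hP : P.IsPrime)
    (hlP : (l : 𝓞 Qb) ∈ P) {g : GQ} (hg : Inert P g) (z : Qb) (hz : z ^ 8 = 1) : g z = z := by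
  have hi : IsIntegral ℤ z := IsIntegral.of_pow (n := 8) (by norm_num) (hz ▸ isIntegral_one)
  let x : 𝓞 Qb := ⟨z, hi⟩
  have hx : x ^ 8 = 1 := Subtype.ext hz
  have hy : (g • x) ^ 8 = 1 := by rw [← smul_pow', hx, smul_one]
  have e : Ideal.Quotient.mk P (g • x) = Ideal.Quotient.mk P x := Ideal.Quotient.eq.2 (hg x)
  have h0 : (g • x - x) * ((g • x + x) * ((g • x) ^ 2 + x ^ 2) * ((g • x) ^ 4 + x ^ 4)) = 0 := by
    linear_combination hy - hx
  rcases mul_eq_zero.1 h0 with h | h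
  · exact congrArg Subtype.val (sub_eq_zero.1 h)
  · exfalso
    have h3 := congrArg (Ideal.Quotient.mk P) h
    have h4 := congrArg (Ideal.Quotient.mk P) hx
    simp only [map_mul, map_add, map_pow, e, map_zero, map_one] at h3 h4
    have h5 : (2 : 𝓞 Qb ⧸ P) ^ 3 = 0 := by
      linear_combination (Ideal.Quotient.mk P x) * h3 - 8 * h4
    have h6 := pow_eq_zero_iff (by norm_num) |>.1 h5
    obtain ⟨k, hk⟩ := hl.odd_of_ne_two h2
    have h7 := Ideal.Quotient.eq_zero_iff_mem.2 hlP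
    rw [map_natCast, hk] at h7
    push_cast at h7
    rw [h6, zero_mul, zero_add] at h7
    exact one_ne_zero h7

theorem conj_sq {c : GQ} (h : IsConj c) : c * c = 1 := by
  obtain ⟨φ, hφ⟩ := h
  ext x
  apply φ.injective
  rw [AlgEquiv.mul_apply, hφ, hφ, Complex.conj_conj]
  rfl

/-- the group of an involution -/
def two (c : GQ) (h : c * c = 1) : Subgroup GQ where
  carrier := {1, c}
  one_mem' := Or.inl rfl
  mul_mem' := by
    rintro a b (rfl | rfl) (rfl | rfl)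
    · exact Or.inl (one_mul _)
    · exact Or.inr (one_mul _)
    · exact Or.inr (mul_one _)
    · exact Or.inl h
  inv_mem' := by
    rintro a (rfl | rfl)
    · exact Or.inl inv_one
    · exact Or.inr (inv_eq_of_mul_eq_one_right h)

variable {O F : Type} [CommRing O] [IsLocalRing O] [Field F] [CharP F 2] {S : Dat O F} {L : Pl O}

theorem eq_of_tr {M : M2 F} (h : M.trace = 0) : M 0 0 = M 1 1 := by
  rw [Matrix.trace_fin_two] at h
  have h2 : (2 : F) = 0 := CharTwo.two_eq_zero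
  linear_combination h - M 1 1 * h2

theorem tr_c (hL : OkG L S) : (mx S.rb L.c).trace = 0 := by
  have h2 : (2 : F) = 0 := CharTwo.two_eq_zero
  rw [Matrix.trace_fin_two]
  by_cases h : L.c ∈ L.H
  · have h1 := hL.dh.dg _ h
    have h3 := congrFun (congrFun (Pres.mx_mul (ρ := S.rb) L.c L.c) 0) 0
    have h4 := hL.det L.c
    rw [conj_sq hL.cj, Pres.mx_one, Matrix.mul_apply, Fin.sum_univ_two, h1.1,
      Matrix.one_apply_eq] at h3
    rw [Matrix.det_fin_two, h1.1] at h4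
    linear_combination (mx S.rb L.c 1 1) * h3 + (mx S.rb L.c 0 0) * h4 + (mx S.rb L.c 0 0) * h2
  · rw [(hL.dh.ad _ h).1, (hL.dh.ad _ h).2, add_zero]

theorem ov (hL : OkG L S) {l : ℕ} (hl : l ∈ L.C) : Ov l (L.P l) :=
  have h := Finset.mem_union_right L.W hl
  ⟨(hL.pr l h).1, hL.hP l h⟩

theorem phi_dec (hL : OkG L S) {l : ℕ} (hl : l ∈ L.C) : L.φ l ∈ W.dec (L.P l) :=
  W.phi_mem (ov hL hl).1 (ov hL hl).2.1 (hL.tm l (Finset.mem_union_right _ hl)).frob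

theorem tau_dec (hL : OkG L S) {l : ℕ} (hl : l ∈ L.C) : L.τ l ∈ W.dec (L.P l) :=
  W.inP_le_dec (hL.tm l (Finset.mem_union_right _ hl)).tau

theorem tau_H (hL : OkG L S) {l : ℕ} (hl : l ∈ L.C) : L.τ l ∈ L.H :=
  have h := Finset.mem_union_right L.W hl
  hL.dh.cy8 _ (fix8 (hL.pr l h).1 (hL.pr l h).2 (hL.hP l h).1 (hL.hP l h).2 (hL.tm l h).tau)

/-- the residual representation is unramified at the unipotent primes -/
theorem tau_one (hL : OkG L S) {l : ℕ} (hl : l ∈ L.C) : mx S.rb (L.τ l) = 1 := by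
  have h1 := hL.dh.dg _ (tau_H hL hl)
  have h3 := eq_of_tr (hL.uni l hl _ (tau_dec hL hl))
  have h4 := hL.det (L.τ l)
  have h2 : (2 : F) = 0 := CharTwo.two_eq_zero
  rw [Matrix.det_fin_two, h1.1, h3] at h4
  have h5 : mx S.rb (L.τ l) 1 1 = 1 := by
    have h6 : (mx S.rb (L.τ l) 1 1 - 1) ^ 2 = 0 := by
      linear_combination h4 + (1 - mx S.rb (L.τ l) 1 1) * h2
    exact sub_eq_zero.1 (pow_eq_zero_iff two_ne_zero |>.1 h6)
  ext i j
  fin_cases i <;> fin_cases j <;> simp [h1.1, h1.2, h3, h5]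

theorem phi_out (hL : OkG L S) {l : ℕ} (hl : l ∈ L.C) {g : GQ} (hg : g ∈ W.dec (L.P l))
    (hH : g ∉ L.H) : L.φ l ∉ L.H := by
  intro hφ
  obtain ⟨N, hN⟩ := (hL.tm l (Finset.mem_union_right _ hl)).tame _
    ((Units.coeHom (M2 F)).comp S.rb) (by
      convert hL.dh.opn using 2
      exact funext fun g => propext Units.val_eq_one)
  obtain ⟨k, j, e⟩ := P022D.Loc.BCA.gen (RingHom.id F) (fun a ha => Ne.isUnit ha) hN
    (fun g hg => P022D.Loc.BCA.sq_one (hL.uni l hl g hg) (hL.det g)) hg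
  rw [← map_pow, ← map_pow, ← map_mul] at e
  have h1 : S.rb (g⁻¹ * (L.φ l ^ k * L.τ l ^ j)) = 1 := by
    rw [map_mul, map_inv, inv_mul_eq_one]
    exact Units.ext e
  have h3 := Pres.mem_of_one ⟨hL.dh.dg, hL.dh.ad, hL.dh.opn⟩ h1
  exact hH (L.H.inv_mem_iff.1 ((L.H.mul_mem_cancel_right
    (L.H.mul_mem (L.H.pow_mem hφ k) (L.H.pow_mem (tau_H hL hl) j))).1 h3))

variable {κ : Type} {gk : κ → GQ} {ι : Type} (G : Gs S L gk ι)

theorem core (hP : PRES) (hO : OBS) (hC : CHR) [IsNoetherianRing O] [IsDomain O]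
    [IsAdicComplete (maximalIdeal O) O] [Finite F] [Fintype ι] (h2 : (2 : O) ≠ 0) (hL : OkG L S)
    (hS : (dt G).Ok) {X : Finset ℕ} (hz : Cz S X) {C' : Finset ℕ} (hC' : C' ⊆ L.C)
    {Lst : Ideal (PP O ι)} (hm : Lst ≤ maximalIdeal (PP O ι)) (h0 : ∀ i, de G i ∈ Lst)
    (ht : (Z G G.ic).trace ∈ Lst)
    (hl : ∀ l : L.C, l.1 ∈ C' → LOCL (dt G) Lst (W.dec (L.P l)) ∧
      tm (dt G) (G.iτ l) (G.iφ l) l 0 0 ∈ Lst)
    (𝓗 : Set (PP O ι)) (hH : Ideal.span 𝓗 = Jac (dt G)) :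
    ∃ (n : ℕ) (e : Fin n → PP O ι), n + 3 * C'.card + 6 ≤ 3 * Fintype.card ι ∧ (∀ i, e i ∈ 𝓗) ∧
      Jac (dt G) ≤ Ideal.span (Set.range e) ⊔ Lst := by
  classical
  have cc := conj_sq hL.cj
  have c1 : L.c ≠ 1 := fun h => h2 (by
    have h3 := hL.odd
    rw [h, map_one, Matrix.det_one] at h3
    linear_combination h3)
  have n0 : ∀ l ∈ L.C, l ≠ 0 := fun l hl => (ov hL hl).1.ne_zero
  let D : ℕ → Subgroup GQ := fun l => if l = 0 then two L.c cc else W.dec (L.P l)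
  have D0 : D 0 = two L.c cc := if_pos rfl
  have D1 : ∀ l, l ≠ 0 → D l = W.dec (L.P l) := fun l h => if_neg h
  let k : ℕ → ι := fun l => if h : l ∈ L.C then G.iτ ⟨l, h⟩ else G.ic
  have k0 : k 0 = G.ic := dif_neg fun h => n0 0 h rfl
  have k1 : ∀ l (h : l ∈ L.C), k l = G.iτ ⟨l, h⟩ := fun l h => dif_pos h
  have z0 : 0 ∉ C' := fun h => n0 0 (hC' h) rfl
  have hdc : (dt G).δ L.c = -1 := hL.odd
  have hh := presN hP hO hC hS (H := L.H) ⟨hL.dh.dg, hL.dh.ad, hL.dh.opn⟩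
    (hL.dh.irr.imp fun g h => ⟨h.1, h.2.2⟩) hz.fx1 hz.fx2
    (show 2 ∈ S.T by rw [hL.hT]; simp) (D := D) (fun l hl => ?_) (B := insert 0 C')
    (fun l hl => ?_) (Finset.mem_insert_self _ _) (fun h => ?_) hm (fun l h => ?_) h0
    (fun l h g hg hH => ?_) k (fun a ha b hb hab => ?_) (fun l h hg => ?_) 𝓗 hH
  · obtain ⟨n, e, h1, h3⟩ := hh
    refine ⟨n, e, ?_, h3⟩
    rw [Finset.card_insert_of_notMem z0] at h1
    omega
  · have hl' : l ∈ S.T := hl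
    rw [hL.hT, Finset.mem_insert, Finset.mem_insert] at hl'
    rcases hl' with rfl | rfl | hl'
    · exact Or.inl ⟨rfl, L.c, hL.cj, by rw [D0]; rfl⟩
    · refine Or.inr ⟨Nat.prime_two, L.P 2, ?_, ?_, by rw [D1 2 (by norm_num)]; rfl⟩
      · rw [hL.h2]; exact P022D.Loc2.PP_prime 2
      · rw [hL.h2]; exact P022D.Loc2.p_mem_PP 2
    · exact Or.inr ⟨(hL.pr l hl').1, L.P l, (hL.hP l hl').1, (hL.hP l hl').2,
        by rw [D1 l (hL.pr l hl').1.ne_zero]; rfl⟩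
  · show l ∈ S.T
    rw [hL.hT]
    rcases Finset.mem_insert.1 hl with rfl | hl
    · exact Finset.mem_insert_self _ _
    · exact Finset.mem_insert_of_mem (Finset.mem_insert_of_mem
        (Finset.mem_union_right _ (hC' hl)))
  · rcases Finset.mem_insert.1 h with h | h
    · exact absurd h (by norm_num)
    · exact (hL.pr 2 (Finset.mem_union_right _ (hC' h))).2 rfl
  · rcases Finset.mem_insert.1 h with rfl | h
    · rw [D0]
      refine loclR (c := L.c) rfl c1 G.hc hdc ht ?_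
      rw [← G.hc]
      exact h0 G.ic
    · rw [D1 l (n0 l (hC' h))]
      exact (hl ⟨l, hC' h⟩ h).1
  · rcases Finset.mem_insert.1 h with rfl | h
    · rw [D0] at hg
      rcases hg with rfl | rfl
      · show mx S.rb 1 0 0 = mx S.rb 1 1 1
        rw [Pres.mx_one, Matrix.one_apply_eq, Matrix.one_apply_eq]
      · exact eq_of_tr (tr_c hL)
    · rw [D1 l (n0 l (hC' h))] at hg
      exact eq_of_tr (hL.uni l (hC' h) g hg)
  · rcases Finset.mem_insert.1 ha with rfl | ha <;> rcases Finset.mem_insert.1 hb with rfl | hb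
    · rfl
    · rw [k0, k1 b (hC' hb)] at hab
      exact absurd (G.inj (a₁ := Sum.inl 1) (a₂ := Sum.inr (Sum.inl ⟨b, hC' hb⟩)) hab) (by simp)
    · rw [k0, k1 a (hC' ha)] at hab
      exact absurd (G.inj (a₁ := Sum.inl 1) (a₂ := Sum.inr (Sum.inl ⟨a, hC' ha⟩)) hab.symm)
        (by simp)
    · rw [k1 a (hC' ha), k1 b (hC' hb)] at hab
      simpa using G.inj (a₁ := Sum.inr (Sum.inl ⟨a, hC' ha⟩))
        (a₂ := Sum.inr (Sum.inl ⟨b, hC' hb⟩)) hab
  · obtain ⟨g, hg, hgH⟩ := hg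
    rcases Finset.mem_insert.1 h with rfl | h
    · rw [D0] at hg
      rw [k0]
      have e1 : (dt G).gam G.ic = L.c := G.hc
      rcases hg with rfl | rfl
      · exact absurd L.H.one_mem hgH
      · exact sv_tr hS (by rw [e1, cc]) (by rw [e1, hdc])
          (by rw [e1]; exact (hL.dh.ad _ hgH).2) ht
    · have hc := hC' h
      rw [D1 l (n0 l hc)] at hg
      rw [k1 l hc]
      have e1 : (dt G).gam (G.iτ ⟨l, hc⟩) = L.τ l := G.hτ _
      have e2 : (dt G).gam (G.iφ ⟨l, hc⟩) = L.φ l := G.hφ _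
      refine sv_tame hS (j := G.iφ ⟨l, hc⟩) (l := l) (fun a ρ _ hρ => ?_)
        (by rw [e1]; exact tau_one hL hc)
        (by rw [e2]; exact (hL.dh.ad _ (phi_out hL hc hg hgH)).1) (hl ⟨l, hc⟩ h).2
      by_cases ha : a = ⊤
      · have := Ideal.Quotient.subsingleton_iff.2 ha
        exact Subsingleton.elim _ _
      obtain ⟨π, p1, p2⟩ := ex_pi hS (φ := Ideal.Quotient.mk a) Ideal.Quotient.mk_surjective
        fun p hp => le_maximalIdeal ha (Ideal.Quotient.eq_zero_iff_mem.1 hp)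
      obtain ⟨N, hN⟩ := (hL.tm l (Finset.mem_union_right _ hc)).tame _ ρ hρ.opn
      rw [e1, e2]
      exact P022D.Loc.BCA.rel π p2 hN fun g hg => by
        rw [hρ.red p1]
        exact P022D.Loc.BCA.sq_one (hL.uni l hc g hg) (hL.det g)

theorem piz (hS : (dt G).Ok) (i : ι) (a b : Fin 2) :
    (dt G).π0 (Z G i a b) = mx S.rb (G.γ i) a b := piZ' hS i a b

theorem l0_le (hS : (dt G).Ok) : L0 G ≤ maximalIdeal (PP O ι) := by
  refine Ideal.span_le.2 ?_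
  rintro f (⟨i, rfl⟩ | rfl | rfl)
  · exact Pres.jac_le hS (Pres.Cn.dt_mem i)
  · exact hS.max.1 (by rw [piz G hS, G.h0, S.d01])
  · exact hS.max.1 (by rw [piz G hS, G.h0, S.d10])

theorem lu_le (hL : OkG L S) (hS : (dt G).Ok) (J : Finset L.C) :
    Lu G J ≤ maximalIdeal (PP O ι) := by
  refine Ideal.span_le.2 ?_
  rintro f ⟨l, -, rfl | rfl | rfl⟩ <;> refine hS.max.1 ?_
  · rw [map_sub, map_one, piz G hS, G.hτ, tau_one hL l.2, Matrix.one_apply_eq, sub_self]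
  · rw [piz G hS, G.hτ, tau_one hL l.2]; simp
  · rw [piz G hS, G.hτ, tau_one hL l.2]; simp

theorem lt_le (hL : OkG L S) (hS : (dt G).Ok) (J : Finset L.C) :
    Lt G J ≤ maximalIdeal (PP O ι) := by
  have t1 : ∀ i, (dt G).π0 (Z G i).trace = (mx S.rb (G.γ i)).trace := fun i => by
    rw [Matrix.trace_fin_two, Matrix.trace_fin_two, map_add, piz G hS, piz G hS]
  refine Ideal.span_le.2 ?_
  rintro f (rfl | ⟨l, -, rfl | rfl | rfl⟩) <;> refine hS.max.1 ?_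
  · rw [t1, G.hc, tr_c hL]
  · rw [t1, G.hτ, hL.uni l l.2 _ (tau_dec hL l.2)]
  · rw [t1, G.hφ, hL.uni l l.2 _ (phi_dec hL l.2)]
  · have h := hL.uni l l.2 _ ((W.dec _).mul_mem (tau_dec hL l.2) (phi_dec hL l.2))
    rw [Pres.mx_mul] at h
    simpa only [Matrix.trace_fin_two, Matrix.mul_apply, Fin.sum_univ_two, map_add, map_mul,
      piz G hS, G.hτ, G.hφ] using h

theorem unr (hL : OkG L S) (hS : (dt G).Ok) {Lst : Ideal (PP O ι)} (h0 : ∀ i, de G i ∈ Lst)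
    {J : Finset L.C} (hu : Lu G J ≤ Lst) {l : L.C} (hl : l ∉ J)
    (hd : C ((dt G).δ (L.τ l)) - 1 ∈ Lst) : LOCL (dt G) Lst (W.dec (L.P l)) ∧
      tm (dt G) (G.iτ l) (G.iφ l) l 0 0 ∈ Lst := by
  have a1 : Z G (G.iτ l) 0 0 - 1 ∈ Lst := hu (Ideal.subset_span ⟨l, hl, Or.inl rfl⟩)
  have a2 : Z G (G.iτ l) 0 1 ∈ Lst := hu (Ideal.subset_span ⟨l, hl, Or.inr (Or.inl rfl)⟩)
  have a3 : Z G (G.iτ l) 1 0 ∈ Lst := hu (Ideal.subset_span ⟨l, hl, Or.inr (Or.inr rfl)⟩)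
  have d1 : (Z G (G.iτ l)).det - C ((dt G).δ (L.τ l)) ∈ Lst := by
    rw [← G.hτ]; exact h0 _
  have d2 : (Z G (G.iφ l)).det - C ((dt G).δ (L.φ l)) ∈ Lst := by
    rw [← G.hφ]; exact h0 _
  refine ⟨loclT0 hS (ov hL l.2) (hL.tm l (Finset.mem_union_right _ l.2))
    (fun g hg => ⟨hL.uni l l.2 g hg, hL.det g⟩) (G.hτ l) (G.hφ l) d1 d2 a1 a2 a3 (Or.inr hd),
    tm_one _ (fun a b => ?_) 0 0⟩
  fin_cases a <;> fin_cases b
  · simpa using a1
  · simpa using a2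
  · simpa using a3
  · have e : Z G (G.iτ l) 1 1 - 1 = (Z G (G.iτ l)).det - C ((dt G).δ (L.τ l)) +
        (C ((dt G).δ (L.τ l)) - 1) - (Z G (G.iτ l) 0 0 - 1) * Z G (G.iτ l) 1 1 +
        Z G (G.iτ l) 0 1 * Z G (G.iτ l) 1 0 := by
      rw [Matrix.det_fin_two]; ring
    have h := Lst.add_mem (Lst.sub_mem (Lst.add_mem d1 hd)
      (Lst.mul_mem_right (Z G (G.iτ l) 1 1) a1)) (Lst.mul_mem_right (Z G (G.iτ l) 1 0) a2)
    rw [← e] at h
    simpa using h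

end Pr

open Pr

theorem pr2C (hP : PRES) (hO : OBS) (hC : CHR) (hD : DOK) : PR2 := by
  intro O F _ _ _ _ _ _ _ S L κ gk ι _ G ϖ X as h2 hϖ hx hz J 𝓗 hH
  have hS := hD O F S L κ gk ι G ϖ X as h2 hϖ hx
  have hL := hx.ok
  have hπ : ∀ c ∈ maximalIdeal O, (C c : PP O ι) ∈
      Ideal.span {C ϖ} ⊔ L0 G ⊔ Lu G J ⊔ Lt G J := fun c hc => by
    rw [hϖ.maximalIdeal_eq, Ideal.mem_span_singleton] at hc
    exact Ideal.mem_sup_left (Ideal.mem_sup_left (Ideal.mem_sup_left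
      (Ideal.mem_span_singleton.2 (map_dvd _ hc))))
  have h0 : ∀ i, de G i ∈ Ideal.span {C ϖ} ⊔ L0 G ⊔ Lu G J ⊔ Lt G J := fun i =>
    Ideal.mem_sup_left (Ideal.mem_sup_left (Ideal.mem_sup_right
      (Ideal.subset_span (Or.inl ⟨i, rfl⟩))))
  have hd : ∀ g, (C ((dt G).δ g) : PP O ι) - 1 ∈ Ideal.span {C ϖ} ⊔ L0 G ⊔ Lu G J ⊔ Lt G J :=
    fun g => by
      have h := hπ ((dt G).δ g - 1) ((hS.ker _).1 (by
        rw [map_sub, map_one, hS.det]; exact sub_eq_zero.2 (hL.det g)))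
      rwa [map_sub, map_one] at h
  refine core G hP hO hC h2 hL hS hz (Finset.Subset.refl _) (sup_le (sup_le (sup_le ?_
    (l0_le G hS)) (lu_le G hL hS J)) (lt_le G hL hS J)) h0
    (Ideal.mem_sup_right (Ideal.subset_span (Or.inl rfl))) (fun l _ => ?_) 𝓗 hH
  · refine (Ideal.span_singleton_le_iff_mem _).2 (hS.max.1 ?_)
    have h := (hS.ker ϖ).2 hϖ.not_isUnit
    simpa [Dt.π0] using h
  by_cases hl : l ∈ J
  · have t1 := Ideal.mem_sup_right (S := Ideal.span {C ϖ} ⊔ L0 G ⊔ Lu G J) (T := Lt G J)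
      (Ideal.subset_span (Or.inr ⟨l, hl, Or.inl rfl⟩))
    have t2 := Ideal.mem_sup_right (S := Ideal.span {C ϖ} ⊔ L0 G ⊔ Lu G J) (T := Lt G J)
      (Ideal.subset_span (Or.inr ⟨l, hl, Or.inr (Or.inl rfl)⟩))
    have t3 := Ideal.mem_sup_right (S := Ideal.span {C ϖ} ⊔ L0 G ⊔ Lu G J) (T := Lt G J)
      (Ideal.subset_span (Or.inr ⟨l, hl, Or.inr (Or.inr rfl)⟩))
    have d1 := h0 (G.iτ l)
    have d2 := h0 (G.iφ l)
    rw [de, Gs.rc, G.hτ] at d1
    rw [de, Gs.rc, G.hφ] at d2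
    refine ⟨loclT1 hS (ov hL l.2) (hL.tm l (Finset.mem_union_right _ l.2))
      (fun g hg => ⟨hL.uni l l.2 g hg, hL.det g⟩) (G.hτ l) (G.hφ l) d1 d2 hπ t1 t2 t3,
      tm_uni ((ov hL l.2).1.odd_of_ne_two (hL.pr l (Finset.mem_union_right _ l.2)).2) ?_ ?_
        t1 t2 t3 0 0⟩
    · have h := hπ 2 ((hS.ker 2).1 (by rw [map_ofNat]; exact CharTwo.two_eq_zero))
      rwa [map_ofNat] at h
    · have h := Ideal.add_mem _ d1 (hd (L.τ l))
      rwa [show (dt G).δ (L.τ l) = (L.r (L.τ l)).det from rfl, sub_add_sub_cancel] at h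
  · exact unr G hL hS h0 (le_sup_right.trans le_sup_left) hl (hd _)

theorem pr0C (hP : PRES) (hO : OBS) (hC : CHR) (hD : DOK) : PR0 := by
  intro O F _ _ _ _ _ _ _ S L κ gk ι _ G ϖ X as h2 hϖ hx hz
  have hS := hD O F S L κ gk ι G ϖ X as h2 hϖ hx
  have hL := hx.ok
  refine core G hP hO hC h2 hL hS hz hx.sub (sup_le (sup_le (l0_le G hS) (lu_le G hL hS _))
    (lt_le G hL hS _)) (fun i => Ideal.mem_sup_left (Ideal.mem_sup_left
      (Ideal.subset_span (Or.inl ⟨i, rfl⟩))))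
    (Ideal.mem_sup_right (Ideal.subset_span (Or.inl rfl))) (fun l hl => ?_) _ (Ideal.span_eq _)
  refine unr G hL hS (fun i => Ideal.mem_sup_left (Ideal.mem_sup_left
    (Ideal.subset_span (Or.inl ⟨i, rfl⟩)))) (le_sup_right.trans le_sup_left) (by simpa using hl) ?_
  have h := hx.unr l (ov hL l.2).1 (Or.inr hl) _ (ov hL l.2).2.1 (ov hL l.2).2.2 _
    (hL.tm l (Finset.mem_union_right _ l.2)).tau
  rw [show (dt G).δ (L.τ l) = (L.r (L.τ l)).det from rfl, h, Matrix.det_one, map_one, sub_self]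
  exact Ideal.zero_mem _

end Vale.Agent.P022G.Tr
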