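import Vale.Agent.P022G.Tr.Dok
import Vale.Agent.P022G.Pres.Uni
import Vale.Agent.P022F.Nak
import Vale.Agent.P022D.CA.Dep
import Vale.Agent.P022E.GW.LbH35a

/-!
# P022G: the reducible locus is small
-/

set_option linter.all false

noncomputable section

namespace Vale.Agent.P022G.Tr

open NumberField IsLocalRing MvPowerSeries TrivSqZeroExt
open Vale.Agent.P022 Vale.Agent.P022G.R Vale.Agent.P022G.Loc
open Vale.Agent.P027M.S (Inert mx)
open Vale.Agent.P022D.Sel (M2)
open Vale.Agent.P022E.Loc (Pl)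
open Vale.Agent.P022E.GW (Ov H1)
open Vale.Agent.P022G.Pres
open Vale.Agent.P022D.R (ker_set)
open scoped Pointwise

namespace Red

variable {F : Type} [Field F]

theorem tr0 [CharP F 2] {M : M2 (DualNumber F)} (h1 : (M 0 1).fst = 0) (h2 : (M 1 0).fst = 0)
    (d1 : M.det.fst = 1) (d2 : M.det.snd = 0) (t : M.trace.fst = 0) : M.trace = 0 := by
  have two : (2 : F) = 0 := CharTwo.two_eq_zero
  simp only [Matrix.det_fin_two, Matrix.trace_fin_two, fst_sub, fst_mul, fst_add, snd_sub,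
    DualNumber.snd_mul, h1, h2] at d1 d2 t
  refine TrivSqZeroExt.ext (by simpa [Matrix.trace_fin_two] using t) ?_
  simp only [Matrix.trace_fin_two, snd_add, snd_zero]
  linear_combination (M 0 0).fst * d2 - ((M 0 0).snd + (M 1 1).snd) * d1 +
    ((M 0 0).fst * (M 1 1).snd) * t - ((M 0 0).fst ^ 2 * (M 1 1).snd) * two

/-- the derivative -/
def dv (ρ : GQ →* M2 (DualNumber F)) (g : GQ) : M2 F := (ρ g).map snd

variable {ρ : GQ →* M2 (DualNumber F)} {rb : GQ →* GL (Fin 2) F}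

theorem dv_mul (r : ∀ g i j, (ρ g i j).fst = mx rb g i j) (g h : GQ) :
    dv ρ (g * h) = dv ρ g * mx rb h + mx rb g * dv ρ h := by
  ext i j
  simp only [dv, map_mul, Matrix.map_apply, Matrix.mul_apply, Fin.sum_univ_two, snd_add,
    DualNumber.snd_mul, Matrix.add_apply, r]
  ring

theorem dv_one {g : GQ} (h : ρ g = 1) : dv ρ g = 0 := by
  ext i j
  simp only [dv, h, Matrix.map_apply, Matrix.one_apply]
  split_ifs <;> simp

theorem one_of (r : ∀ g i j, (ρ g i j).fst = mx rb g i j) {g : GQ} (h : rb g = 1)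
    (k : dv ρ g = 0) : ρ g = 1 := by
  ext i j
  · rw [r, Dok.mx_one rb h]
    simp only [Matrix.one_apply]
    split_ifs <;> simp
  · have := congrFun (congrFun k i) j
    simp only [dv, Matrix.map_apply, Matrix.zero_apply] at this
    rw [this]
    simp only [Matrix.one_apply]
    split_ifs <;> simp

theorem odd_one [CharP F 2] (r : ∀ g i j, (ρ g i j).fst = mx rb g i j) {g : GQ} (h : rb g = 1)
    {m : ℕ} (hm : Odd m) (k : ρ g ^ m = 1) : ρ g = 1 := by
  have e : ρ (g * g) = 1 := one_of r (by rw [map_mul, h, one_mul]) (by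
    rw [dv_mul r, Dok.mx_one rb h, mul_one, one_mul]
    ext i j
    exact CharTwo.add_self_eq_zero _)
  obtain ⟨n, rfl⟩ := hm
  rwa [pow_succ, pow_mul, sq, ← map_mul, e, one_pow, one_mul] at k

theorem coc (r : ∀ g i j, (ρ g i j).fst = mx rb g i j) (ho : IsOpen {g | ρ g = 1})
    {T : Finset ℕ} (hu : Un T ρ) : (fun g => dv ρ g * mx rb g⁻¹) ∈ H1 rb T ⊤ :=
  ⟨fun g _ k _ => by
      beta_reduce
      rw [dv_mul r, mul_inv_rev, mxm, add_mul, mul_assoc, ← mul_assoc (mx rb k), mxi, one_mul]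
      simp only [mul_assoc],
    fun g hg => absurd trivial hg,
    ⟨ρ.toHomUnits.ker, ((ker_set ρ).symm ▸ ho : IsOpen (ρ.toHomUnits.ker : Set GQ)),
      fun g hg => by
        beta_reduce
        rw [dv_one (Units.ext_iff.1 hg), zero_mul]⟩,
    fun l hl P hP g hg => by
      beta_reduce
      rw [dv_one (hu l hl P hP g hg), zero_mul]⟩

theorem dgl {A : M2 F} (h : A 0 1 = 0 ∧ A 1 0 = 0) (m : M2 F) (i j : Fin 2) :
    (A * m) i j = A i i * m i j := by
  fin_cases i <;> simp [Matrix.mul_apply, Fin.sum_univ_two, h.1, h.2]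

theorem dgr {A : M2 F} (h : A 0 1 = 0 ∧ A 1 0 = 0) (m : M2 F) (i j : Fin 2) :
    (m * A) i j = m i j * A j j := by
  fin_cases j <;> simp [Matrix.mul_apply, Fin.sum_univ_two, h.1, h.2]

theorem cmp (dg : ∀ g, mx rb g 0 1 = 0 ∧ mx rb g 1 0 = 0) {T : Finset ℕ} {c : GQ → M2 F}
    (hc : c ∈ H1 rb T ⊤) (i j : Fin 2) :
    (fun g => Matrix.single i j (c g i j)) ∈ H1 rb T ⊤ :=
  ⟨fun g _ k _ => by
      beta_reduce
      ext a b
      rw [hc.1 g trivial k trivial, Matrix.add_apply, Matrix.add_apply, dgr (dg _), dgl (dg _),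
        dgr (dg _), dgl (dg _)]
      by_cases e : i = a ∧ j = b
      · obtain ⟨rfl, rfl⟩ := e
        simp
      · simp only [Matrix.single_apply_of_ne _ _ _ _ _ e, mul_zero, zero_mul, add_zero],
    fun g hg => absurd trivial hg,
    hc.2.2.1.imp fun U hU => ⟨hU.1, fun g hg => by
      beta_reduce
      rw [hU.2 g hg]; simp⟩,
    fun l hl P hP g hg => by
      beta_reduce
      rw [hc.2.2.2 l hl P hP g hg]; simp⟩

variable {O : Type} [CommRing O] [IsLocalRing O] [CharP F 2] {S : Dat O F} {L : Pl O}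
  {κ : Type} {gk : κ → GQ} {ι : Type} {G : Gs S L gk ι} {X : Finset ℕ} {as : ℕ}

theorem lt (hC : Cx S L X as) (hS : (dt G).Ok) (hH : L.H = ⊤) {φ : PP O ι →+* DualNumber F}
    (f1 : ∀ r, (φ r).fst = (dt G).π0 r) (f2 : ∀ o, (φ (C o)).snd = 0)
    (f3 : L0 G ≤ RingHom.ker φ) : Lt G Finset.univ ≤ RingHom.ker φ := by
  have dg : ∀ g, mx S.rb g 0 1 = 0 ∧ mx S.rb g 1 0 = 0 := fun g => hC.ok.dh.dg g (hH ▸ trivial)
  let π : DualNumber F →+* F := fstHom F F F
  have a : ∀ i, ((Z G i).map φ).map π = mx S.rb (G.γ i) := fun i => by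
    rw [← show _ = mx S.rb (G.γ i) from hS.Z i]
    exact Matrix.ext fun a b => f1 _
  have b : ∀ i, ((Z G i).map φ).det.snd = 0 := fun i => by
    have := f3 (Ideal.subset_span (Or.inl ⟨i, rfl⟩))
    rw [RingHom.mem_ker, de, map_sub, sub_eq_zero, RingHom.map_det] at this
    exact (congrArg snd this).trans (f2 _)
  have k : ∀ (M : M2 (PP O ι)) (g : GQ), (M.map φ).map π = mx S.rb g → (M.map φ).det.snd = 0 →
      (mx S.rb g).trace = 0 → φ M.trace = 0 := fun M g e d t => by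
    have e' : ∀ i j, ((M.map φ) i j).fst = mx S.rb g i j := fun i j =>
      congrFun (congrFun e i) j
    have := tr0 (M := M.map φ) (by rw [e', (dg g).1]) (by rw [e', (dg g).2]) (by
      have := RingHom.map_det π (M.map φ)
      rw [RingHom.mapMatrix_apply, e, hC.ok.det] at this
      exact this) d (by
      rw [← t, Matrix.trace_fin_two, Matrix.trace_fin_two, fst_add, e', e'])
    rw [← this, Matrix.trace_fin_two, Matrix.trace_fin_two, map_add]
    rfl
  have m : ∀ l : L.C, L.τ l ∈ P022D.W.dec (L.P l) ∧ L.φ l ∈ P022D.W.dec (L.P l) := fun l => by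
    have h := Finset.mem_union_right L.W l.2
    exact ⟨P022D.W.inP_le_dec (hC.ok.tm l h).tau,
      P022D.W.phi_mem (hC.ok.pr l h).1 (hC.ok.hP l h).1 (hC.ok.tm l h).frob⟩
  refine Ideal.span_le.2 ?_
  rintro f (rfl | ⟨l, -, rfl | rfl | rfl⟩)
  · refine k _ _ (a _) (b _) ?_
    have e := congrFun (congrFun (mxm S.rb L.c L.c) 0) 0
    have d := hC.ok.det L.c
    rw [P022E.GW.H35.conj_sq hC.ok.cj, mx1, dgl (dg _), Matrix.one_apply_eq] at e
    rw [Matrix.det_fin_two, (dg _).1] at d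
    have two : (2 : F) = 0 := CharTwo.two_eq_zero
    rw [G.hc, Matrix.trace_fin_two]
    linear_combination (mx S.rb L.c 1 1) * e + (mx S.rb L.c 0 0) * d + (mx S.rb L.c 0 0) * two
  · exact k _ _ (a _) (b _) (by rw [G.hτ]; exact hC.ok.uni l l.2 _ (m l).1)
  · exact k _ _ (a _) (b _) (by rw [G.hφ]; exact hC.ok.uni l l.2 _ (m l).2)
  · refine k _ (G.γ (G.iτ l) * G.γ (G.iφ l)) (by
      rw [Matrix.map_mul, Matrix.map_mul, a, a, mxm]) (by
      rw [Matrix.map_mul, Matrix.det_mul, DualNumber.snd_mul, b, b]; ring) ?_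
    rw [G.hτ, G.hφ]
    exact hC.ok.uni l l.2 _ ((P022D.W.dec _).mul_mem (m l).1 (m l).2)

theorem van [Fintype ι] (hC : Cx S L X as) (hS : (dt G).Ok) (hH : L.H = ⊤)
    {φ : PP O ι →+* DualNumber F} (f1 : ∀ r, (φ r).fst = (dt G).π0 r)
    (f2 : ∀ o, (φ (C o)).snd = 0) (A : Adm (dt G) φ ρ) {i j : Fin 2} (ij : i ≠ j)
    (hz : ∀ s, φ (Z G s i j) = 0) {k : ℕ} {g : Fin k → GQ}
    (hg : ∀ c ∈ H1 S.rb (S.T \ X) ⊤, (∀ i, c (g i) = 0) → c = 0)
    (h1 : ∀ s, dv ρ (g s) 0 0 = 0 ∧ dv ρ (g s) j i = 0)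
    (h2 : ∀ a ∈ X, dv ρ (L.τ a) 0 0 = 0 ∧ dv ρ (L.τ a) j i = 0) (y : PP O ι) :
    (φ y).snd = 0 := by
  have dg : ∀ g, mx S.rb g 0 1 = 0 ∧ mx S.rb g 1 0 = 0 := fun g => hC.ok.dh.dg g (hH ▸ trivial)
  have r : ∀ g i j, (ρ g i j).fst = mx S.rb g i j := fun g i j =>
    congrFun (congrFun (A.red (π := fstHom F F F) f1 g) i) j
  have ne : ∀ g i, mx S.rb g i i ≠ 0 := fun g i e => by
    have := congrFun (congrFun (mxi S.rb g) i) i
    rw [dgl (dg _), e, zero_mul, Matrix.one_apply_eq] at this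
    exact zero_ne_one this
  have c0 := hS.gen _ (cmp dg (coc r A.opn A.unr) i j) fun s => by
    beta_reduce
    rw [dgr (dg _), show dv ρ ((dt G).gam s) i j = (φ (Z G s i j)).snd by
      rw [dv, A.gen]; rfl, hz]
    simp
  have c1 : ∀ g, dv ρ g i j = 0 := fun g => by
    have := congrFun (congrFun (congrFun c0 g) i) j
    rw [Matrix.single_apply_same, dgr (dg _)] at this
    exact (mul_eq_zero.1 this).resolve_right (ne _ _)
  have z : ∀ g, dv ρ g 0 0 = 0 ∧ dv ρ g j i = 0 → dv ρ g = 0 := fun g h => by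
    have d : (ρ g).det.snd = 0 := by rw [A.det]; exact f2 _
    have a : (ρ g 0 0).snd = 0 := h.1
    simp only [Matrix.det_fin_two, snd_sub, DualNumber.snd_mul, r, (dg g).1, (dg g).2, a,
      zero_mul, mul_zero, add_zero, sub_zero] at d
    have d' : dv ρ g 1 1 = 0 := (mul_eq_zero.1 d).resolve_left (ne g 0)
    have b := c1 g
    have b' := h.2
    ext u v
    fin_cases i <;> fin_cases j <;> fin_cases u <;> fin_cases v <;>
      first | exact h.1 | exact d' | exact b | exact b' | exact absurd rfl ij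
  have rb1 : ∀ a ∈ X, ∀ s, Inert (L.P a) s → S.rb s = 1 := fun a ha s hs => by
    have h := Finset.mem_union_right L.W (hC.sub ha)
    have e := hC.ok.lift s
    rw [hC.unr a (hC.ok.pr a h).1 (Or.inr ha) _ (hC.ok.hP a h).1 (hC.ok.hP a h).2 s hs,
      Matrix.map_one _ (map_zero _) (map_one _)] at e
    exact Units.ext e.symm
  have un : Un (S.T \ X) ρ := fun l hl P hP s hs => by
    by_cases hT : l ∈ S.T
    swap
    · exact A.unr l hT P hP s hs
    have ha : l ∈ X := by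
      by_contra n
      exact hl (Finset.mem_sdiff.2 ⟨hT, n⟩)
    have h := Finset.mem_union_right L.W (hC.sub ha)
    obtain ⟨t, rfl⟩ := P022E.GW.H35.ov_trans
      ⟨(hC.ok.pr l h).1, (hC.ok.hP l h).1, (hC.ok.hP l h).2⟩ hP
    have s1 := P022E.GW.H35.inert_conj hs t
    rw [inv_smul_smul] at s1
    obtain ⟨N, tm⟩ := (hC.ok.tm l h).tame _ ρ A.opn
    obtain ⟨n, p, hp, e⟩ := tm.cyc _ s1
    obtain ⟨m, hm, e'⟩ := tm.odd p hp
    have t1 : ρ (L.τ l) = 1 := one_of r (rb1 l ha _ tm.tau) (z _ (h2 l ha))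
    have p1 := odd_one r (rb1 l ha _ (tm.NI hp)) hm e'
    rw [show s = t * (t⁻¹ * s * t) * t⁻¹ by group, e, map_mul, map_mul, map_mul, map_pow, t1, p1,
      one_pow, mul_one, mul_one, ← map_mul, mul_inv_cancel, map_one]
  have c2 := hg _ (coc r A.opn un) fun s => by
    beta_reduce
    rw [z _ (h1 s), zero_mul]
  have c3 : ∀ g, dv ρ g = 0 := fun g => by
    have := congrArg (· * mx S.rb g) (congrFun c2 g)
    simpa only [mul_assoc, mxi', mul_one, Pi.zero_apply, zero_mul] using this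
  have x0 : ∀ s, φ (MvPowerSeries.X s) = 0 := fun s => by
    refine TrivSqZeroExt.ext (by rw [f1]; simp [Dt.π0]) ?_
    have := congrFun (congrFun (c3 ((dt G).gam s.1)) s.2.1) s.2.2
    rw [dv, A.gen] at this
    simpa [Dt.Z, f2] using this
  obtain ⟨w, e⟩ := P022D.L2b.decomp y
  rw [e, map_add, map_sum, snd_add, f2, zero_add, Finset.sum_eq_zero fun s _ => by
    rw [map_mul, x0, zero_mul]]
  rfl

end Red

open Red in
theorem redC : RED := by
  intro O F _ _ _ _ _ _ _ S L κ gk ι _ G ϖ X as h2 hϖ hC hZ hH I hI hπ h0 hJ hd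
  have hS := dokC O F S L κ gk ι G ϖ X as h2 hϖ hC
  obtain ⟨p, pp, le, hd⟩ := P022D.CA.dimGE_prime hd
  obtain ⟨i, j, ij, hz⟩ : ∃ i j : Fin 2, i ≠ j ∧ ∀ s, Z G s i j ∈ p := by
    by_cases h : ∀ s, Z G s 0 1 ∈ p
    · exact ⟨0, 1, by decide, h⟩
    · push Not at h
      obtain ⟨s, hs⟩ := h
      exact ⟨1, 0, by decide, fun k => (pp.mem_or_mem (le (Ideal.mem_sup_right
        (Ideal.subset_span ⟨s, k, rfl⟩)))).resolve_left hs⟩
  obtain ⟨k, g, hk, hg⟩ := hZ.big
  obtain ⟨-, ρ, A⟩ := go_jac hS 2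
  let w : Fin k ⊕ X → GQ := Sum.elim g fun a => L.τ a
  let e1 : Fin 2 → Fin 2 := ![0, j]
  let e2 : Fin 2 → Fin 2 := ![0, i]
  have ex : ∀ s : (Fin k ⊕ X) × Fin 2, ∃ x ∈ maximalIdeal (PP O ι), ∃ o,
      Ideal.Quotient.mk _ (x + C o) = ρ (w s.1) (e1 s.2) (e2 s.2) := fun s => by
    obtain ⟨q, q1, q2⟩ := A.res (w s.1) (e1 s.2) (e2 s.2)
    refine ⟨q - C (constantCoeff q), hS.max.1 (by simp [Dt.π0]), constantCoeff q, ?_⟩
    rw [sub_add_cancel, q1]
  choose x hx o ho using ex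
  let fs := (Finset.univ : Finset ((Fin k ⊕ X) × Fin 2)).toList.map x
  have fm : ∀ f ∈ fs, f ∈ maximalIdeal (PP O ι) := fun f hf => by
    obtain ⟨s, -, rfl⟩ := List.mem_map.1 hf
    exact hx s
  have pm' : p ≤ maximalIdeal (PP O ι) := le_maximalIdeal pp.ne_top
  have jm : p ⊔ Ideal.ofList fs ≤ maximalIdeal (PP O ι) := sup_le pm' (Ideal.span_le.2 fm)
  have key : maximalIdeal (PP O ι) ≤ (p ⊔ Ideal.ofList fs) ⊔
      maximalIdeal (PP O ι) • maximalIdeal (PP O ι) := by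
    intro y hy
    by_contra n
    obtain ⟨φ, f1, f2, f3, f4⟩ := P022F.Nak.tan (O := O) (dt G).π0
      (fun y => (S.surj y).imp fun c hc => by
        simpa [Dt.π0, MvPowerSeries.algebraMap_apply, dt] using hc) _
      (by rw [ker_π0 hS]; exact sup_le jm Ideal.mul_le_left)
      (fun y z a b => Ideal.mem_sup_right (Ideal.mul_mem_mul (hS.max.1 a) (hS.max.1 b)))
      (fun c hc => by
        have c1 : c ∈ maximalIdeal O := (hC.ok.ker c).1 (by
          simpa [Dt.π0, MvPowerSeries.algebraMap_apply, dt] using hc)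
        rw [hϖ.maximalIdeal_eq] at c1
        obtain ⟨d, rfl⟩ := Ideal.mem_span_singleton'.1 c1
        refine Ideal.mem_sup_left (Ideal.mem_sup_left ?_)
        rw [map_mul]
        exact p.mul_mem_left _ (le (Ideal.mem_sup_left hπ))) (hS.max.2 hy) n
    have kp : p ≤ RingHom.ker φ := fun r hr => f3 r (Ideal.mem_sup_left (Ideal.mem_sup_left hr))
    have kI : I ≤ RingHom.ker φ := le_sup_left.trans (le.trans kp)
    have kJ : Jac (dt G) ⊔ maximalIdeal (PP O ι) ^ 2 ≤ RingHom.ker φ :=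
      sup_le (hJ.trans (sup_le kI (lt hC hS hH f1 f2 (h0.trans kI)))) fun r hr =>
        f3 r (Ideal.mem_sup_right (by rwa [sq] at hr))
    let u := Ideal.Quotient.lift _ φ kJ
    have A' : Adm (dt G) φ (pm u ρ) := A.map u
    have d : ∀ s : (Fin k ⊕ X) × Fin 2, dv (pm u ρ) (w s.1) (e1 s.2) (e2 s.2) = 0 := fun s => by
      show (u (ρ (w s.1) (e1 s.2) (e2 s.2))).snd = 0
      rw [← ho s]
      show (φ (x s + C (o s))).snd = 0
      rw [map_add, f3 (x s) (Ideal.mem_sup_left (Ideal.mem_sup_right (Ideal.subset_span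
        (List.mem_map.2 ⟨s, Finset.mem_toList.2 (Finset.mem_univ s), rfl⟩)))), zero_add]
      exact f2 _
    exact f4 (van hC hS hH f1 f2 A' ij (fun s => kp (hz s)) hg
      (fun s => ⟨d (Sum.inl s, 0), d (Sum.inl s, 1)⟩)
      (fun a ha => ⟨d (Sum.inr ⟨a, ha⟩, 0), d (Sum.inr ⟨a, ha⟩, 1)⟩) y)
  have e : p ⊔ Ideal.ofList fs = maximalIdeal (PP O ι) := le_antisymm jm
    (Submodule.le_of_le_smul_of_le_jacobson_bot (IsNoetherian.noetherian _)
      (maximalIdeal_le_jacobson _) key)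
  have len : 1 + fs.length ≤ 3 * X.card + 1 := by
    simp only [fs, List.length_map, Finset.length_toList, Finset.card_univ, Fintype.card_prod,
      Fintype.card_sum, Fintype.card_fin, Fintype.card_coe]
    omega
  have := P022D.CA.dimGE_ofList fs (k := 1) fm (le_trans (by exact_mod_cast len) hd)
  rw [e, ringKrullDim_eq_zero_of_isField
    ((Ideal.Quotient.maximal_ideal_iff_isField_quotient _).1 inferInstance)] at this
  exact absurd this (by norm_num)

end Vale.Agent.P022G.Tr
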