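import Vale.Agent.P022G.Tr.Asm
import Vale.Agent.P022G.Tr.Ag
import Vale.Agent.P022G.Tr.Dok
import Vale.Agent.P022G.Tr.Frp
import Vale.Agent.P022G.Tr.Wt
import Vale.Agent.P022G.Tr.Red
import Vale.Agent.P022G.Tr.Pr2
import Vale.Agent.P022G.Rw.Zed2
import Vale.Agent.P022G.Rw.Crv
import Vale.Agent.P022G.Rw.Kda
import Vale.Agent.P022G.Rw.Nice
import Vale.Agent.P022G.Rw.Gpo
import Vale.Agent.P022G.Rw.Pov
import Vale.Agent.P022G.Pres.Main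
import Vale.Agent.P022G.Obs.Sc2
import Vale.Agent.P022G.Obs.Main
import Vale.Agent.P022E.GW.ChrC

/-!
# P022G: the geometry of the ring of traces, without hypotheses
-/

namespace Vale.Agent.P022G

theorem Tr.pr2 : Tr.PR2 := Tr.pr2C Pres.pres (Obs.obs_of Obs.sc2) P022E.GW.chrC Tr.dokC

theorem Tr.pr0 : Tr.PR0 := Tr.pr0C Pres.pres (Obs.obs_of Obs.sc2) P022E.GW.chrC Tr.dokC

theorem presc2 : PRESC2 :=
  presc2C Tr.dokC (Tr.frpC Tr.dokC) (Tr.agC Tr.dokC) Tr.pr2 crv (kdaC (gpoC povC))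

theorem connj2 : CONNJ2 :=
  connj2C Tr.dokC (Tr.frpC Tr.dokC) (Tr.agC Tr.dokC) Tr.pr2 (Tr.wtC Tr.dokC) Tr.redC crv
    (kdaC (gpoC povC)) nice

theorem zed2 : ZED2 := zed2C Tr.pr0 (Tr.agC Tr.dokC)

end Vale.Agent.P022G
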