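import Vale.Agent.P022G.Tr.Phi
import Vale.Agent.P022G.Tr.CjH87
import Vale.Agent.P022G.Rows

/-!
# P022G: connectedness of the special fibre of type `J`, the dihedral case
-/

set_option linter.all false

noncomputable section

namespace Vale.Agent.P022G.Tr.D19

open IsLocalRing MvPowerSeries
open Vale.Agent.P022 Vale.Agent.P022G.R Vale.Agent.P022G.Loc
open Vale.Agent.P027M.S (mx)
open Vale.Agent.P022D.Sel (M2)
open Vale.Agent.P022D.Core (PS Coef)
open Vale.Agent.P022E.Loc (Pl)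
open Vale.Agent.P022G.Pres (Dt Jac Un)
open Vale.Agent.P022D.CA Vale.Agent.P022G.Trc
open Vale.Agent.P022G.Chain (Pd Cv Cn)

/-- the list of the values of a family -/
def ls {α R : Type} [Fintype α] (E : α → R) : List R := (Finset.univ : Finset α).toList.map E

theorem ls_len {α R : Type} [Fintype α] (E : α → R) : (ls E).length = Fintype.card α := by
  rw [ls, List.length_map, Finset.length_toList, Finset.card_univ]

theorem mem_ls {α R : Type} [Fintype α] {E : α → R} {f : R} : f ∈ ls E ↔ ∃ a, E a = f := by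
  simp [ls]

theorem ls_mem {α R : Type} [CommRing R] [Fintype α] (E : α → R) (a : α) :
    E a ∈ Ideal.ofList (ls E) := Ideal.subset_span (mem_ls.2 ⟨a, rfl⟩)

theorem ls_le {α R : Type} [CommRing R] [Fintype α] {E : α → R} {q : Ideal R}
    (h : ∀ a, E a ∈ q) : Ideal.ofList (ls E) ≤ q :=
  Ideal.span_le.2 fun f hf => by
    obtain ⟨a, rfl⟩ := mem_ls.1 hf
    exact h a

theorem surj {σ O P₀ : Type} [CommRing O] [IsLocalRing O] [IsNoetherianRing O] [Fintype σ]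
    [CommRing P₀] [IsLocalRing P₀] [IsPrecomplete (maximalIdeal P₀) P₀]
    {φ : P₀ →+* MvPowerSeries σ O} {I : Ideal (MvPowerSeries σ O)} (hI : I ≠ ⊤)
    (loc : ∀ u ∈ maximalIdeal P₀, φ u ∈ maximalIdeal (MvPowerSeries σ O))
    (hC : ∀ o, ∃ u, φ u = C o) (hX : ∀ s, ∃ u, X s - φ u ∈ I) (x : MvPowerSeries σ O) :
    ∃ u, x - φ u ∈ I := by
  have hs : Function.Surjective (Ideal.Quotient.mk I) := Ideal.Quotient.mk_surjective
  haveI : Nontrivial (MvPowerSeries σ O ⧸ I) := Ideal.Quotient.nontrivial_iff.2 hI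
  haveI : IsLocalRing (MvPowerSeries σ O ⧸ I) := .of_surjective' _ hs
  have hm : (maximalIdeal _).map (Ideal.Quotient.mk I) = maximalIdeal (MvPowerSeries σ O ⧸ I) :=
    map_maximalIdeal_of_surjective _ hs
  have hle : (maximalIdeal P₀).map ((Ideal.Quotient.mk I).comp φ) ≤ maximalIdeal _ := by
    rw [Ideal.map_le_iff_le_comap, ← hm]
    exact fun u hu => Ideal.mem_map_of_mem _ (loc u hu)
  haveI : IsHausdorff ((maximalIdeal P₀).map ((Ideal.Quotient.mk I).comp φ))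
      (MvPowerSeries σ O ⧸ I) := ⟨fun y hy => by
    have := Ideal.iInf_pow_eq_bot_of_isLocalRing _
      (ne_top_of_le_ne_top (maximalIdeal.isMaximal _).ne_top hle)
    rw [← Ideal.mem_bot, ← this, Ideal.mem_iInf]
    intro n
    have h := hy n
    rwa [SModEq.zero, smul_eq_mul, Ideal.mul_top] at h⟩
  have key := surjective_of_mk_map_comp_surjective (I := maximalIdeal P₀)
    ((Ideal.Quotient.mk I).comp φ) (fun y => by
      obtain ⟨y, rfl⟩ := Ideal.Quotient.mk_surjective y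
      obtain ⟨f, rfl⟩ := hs y
      obtain ⟨g, hg, -⟩ := Cpl.exists_decompV (f - C (constantCoeff f)) (by simp)
      obtain ⟨u, hu⟩ := hC (constantCoeff f)
      refine ⟨u, ?_⟩
      rw [RingHom.comp_apply, RingHom.comp_apply, eq_comm, Ideal.Quotient.eq, hu, ← map_sub, hg,
        map_sum]
      refine Ideal.sum_mem _ fun s _ => ?_
      obtain ⟨v, hv⟩ := hX s
      have hv0 : v ∈ maximalIdeal P₀ := by
        by_contra hn
        have h1 : IsUnit (φ v) := (notMem_maximalIdeal.1 hn).map φ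
        have h2 : X s - (X s - φ v) ∈ maximalIdeal (MvPowerSeries σ O) :=
          Ideal.sub_mem _ ((Cpl.mem_max_iff _).2 (by simp)) (le_maximalIdeal hI hv)
        rw [sub_sub_cancel] at h2
        exact notMem_maximalIdeal.2 h1 h2
      rw [map_mul, Ideal.Quotient.eq.2 hv]
      exact Ideal.mul_mem_right _ _ (Ideal.mem_map_of_mem ((Ideal.Quotient.mk I).comp φ) hv0))
  obtain ⟨u, hu⟩ := key (Ideal.Quotient.mk I x)
  exact ⟨u, Ideal.Quotient.eq.1 hu.symm⟩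

section
variable {O F : Type} [CommRing O] [Field F] {S : Dat O F} {L : Pl O} {κ : Type} {gk : κ → GQ}
  {ι : Type} (G : Gs S L gk ι)

/-- the names of the framed equations -/
abbrev Ef (n : ℕ) (ι : Type) {Γ : Type} (J : Finset Γ) (ε : Type) : Type :=
  Fin n ⊕ ι ⊕ Fin 2 ⊕ ({l // l ∉ J} × Fin 3) ⊕ ε

/-- the framed equations -/
def ef {n : ℕ} (e : Fin n → Pres.PP O ι) (J : Finset L.C) {ε : Type} (ex : ε → Pres.PP O ι) :
    Ef n ι J ε → Pres.PP O ι :=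
  Sum.elim e (Sum.elim (de G) (Sum.elim ![Z G G.i0 0 1, Z G G.i0 1 0] (Sum.elim
    (fun p => ![Z G (G.iτ p.1) 0 0 - 1, Z G (G.iτ p.1) 0 1, Z G (G.iτ p.1) 1 0] p.2) ex)))

/-- the invariant equations -/
def eg (J : Finset L.C) : Unit ⊕ ({l // l ∈ J} × Fin 3) → PS O (Sy ι) :=
  Sum.elim (fun _ => trS G.rc id G.ic) fun p =>
    ![trS G.rc id (G.iτ p.1), trS G.rc id (G.iφ p.1), tr2 G.rc id (G.iτ p.1) (G.iφ p.1)] p.2

theorem trc_mem [IsLocalRing O] (hL : OkG L S) : trS G.rc id G.ic ∈ G.aG := by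
  rintro B _ j v ψ ⟨Y, hY, rfl, rfl⟩ hψ
  have h1 : L.c * L.c = 1 := by
    obtain ⟨φ, hφ⟩ := hL.cj
    refine AlgEquiv.ext fun x => φ.injective ?_
    rw [AlgEquiv.mul_apply, hφ, hφ, starRingEnd_self_apply]
    rfl
  have h2 : Y.ρ L.c * Y.ρ L.c = 1 := by rw [← map_mul, h1, map_one]
  have h3 := hY.1.dc
  have e : ψ (trS G.rc id G.ic) = Y.ρ L.c 0 0 + Y.ρ L.c 1 1 := by
    rw [trS, aS, dS, map_add, map_add, map_add, hψ.c, hψ.c, hψ.x, hψ.x, ← G.hc]
    exact congrArg₂ (· + ·) (add_sub_cancel _ _) (add_sub_cancel _ _)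
  rw [e]
  generalize Y.ρ L.c = M at h2 h3
  have a := congrFun (congrFun h2 0) 0
  have b := congrFun (congrFun h2 0) 1
  simp only [Matrix.mul_apply, Fin.sum_univ_two, Matrix.one_apply_eq, ne_eq, zero_ne_one,
    not_false_eq_true, Matrix.one_apply_ne] at a b
  rw [Matrix.det_fin_two] at h3
  linear_combination M 0 0 * (a + h3) + M 1 0 * b - (M 0 0 + M 1 1) * a

theorem eg_mem [IsLocalRing O] (hL : OkG L S) (ϖ : O) (J : Finset L.C) (s) :
    eg G J s ∈ G.IT ϖ J := by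
  rcases s with _ | ⟨⟨l, hl⟩, c⟩
  · exact Ideal.mem_sup_left (Ideal.mem_sup_left (trc_mem G hL))
  · refine Ideal.mem_sup_right (Ideal.subset_span (Or.inl ⟨l, hl, ?_⟩))
    fin_cases c
    exacts [Or.inl rfl, Or.inr (Or.inl rfl), Or.inr (Or.inr rfl)]

end

variable {O F : Type} [CommRing O] [IsDomain O] [IsDiscreteValuationRing O]
  [IsAdicComplete (maximalIdeal O) O] [Field F] [Finite F] [CharP F 2] {S : Dat O F} {L : Pl O}
  {κ : Type} {gk : κ → GQ} {ι : Type} [Fintype ι] (G : Gs S L gk ι) {ϖ : O} {X : Finset ℕ}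
  {as : ℕ}

omit [IsAdicComplete (maximalIdeal O) O] [Finite F] [CharP F 2] [Fintype ι] in
theorem det_mem (hL : OkG L S) (hϖ : Irreducible ϖ) {q : Ideal (Pres.PP O ι)} (h : C ϖ ∈ q)
    (i : ι) : C (G.rc i).det - 1 ∈ q := by
  have h1 : S.red ((G.rc i).det - 1) = 0 := by
    rw [map_sub, map_one, RingHom.map_det, RingHom.mapMatrix_apply, Gs.rc, hL.lift, hL.det,
      sub_self]
  rw [hL.ker, hϖ.maximalIdeal_eq, Ideal.mem_span_singleton] at h1
  obtain ⟨c, hc⟩ := h1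
  rw [← map_one (C : O →+* Pres.PP O ι), ← map_sub, hc, map_mul]
  exact q.mul_mem_right _ h

open Classical in
/-- the data of the passage to the ring of traces -/
theorem td (hA : AG) (h2 : (2 : O) ≠ 0) (hϖ : Irreducible ϖ) (hC : Cx S L X as)
    {φ : PS O (Sy ι) →+* Pres.PP O ι} (hφ : IsPhi G φ) (J : Finset L.C) {n : ℕ}
    (e : Fin n → Pres.PP O ι) (hn : n + 3 * L.C.card + 6 ≤ 3 * Fintype.card ι)
    (hJ : Jac (dt G) ≤ Ideal.span (Set.range e) ⊔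
      (Ideal.span {C ϖ} ⊔ L0 G ⊔ Lu G J ⊔ Lt G J))
    {ε : Type} [Fintype ε] (ex : ε → Pres.PP O ι) (N : Ideal (Pres.PP O ι)) (k : ℕ)
    (hk : k + Fintype.card ε ≤ 1)
    (hd : Down φ (Ideal.span {C ϖ} ⊔ Ideal.ofList (ls (ef G e J ex))) N k) :
    TD φ (Ideal.span {C ϖ}) N k (ls (ef G e J ex)) (ls (eg G J)) (G.IT ϖ J) 2 := by
  refine ⟨fib_prime S.red S.surj hC.ok.ker hϖ _, le_trans ?_ (fib_dim hϖ _), hd, ?_⟩
  · have h1 : Fintype.card {l // l ∈ J} + Fintype.card {l // l ∉ J} = L.C.card := by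
      rw [Fintype.card_subtype_compl, Fintype.card_coe L.C, ← Fintype.card_coe L.C]
      have := Fintype.card_subtype_le fun l : L.C => l ∈ J
      omega
    rw [ls_len, ls_len]
    simp only [Fintype.card_sum, Fintype.card_prod, Fintype.card_fin, Fintype.card_unit]
    exact_mod_cast (by omega)
  rw [Ideal.radical_eq_sInf]
  refine le_sInf fun q ⟨hle, hq⟩ => ?_
  have c0 : C ϖ ∈ q := hle (Ideal.mem_sup_left (Ideal.mem_sup_left
    (Ideal.mem_span_singleton_self _)))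
  have hE : ∀ s, ef G e J ex s ∈ q := fun s =>
    hle (Ideal.mem_sup_left (Ideal.mem_sup_right (ls_mem _ s)))
  have hG : ∀ s, φ (eg G J s) ∈ q := fun s =>
    hle (Ideal.mem_sup_right (Ideal.mem_map_of_mem φ (ls_mem _ s)))
  have q1 : ∀ i, de G i ∈ q := fun i => hE (Sum.inr (Sum.inl i))
  have q2 : ∀ l, l ∉ J → Z G (G.iτ l) 0 0 - 1 ∈ q ∧ Z G (G.iτ l) 0 1 ∈ q ∧
      Z G (G.iτ l) 1 0 ∈ q := fun l hl =>
    ⟨hE (Sum.inr (Sum.inr (Sum.inr (Sum.inl (⟨l, hl⟩, 0))))),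
      hE (Sum.inr (Sum.inr (Sum.inr (Sum.inl (⟨l, hl⟩, 1))))),
      hE (Sum.inr (Sum.inr (Sum.inr (Sum.inl (⟨l, hl⟩, 2)))))⟩
  have q3 : ∀ l ∈ J, φ (trS G.rc id (G.iτ l)) ∈ q ∧ φ (trS G.rc id (G.iφ l)) ∈ q ∧
      φ (tr2 G.rc id (G.iτ l) (G.iφ l)) ∈ q := fun l hl =>
    ⟨hG (Sum.inr (⟨l, hl⟩, 0)), hG (Sum.inr (⟨l, hl⟩, 1)), hG (Sum.inr (⟨l, hl⟩, 2))⟩
  have l0 : L0 G ≤ q := Ideal.span_le.2 (by
    rintro _ (⟨i, rfl⟩ | rfl | rfl)
    · exact q1 i
    · exact hE (Sum.inr (Sum.inr (Sum.inl 0)))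
    · exact hE (Sum.inr (Sum.inr (Sum.inl 1))))
  have hJq : Jac (dt G) ≤ q := hJ.trans (sup_le
    (Ideal.span_le.2 (by rintro _ ⟨i, rfl⟩; exact hE (Sum.inl i)))
    (sup_le (sup_le (sup_le ((Ideal.span_singleton_le_iff_mem _).2 c0) l0) (Ideal.span_le.2 (by
      rintro _ ⟨l, hl, h⟩
      have k := q2 l hl
      rcases h with rfl | rfl | rfl
      exacts [k.1, k.2.1, k.2.2]))) (Ideal.span_le.2 (by
      rintro _ (rfl | ⟨l, hl, h⟩)
      · exact hφ.tr G.ic ▸ hG (Sum.inl ())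
      · have k := q3 l hl
        rw [hφ.tr, hφ.tr, hφ.tr2] at k
        rcases h with rfl | rfl | rfl
        exacts [k.1, k.2.1, k.2.2]))))
  rw [Gs.IT, Ideal.map_sup, Ideal.map_sup]
  refine sup_le (sup_le (hA O F S L κ gk ι G ϖ X as h2 hϖ hC φ hφ q hq (sup_le hJq l0)
    (Or.inl c0)) ?_) ?_
  · rw [Ideal.map_le_iff_le_comap, Ideal.span_singleton_le_iff_mem, Ideal.mem_comap, hφ.c]
    exact c0
  rw [Ideal.map_le_iff_le_comap]
  refine Ideal.span_le.2 ?_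
  rintro f (⟨l, hl, h⟩ | ⟨l, hl, hf⟩)
  · have k := q3 l hl
    rcases h with rfl | rfl | rfl
    exacts [k.1, k.2.1, k.2.2]
  obtain ⟨k1, k2, k3⟩ := q2 l hl
  show φ f ∈ q
  rcases hf with (rfl | rfl) | ⟨k, rfl⟩ | ⟨k, rfl⟩
  · rw [map_sub, hφ.a, map_one]; exact k1
  · rw [map_sub, hφ.d, map_one]
    have k4 := q1 (G.iτ l)
    rw [de, Matrix.det_fin_two (Z G _)] at k4
    have k5 := q.sub_mem (q.add_mem (q.add_mem k4 (det_mem G hC.ok hϖ c0 (G.iτ l)))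
      (q.mul_mem_right (Z G (G.iτ l) 1 0) k2)) (q.mul_mem_right (Z G (G.iτ l) 1 1) k1)
    have e5 : ∀ a b c d t : Pres.PP O ι,
        a * d - b * c - t + (t - 1) + b * c - (a - 1) * d = d - 1 := fun _ _ _ _ _ => by ring
    rwa [e5] at k5
  · show φ (xS G.rc id (G.iτ l) k) ∈ q
    rw [hφ.xx]; exact q.mul_mem_right _ k2
  · show φ (xS G.rc id k (G.iτ l)) ∈ q
    rw [hφ.xx]; exact q.mul_mem_left _ k3

open Classical in
/-- connectedness from the data -/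
theorem conn (hϖ : Irreducible ϖ) (hL : OkG L S) {φ : PS O (Sy ι) →+* Pres.PP O ι}
    (hφ : IsPhi G φ) (J : Finset L.C) {fs : List (Pres.PP O ι)} {N : Ideal (Pres.PP O ι)} {k : ℕ}
    (H : Ideal.span {C ϖ} ⊔ Ideal.ofList fs ≠ ⊤ →
      TD φ (Ideal.span {C ϖ}) N k fs (ls (eg G J)) (G.IT ϖ J) 2 ∧
      Rey φ (Ideal.span {C ϖ} ⊔ Ideal.ofList fs) ∧
      ¬ ((1 + (1 + J.card * 3) + k : ℕ) : WithBot ℕ∞) ≤
        ringKrullDim (Pres.PP O ι ⧸ (Ideal.span {C ϖ} ⊔ Ideal.ofList fs ⊔ N)))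
    (lift : ∀ p, Cv p → G.IT ϖ J ≤ p → (Ideal.span {C ϖ} ⊔ Ideal.ofList fs).comap φ ≤ p) :
    Cn (G.IT ϖ J) 1 := by
  intro E E' hE hE'
  obtain ⟨p, hp, hle⟩ := Chain.exists_cv (hE.mono le_rfl (Nat.le_succ 1)).2.2
  have h1 := lift p hp (hE.2.1.trans hle)
  have h2 : Ideal.span {C ϖ} ⊔ Ideal.ofList fs ≠ ⊤ := fun h => hp.1.ne_top (by
    rw [h, Ideal.comap_top] at h1
    exact top_le_iff.1 h1)
  obtain ⟨H1, H2, H3⟩ := H h2
  haveI := (P022D.Rl.Ch0.reg (σ := Pres.Ix ι) hϖ.maximalIdeal_eq).1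
  haveI := (P022D.Rl.Ch0.reg (σ := Sy ι) hϖ.maximalIdeal_eq).1
  haveI := Cpl.isAdicCompleteV (σ := Pres.Ix ι) (V := O) inferInstance
  haveI := Cpl.isAdicCompleteV (σ := Sy ι) (V := O) inferInstance
  refine TD.conn (d := 1) H1
    (fib_cf S.red S.surj hL.ker hϖ (Ideal.mem_span_singleton_self _))
    (fib_cf S.red S.surj hL.ker hϖ (by
      rw [Ideal.mem_comap, hφ.c]; exact Ideal.mem_span_singleton_self _))
    (fun f hf => le_maximalIdeal h2 (Ideal.mem_sup_right (Ideal.subset_span hf)))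
    (fun g hg => ?_) (ne_top_of_le_ne_top hE.1.ne_top hE.2.1) H2 ?_ lift E E' hE hE'
  · obtain ⟨s, rfl⟩ := mem_ls.1 hg
    exact eg_mem G hL ϖ J s
  · rw [ls_len]
    simpa only [Fintype.card_sum, Fintype.card_prod, Fintype.card_fin, Fintype.card_unit,
      Fintype.card_coe] using H3

omit [IsAdicComplete (maximalIdeal O) O] [Finite F] [CharP F 2] in
/-- the framed equations vanish at a framed point -/
theorem ef_le {V : Type} [CommRing V] [IsDomain V] {j : O →+* V} {ρ : GQ → M2 V}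
    {th : Pres.PP O ι →+* V} (hP : Pt G j ρ th) {φ : PS O (Sy ι) →+* Pres.PP O ι}
    (hφ : IsPhi G φ) (J : Finset L.C) {n : ℕ} {e : Fin n → Pres.PP O ι} {ε : Type} [Fintype ε]
    {ex : ε → Pres.PP O ι} (he : ∀ i, th (e i) = 0) (hx : ∀ i, th (ex i) = 0)
    (h0 : L0 G ≤ RingHom.ker th) (hI : G.IT ϖ J ≤ RingHom.ker (th.comp φ))
    (hN : ∃ i k, th (Z G i 0 1 * Z G k 1 0) ≠ 0) (s) : th (ef G e J ex s) = 0 := by
  obtain ⟨i, k, h⟩ := hN
  rw [map_mul] at h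
  have hm : ∀ l, l ∉ J → ∀ u ∈ tauP G.rc id (G.iτ l), th (φ u) = 0 := fun l hl u hu =>
    hI (Ideal.mem_sup_right (Ideal.subset_span (Or.inr ⟨l, hl, hu⟩)))
  rcases s with i | i | c | ⟨⟨l, hl⟩, c⟩ | i
  · exact he i
  · exact h0 (Ideal.subset_span (Or.inl ⟨i, rfl⟩))
  · fin_cases c
    · exact h0 (Ideal.subset_span (Or.inr (Or.inl rfl)))
    · exact h0 (Ideal.subset_span (Or.inr (Or.inr rfl)))
  · fin_cases c
    · have := hm l hl _ (Or.inl (Or.inl rfl))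
      rwa [map_sub, hφ.a, map_one] at this
    · have := hm l hl _ (Or.inr (Or.inl ⟨k, rfl⟩))
      rw [hφ.xx, map_mul] at this
      exact (mul_eq_zero.1 this).resolve_right (right_ne_zero_of_mul h)
    · have := hm l hl _ (Or.inr (Or.inr ⟨i, rfl⟩))
      rw [hφ.xx, map_mul] at this
      exact (mul_eq_zero.1 this).resolve_left (left_ne_zero_of_mul h)
  · exact hx i

/-- in the dihedral case the traces give all functions on the normalised locus -/
theorem dsurj (hL : OkG L S) (hD : (dt G).Ok) {φ : PS O (Sy ι) →+* Pres.PP O ι} (hφ : IsPhi G φ)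
    {i1 : ι} (hi : G.γ i1 ∉ L.H) {I : Ideal (Pres.PP O ι)} (hI : I ≠ ⊤)
    (h : Z G i1 0 1 - C (G.rc i1 0 1) ∈ I) (x : Pres.PP O ι) : ∃ u, x - φ u ∈ I := by
  haveI := Cpl.isAdicCompleteV (σ := Sy ι) (V := O) inferInstance
  obtain ⟨h1, h2⟩ := H87.off_unit hL hi
  obtain ⟨w, hw⟩ := h1.exists_left_inv
  have hc : ∀ k, Z G k 1 0 - φ (C w * xS G.rc id i1 k) ∈ I := fun k => by
    rw [map_mul, hφ.c, hφ.xx]
    have e : Z G k 1 0 - C w * (Z G i1 0 1 * Z G k 1 0) =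
        -(C w * Z G k 1 0) * (Z G i1 0 1 - C (G.rc i1 0 1)) +
          Z G k 1 0 * (1 - C (w * L.r (G.γ i1) 0 1)) := by
      rw [map_mul, Gs.rc]; ring
    rw [e, hw, map_one, sub_self, mul_zero, add_zero]
    exact I.mul_mem_left _ h
  have hu : IsUnit (xS G.rc id i1 i1) := by
    rw [isUnit_iff_constantCoeff, xS, map_add, constantCoeff_C, constantCoeff_X, add_zero]
    exact h1.mul h2
  obtain ⟨y, hy⟩ := hu.exists_left_inv
  have hb : ∀ k, Z G k 0 1 - φ (C (G.rc i1 0 1) * y * xS G.rc id k i1) ∈ I := fun k => by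
    have e0 := congrArg φ hy
    rw [map_mul, map_one, hφ.xx] at e0
    rw [map_mul, map_mul, hφ.c, hφ.xx]
    have e : Z G k 0 1 - C (G.rc i1 0 1) * φ y * (Z G k 0 1 * Z G i1 1 0) =
        φ y * Z G k 0 1 * Z G i1 1 0 * (Z G i1 0 1 - C (G.rc i1 0 1)) +
          Z G k 0 1 * (1 - φ y * (Z G i1 0 1 * Z G i1 1 0)) := by ring
    rw [e, e0, sub_self, mul_zero, add_zero]
    exact I.mul_mem_left _ h
  refine surj hI (hφ.loc hL hD) (fun o => ⟨C o, hφ.c o⟩) (fun s => ?_) x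
  obtain ⟨u, h | ⟨i, h | h⟩⟩ := hφ.gen s
  · exact ⟨u, by rw [h, sub_self]; exact I.zero_mem⟩
  · exact ⟨u + _, by rw [h, map_add, add_sub_add_left_eq_sub]; exact hb i⟩
  · exact ⟨u + _, by rw [h, map_add, add_sub_add_left_eq_sub]; exact hc i⟩

end Vale.Agent.P022G.Tr.D19

namespace Vale.Agent.P022G.Tr

open IsLocalRing MvPowerSeries
open Vale.Agent.P022 Vale.Agent.P022G.R Vale.Agent.P022G.Loc
open Vale.Agent.P022D.Sel (M2)
open Vale.Agent.P022D.Core (PS Coef)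
open Vale.Agent.P022G.Pres (Jac)
open Vale.Agent.P022G.Trc
open Vale.Agent.P022G.Chain (Cn)

/-- the statement in the dihedral case -/
def CJD : Prop := P022G.All fun O F _ _ _ _ _ _ _ ϖ S L X as β τ ι' _ _ _ K ι _ G =>
  Cz S X → L.H ≠ ⊤ → ∀ J : Finset L.C, Cn (G.IT ϖ J) 1

theorem cjdC (hD : DOK) (hF : FRP) (hA : AG) (hP : PR2) (hV : CRV) (hK : KDA) : CJD := by
  intro O F _ _ _ _ _ _ _ ϖ S L X as β τ ι' _ _ _ K ι _ G hϖ hC hKo hZ hH J
  classical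
  haveI : IsAdicComplete (maximalIdeal O) O := Coef.cpl
  have hL := hC.cx.ok
  have hd := hD O F S L _ K.g ι G ϖ X as Coef.ne hϖ hC.cx
  obtain ⟨φ, hφ⟩ := exists_phi hL hd
  obtain ⟨i1, hi⟩ := H87.ex_i1 G hC.cx hH
  obtain ⟨n, e, hn, he, hJ⟩ := hP O F S L _ K.g ι G ϖ X as Coef.ne hϖ hC.cx hZ J
    (Jac (dt G)) (Ideal.span_eq _)
  refine D19.conn G hϖ hL hφ J
    (fs := D19.ls (D19.ef G e J fun _ : Unit => Z G i1 0 1 - C (G.rc i1 0 1))) (N := ⊤) (k := 0)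
    (fun hI => ?_) fun p hp hle => ?_
  · have hs := D19.dsurj G hL hd hφ hi hI (Ideal.mem_sup_right
      (D19.ls_mem _ (Sum.inr (Sum.inr (Sum.inr (Sum.inr ()))))))
    refine ⟨D19.td G hA Coef.ne hϖ hC.cx hφ J e hn hJ _ ⊤ 0 (by simp) (down_of_surj hs _),
      rey_of_surj hs, fun h => ?_⟩
    rw [sup_top_eq] at h
    haveI : Subsingleton (Pres.PP O ι ⧸ (⊤ : Ideal (Pres.PP O ι))) :=
      Ideal.Quotient.subsingleton_iff.2 rfl
    rw [ringKrullDim_eq_bot_of_subsingleton] at h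
    exact absurd (le_bot_iff.1 h) (WithBot.natCast_ne_bot _)
  · obtain ⟨V, _, _, _, _, _, _, t, j, ρ0, θ, ht, hc0, rfl⟩ :=
      hV O F ϖ S L X as β τ ι' K ι G hϖ hC hKo p hp
        ((hK O F ϖ S L X as β τ ι' K ι G hϖ hC hKo).1.trans
          ((le_sup_left.trans le_sup_left).trans hle))
        (hle (Ideal.mem_sup_left (Ideal.mem_sup_right (Ideal.mem_span_singleton_self _))))
    obtain ⟨ρ, hc, h1⟩ := H87.crv_norm hL ht.not_isUnit hc0 hi
    obtain ⟨th, hP, hj, hm, h0, hl, hcomp⟩ := H87.crvpt hF Coef.ne hϖ hC.cx ht hc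
    rw [← hcomp φ hφ] at hle ⊢
    rw [← RingHom.comap_ker]
    refine Ideal.comap_mono (sup_le ((Ideal.span_singleton_le_iff_mem _).2 h0) (D19.ls_le
      (D19.ef_le G hP hφ J (fun i => hj (he i)) (fun _ => ?_) hl hle ⟨i1, i1, fun h => ?_⟩)))
    · rw [map_sub, hP.z, hP.c]
      exact sub_eq_zero.2 h1
    · obtain ⟨u1, u2⟩ := H87.off_unit hL hi
      have h3 := hm _ (sv_mem hL hd (Sum.inr (Sum.inr (i1, i1))))
      have e3 : sv G.rc C (Z G) (Sum.inr (Sum.inr (i1, i1))) =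
          Z G i1 0 1 * Z G i1 1 0 - C (G.rc i1 0 1 * G.rc i1 1 0) := rfl
      rw [e3, map_sub, h, zero_sub, neg_mem_iff, hP.c] at h3
      exact notMem_maximalIdeal.2 ((u1.mul u2).map j) h3

end Vale.Agent.P022G.Tr
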