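import Vale.Agent.P022G.Rows2
import Vale.Agent.P022G.Tr.Td
import Vale.Agent.P022G.Tr.CjH87
import Vale.Agent.P022G.Tr.Red
import Vale.Agent.P022G.Tr.Wt
import Vale.Agent.P022G.Tr.Frp
import Vale.Agent.P022G.Tr.Pr2

/-!
# P022G, row CONNJ2
-/

set_option linter.all false

noncomputable section

namespace Vale.Agent.P022G.H11

open IsLocalRing MvPowerSeries
open Vale.Agent.P022 Vale.Agent.P022G.R Vale.Agent.P022G.Loc Vale.Agent.P022G.Tr
open Vale.Agent.P027M.S (mx)
open Vale.Agent.P022D.Sel (M2)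
open Vale.Agent.P022D.Core (PS Coef)
open Vale.Agent.P022E.Loc (Pl)
open Vale.Agent.P022G.Pres (Dt Jac Un)
open Vale.Agent.P022D.CA Vale.Agent.P022G.Trc

/-- a local map which hits the constants and the variables modulo `I` is onto modulo `I` -/
theorem surj_mod {O σ σ' : Type} [CommRing O] [IsLocalRing O] [IsNoetherianRing O]
    [IsAdicComplete (maximalIdeal O) O] [Fintype σ] [Fintype σ'] {φ : PS O σ →+* PS O σ'}
    (hc : ∀ o, φ (C o) = C o) (hl : ∀ u ∈ maximalIdeal (PS O σ), φ u ∈ maximalIdeal (PS O σ'))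
    {I : Ideal (PS O σ')} (hI : I ≤ maximalIdeal _) (hX : ∀ s, ∃ u, X s - φ u ∈ I) (x : PS O σ') :
    ∃ u, x - φ u ∈ I := by
  choose u hu using hX
  have hm : ∀ s, u s ∈ maximalIdeal (PS O σ) := fun s => by
    by_contra hn
    have h1 : IsUnit (φ (u s)) := (notMem_maximalIdeal.1 hn).map φ
    have h2 : (X s : PS O σ') ∈ maximalIdeal (PS O σ') := (Cpl.mem_max_iff _).2 (by simp)
    exact notMem_maximalIdeal.2 h1 (by simpa using Ideal.sub_mem _ h2 (hI (hu s)))
  haveI := Cpl.isAdicCompleteV (σ := σ) (V := O) inferInstance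
  obtain ⟨χ, c1, c2⟩ := Conn.exists_ev (maximalIdeal (PS O σ)) C u hm
  have hne : I ≠ ⊤ := ne_top_of_le_ne_top (maximalIdeal.isMaximal _).ne_top hI
  haveI : Nontrivial (PS O σ' ⧸ I) := Ideal.Quotient.nontrivial_iff.2 hne
  haveI : IsLocalRing (PS O σ' ⧸ I) := .of_surjective' _ Ideal.Quotient.mk_surjective
  haveI : IsLocalHom (Ideal.Quotient.mk I) := .of_surjective _ Ideal.Quotient.mk_surjective
  have k : ∀ f ∈ maximalIdeal (PS O σ'), Ideal.Quotient.mk I f ∈ maximalIdeal (PS O σ' ⧸ I) :=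
    fun f hf => map_nonunit _ f hf
  have cl : ∀ f ∈ maximalIdeal (PS O σ'), χ f ∈ maximalIdeal (PS O σ) :=
    Tor.loc_of (fun c hc' => by rw [c1, Cpl.mem_max_iff, constantCoeff_C]; exact hc')
      fun s => by rw [c2]; exact hm s
  have e := Tor.hom_ext (θ := Ideal.Quotient.mk I)
    (θ' := (Ideal.Quotient.mk I).comp (φ.comp χ)) k (fun f hf => k _ (hl _ (cl f hf)))
    (fun c => by rw [RingHom.comp_apply, RingHom.comp_apply, c1, hc])
    fun s => by rw [RingHom.comp_apply, RingHom.comp_apply, c2]; exact Ideal.Quotient.eq.2 (hu s)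
  exact ⟨χ x, Ideal.Quotient.eq.1 (RingHom.congr_fun e x)⟩

variable {O F : Type} [CommRing O] [Field F] {S : Dat O F} {L : Pl O} {κ : Type} {gk : κ → GQ}
  {ι : Type} {G : Gs S L gk ι}

/-- at an irreducible point the equations of the traces force `τ_l = 1` -/
theorem lu_ker {V : Type} [CommRing V] [IsDomain V] {φ : PS O (Sy ι) →+* Pres.PP O ι}
    (h : IsPhi G φ) (th : Pres.PP O ι →+* V) {ϖ : O} {J : Finset L.C}
    (hJ : G.IT ϖ J ≤ RingHom.ker (th.comp φ)) (hi : G.Irr (RingHom.ker (th.comp φ))) :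
    Lu G J ≤ RingHom.ker th := by
  obtain ⟨i, k, hik⟩ := hi
  rw [RingHom.mem_ker, RingHom.comp_apply, h.xx, map_mul] at hik
  have key : ∀ l, l ∉ J → ∀ u ∈ tauP G.rc id (G.iτ l), th (φ u) = 0 := fun l hl u hu =>
    hJ (Ideal.mem_sup_right (Ideal.subset_span (Or.inr ⟨l, hl, hu⟩)))
  refine Ideal.span_le.2 ?_
  rintro f ⟨l, hl, rfl | rfl | rfl⟩
  · have := key l hl _ (Or.inl (Or.inl rfl))
    rwa [map_sub, h.a, map_one] at this
  · have := key l hl _ (Or.inr (Or.inl ⟨k, rfl⟩))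
    rw [h.xx, map_mul] at this
    exact (mul_eq_zero.1 this).resolve_right fun e => hik (by rw [e, mul_zero])
  · have := key l hl _ (Or.inr (Or.inr ⟨i, rfl⟩))
    rw [h.xx, map_mul] at this
    exact (mul_eq_zero.1 this).resolve_left fun e => hik (by rw [e, zero_mul])

theorem lt_mono (J : Finset L.C) : Lt G J ≤ Lt G Finset.univ := Ideal.span_mono (by
  rintro f (h | ⟨l, -, h⟩)
  exacts [Or.inl h, Or.inr ⟨l, Finset.mem_univ l, h⟩])

theorem connj2C (hP : PR2) (hA : AG) (hV : CRV) (hN : NICE) (hK : KDA) : CONNJ2 := by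
  intro O F _ _ _ _ _ _ _ ϖ S L X as β τ ι' _ _ _ K ι _ G hϖ hC hK' hE J hJ
  by_cases htop : G.IT ϖ J = ⊤
  · intro E E' h _
    exact absurd (top_le_iff.1 (htop ▸ h.2.1)) h.1.ne_top
  haveI : IsAdicComplete (maximalIdeal O) O := Coef.cpl
  have h2 : (2 : O) ≠ 0 := Coef.ne
  have hx := hC.cx
  have hL := hx.ok
  have hD : (dt G).Ok := dokC O F S L _ _ ι G ϖ X as h2 hϖ hx
  obtain ⟨φ, h⟩ := exists_phi hL hD
  haveI : IsRegularLocalRing (PS O (Sy ι)) := (P022D.Rl.Ch0.reg hϖ.maximalIdeal_eq).1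
  haveI : IsRegularLocalRing (Pres.PP O ι) := (P022D.Rl.Ch0.reg hϖ.maximalIdeal_eq).1
  haveI := Cpl.isAdicCompleteV (σ := Sy ι) (V := O) inferInstance
  haveI := Cpl.isAdicCompleteV (σ := Pres.Ix ι) (V := O) inferInstance
  have hAG : ∀ q : Ideal (Pres.PP O ι), q.IsPrime → Jac (dt G) ⊔ L0 G ≤ q → C ϖ ∈ q →
      G.aG.map φ ≤ q := fun q hq h1 h3 =>
    hA O F S L _ _ ι G ϖ X as h2 hϖ hx φ h q hq h1 (Or.inl h3)
  have hπ : Ideal.span {(C ϖ : Pres.PP O ι)} ≤ maximalIdeal _ :=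
    le_maximalIdeal (fib_prime S.red S.surj hL.ker hϖ _).ne_top
  have hjm := Pres.jac_le hD
  have cf : Trc.Cf (Ideal.span {(C ϖ : Pres.PP O ι)}) :=
    fib_cf S.red S.surj hL.ker hϖ (Ideal.mem_span_singleton_self _)
  have cf0 : Trc.Cf ((Ideal.span {(C ϖ : Pres.PP O ι)}).comap φ) :=
    fib_cf S.red S.surj hL.ker hϖ (by
      rw [Ideal.mem_comap, h.c]; exact Ideal.mem_span_singleton_self _)
  have crv : ∀ p : Ideal (PS O (Sy ι)), Chain.Cv p → G.IT ϖ J ≤ p →
      ∃ (V : Type) (_ : CommRing V) (_ : IsDomain V) (_ : IsDiscreteValuationRing V)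
        (_ : CharP V 2) (_ : IsAdicComplete (maximalIdeal V) V) (_ : Finite (ResidueField V))
        (t : V) (j : O →+* V) (ρ : GQ →* GL (Fin 2) V) (θ : PS O (Sy ι) →+* V),
        Irreducible t ∧ G.Crv t j ρ θ ∧ RingHom.ker θ = p ∧ ∀ ρ', G.Crv t j ρ' θ →
          ∃ th : Pres.PP O ι →+* V, Tr.Pt G j (fun g => (ρ' g : M2 V)) th ∧ th.comp φ = θ ∧
            Ideal.span {C ϖ} ⊔ (Jac (dt G) ⊔ L0 G ⊔ Lu G J) ≤ RingHom.ker th := by
    intro p hp hle
    have a1 : G.aP ≤ p := (hK O F ϖ S L X as β τ ι' K ι G hϖ hC hK').1.trans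
      ((le_sup_left.trans le_sup_left).trans hle)
    have a2 : C ϖ ∈ p :=
      hle (Ideal.mem_sup_left (Ideal.mem_sup_right (Ideal.mem_span_singleton_self _)))
    obtain ⟨V, i1, i2, i3, i4, i5, i6, t, j, ρ, θ, ht, hc, rfl⟩ :=
      hV O F ϖ S L X as β τ ι' K ι G hϖ hC hK' p hp a1 a2
    have hi := (hN O F ϖ S L X as β τ ι' K ι G hϖ hC hK' V t j ρ θ ht hc hp fun ha =>
      hle (Ideal.mem_sup_right (Ideal.subset_span
        (Or.inl ⟨⟨as, ha⟩, hJ _ hx.mem, Or.inr (Or.inl rfl)⟩)))).2.2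
    refine ⟨V, i1, i2, i3, i4, i5, i6, t, j, ρ, θ, ht, hc, rfl, fun ρ' hc' => ?_⟩
    obtain ⟨th, b1, b2, -, b3, b4, b5⟩ := H87.crvpt (frpC dokC) h2 hϖ hx ht hc'
    have b6 := b5 φ h
    exact ⟨th, b1, b6, sup_le ((Ideal.span_singleton_le_iff_mem _).2 b3)
      (sup_le (sup_le b2 b4) (lu_ker h th (b6.symm ▸ hle) (b6.symm ▸ hi)))⟩
  by_cases hH : L.H = ⊤
  · obtain ⟨n, e, hn, he, hJ'⟩ := hP O F S L _ _ ι G ϖ X as h2 hϖ hx hE.cz J _
      (wtC dokC O F S L _ _ ι G ϖ X as h2 hϖ hx hH)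
    have eJ : Ideal.span (Set.range e) ≤ Jac (dt G) :=
      Ideal.span_le.2 (by rintro _ ⟨i, rfl⟩; exact (he i).1)
    obtain ⟨fs, gs, f1, g1, g2, H⟩ := td hL hϖ h hAG J (N := NZ G) (e := 1) (ln_range e)
      (by rw [Fintype.card_fin]; omega) hJ' (h.down _)
    have fm : Ideal.ofList fs ≤ maximalIdeal _ := by
      rw [f1]
      exact sup_le (sup_le (eJ.trans hjm) (Pr.l0_le G hD)) (Pr.lu_le G hL hD J)
    refine TD.conn (d := 1) H cf cf0 (fun f hf => fm (mem_ofList hf))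
      (fun g hg => LA_le G hL ϖ J (g1 ▸ mem_ofList hg)) htop ?_ ?_ ?_
    · refine (h.tor hH hL hD).rey ?_
      rw [f1]
      refine (Tor.st_span ?_).sup (((Tor.st_span ?_).sup (Tor.st_span ?_)).sup (Tor.st_span ?_))
      · rintro _ rfl
        exact ⟨0, Tor.hom_C _⟩
      · rintro _ ⟨i, rfl⟩
        exact (he i).2
      · rintro _ (⟨i, rfl⟩ | rfl | rfl)
        exacts [⟨0, hom_de hH i⟩, ⟨1, hom01 hH _⟩, ⟨-1, hom10 hH _⟩]
      · rintro _ ⟨l, -, rfl | rfl | rfl⟩
        exacts [⟨0, (hom00 _).sub (Tor.R0 wt).one_mem⟩, ⟨1, hom01 hH _⟩, ⟨-1, hom10 hH _⟩]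
    · intro hd
      refine redC O F S L _ _ ι G ϖ X as h2 hϖ hx hE.cz hH (Ideal.span {C ϖ} ⊔ Ideal.ofList fs)
        (ne_top_of_le_ne_top (maximalIdeal.isMaximal _).ne_top (sup_le hπ fm))
        (Ideal.mem_sup_left (Ideal.mem_span_singleton_self _)) ?_ ?_ (le_trans ?_ hd)
      · rw [f1]
        exact (le_sup_right.trans le_sup_left).trans le_sup_right
      · rw [f1]
        refine hJ'.trans (sup_le ?_ (sup_le (sup_le (sup_le ?_ ?_) ?_) ?_))
        · exact ((le_sup_left.trans le_sup_left).trans le_sup_right).trans le_sup_left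
        · exact le_sup_left.trans le_sup_left
        · exact ((le_sup_right.trans le_sup_left).trans le_sup_right).trans le_sup_left
        · exact (le_sup_right.trans le_sup_right).trans le_sup_left
        · exact (lt_mono J).trans le_sup_right
      · have : X.card ≤ J.card := by
          rw [← Finset.card_map (Function.Embedding.subtype _)]
          exact Finset.card_le_card fun a ha =>
            Finset.mem_map.2 ⟨⟨a, hx.sub ha⟩, hJ _ ha, rfl⟩
        rw [g2]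
        exact_mod_cast (by omega)
    · intro p hp hle
      obtain ⟨V, _, _, _, _, _, _, t, j, ρ, θ, ht, hc, rfl, k⟩ := crv p hp hle
      obtain ⟨th, -, rfl, b⟩ := k ρ hc
      rw [f1, ← RingHom.comap_ker]
      exact Ideal.comap_mono ((sup_le_sup_left (sup_le_sup_right (sup_le_sup_right eJ _) _) _).trans b)
  · obtain ⟨i1, hi1⟩ := H87.ex_i1 G hx hH
    obtain ⟨n, e, hn, he, hJ'⟩ := hP O F S L _ _ ι G ϖ X as h2 hϖ hx hE.cz J _ (Ideal.span_eq _)
    have eJ : Ideal.span (Set.range e) ≤ Jac (dt G) :=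
      Ideal.span_le.2 (by rintro _ ⟨i, rfl⟩; exact he i)
    set f0 : Pres.PP O ι := Z G i1 0 1 - C (G.rc i1 0 1) with hf0
    have fm : Ideal.span (Set.range e) ⊔ Ideal.span {f0} ⊔ L0 G ⊔ Lu G J ≤ maximalIdeal _ :=
      sup_le (sup_le (sup_le (eJ.trans hjm) ((Ideal.span_singleton_le_iff_mem _).2
        (Z_sub hL hD i1 0 1))) (Pr.l0_le G hD)) (Pr.lu_le G hL hD J)
    set I := Ideal.span {C ϖ} ⊔ (Ideal.span (Set.range e) ⊔ Ideal.span {f0} ⊔ L0 G ⊔ Lu G J)
      with hI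
    have m0 : f0 ∈ I := Ideal.mem_sup_right (Ideal.mem_sup_left (Ideal.mem_sup_left
      (Ideal.mem_sup_right (Ideal.mem_span_singleton_self _))))
    obtain ⟨⟨b0, hb0⟩, hc0⟩ := (H87.off_unit hL hi1).imp_left IsUnit.exists_right_inv
    have sj : ∀ x, ∃ u, x - φ u ∈ I := by
      have zc : ∀ k, Z G k 1 0 - φ (C b0 * xS G.rc id i1 k) ∈ I := fun k => by
        have e1 : (C (G.rc i1 0 1) : Pres.PP O ι) * C b0 = 1 := by
          rw [← map_mul]; exact (congrArg C hb0).trans (map_one _)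
        have : Z G k 1 0 - φ (C b0 * xS G.rc id i1 k) = -(C b0 * Z G k 1 0) * f0 := by
          rw [map_mul, h.c, h.xx, hf0]
          linear_combination (-Z G k 1 0) * e1
        rw [this]
        exact I.mul_mem_left _ m0
      have ux : IsUnit (C b0 * xS G.rc id i1 i1 : PS O (Sy ι)) := by
        rw [isUnit_iff_constantCoeff, xS, map_mul, map_add, constantCoeff_C, constantCoeff_C,
          constantCoeff_X, add_zero, ← mul_assoc, mul_comm b0]
        change IsUnit (L.r (G.γ i1) 0 1 * b0 * _)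
        rw [hb0, one_mul]
        exact hc0
      obtain ⟨w, hw⟩ := ux.exists_right_inv
      have zb : ∀ k, Z G k 0 1 - φ (xS G.rc id k i1 * w) ∈ I := fun k => by
        have e1 := congrArg φ hw
        rw [map_mul, map_one] at e1
        have : Z G k 0 1 - φ (xS G.rc id k i1 * w) =
            -(Z G k 0 1 * φ w) * (Z G i1 1 0 - φ (C b0 * xS G.rc id i1 i1)) := by
          rw [map_mul, h.xx]
          linear_combination (-Z G k 0 1) * e1
        rw [this]
        exact I.mul_mem_left _ (zc i1)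
      refine surj_mod h.c (h.loc hL hD) (sup_le hπ fm) fun s => ?_
      obtain ⟨u, e1 | ⟨i, e1 | e1⟩⟩ := h.gen s
      · exact ⟨u, by rw [e1, sub_self]; exact I.zero_mem⟩
      · exact ⟨u + _, by rw [e1, map_add, add_sub_add_left_eq_sub]; exact zb i⟩
      · exact ⟨u + _, by rw [e1, map_add, add_sub_add_left_eq_sub]; exact zc i⟩
    obtain ⟨fs, gs, f1, g1, g2, H⟩ := td hL hϖ h hAG J (N := ⊤) (e := 0)
      ((ln_range e).sup (ln_one f0)) (by rw [Fintype.card_fin]; omega)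
      (hJ'.trans (sup_le_sup_right le_sup_left _)) (down_of_surj sj ⊤)
    refine TD.conn (d := 1) H cf cf0 (fun f hf => fm (f1 ▸ mem_ofList hf))
      (fun g hg => LA_le G hL ϖ J (g1 ▸ mem_ofList hg)) htop ?_ ?_ ?_
    · rw [f1]
      exact rey_of_surj sj
    · rw [sup_top_eq]
      haveI : Subsingleton (Pres.PP O ι ⧸ (⊤ : Ideal (Pres.PP O ι))) :=
        Ideal.Quotient.subsingleton_iff.2 rfl
      rw [ringKrullDim_eq_bot_of_subsingleton]
      exact fun hd => absurd (le_bot_iff.1 hd) (WithBot.natCast_ne_bot _)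
    · intro p hp hle
      obtain ⟨V, _, _, _, _, _, _, t, j, ρ, θ, ht, hc, rfl, k⟩ := crv p hp hle
      obtain ⟨ρ', hc', hb'⟩ := H87.crv_norm hL ht.not_isUnit hc hi1
      obtain ⟨th, a, rfl, b⟩ := k ρ' hc'
      rw [f1, ← RingHom.comap_ker]
      refine Ideal.comap_mono (sup_le (le_sup_left.trans b) (sup_le (sup_le (sup_le ?_ ?_) ?_) ?_))
      · exact eJ.trans (((le_sup_left.trans le_sup_left).trans le_sup_right).trans b)
      · rw [Ideal.span_singleton_le_iff_mem, RingHom.mem_ker, hf0, map_sub, a.z, a.c, hb', sub_self]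
      · exact ((le_sup_right.trans le_sup_left).trans le_sup_right).trans b
      · exact (le_sup_right.trans le_sup_right).trans b

end Vale.Agent.P022G.H11
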