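import Vale.Agent.P022G.Tr.Defs

/-!
# P022G: a framed curve is a point of the universal ring
-/

set_option linter.all false

noncomputable section

namespace Vale.Agent.P022G.Tr

open NumberField IsLocalRing MvPowerSeries
open Vale.Agent.P022 Vale.Agent.P022G.R Vale.Agent.P022G.Loc
open Vale.Agent.P027M.S (Inert mx)
open Vale.Agent.P022D.Sel (M2)
open Vale.Agent.P022D.Core (PS)
open Vale.Agent.P022E.Loc (Pl)
open Vale.Agent.P022G.Pres (PP Dt Jac Un)

/-- the matrices of a representation -/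
def mρ {V : Type} [CommRing V] (ρ : GQ →* GL (Fin 2) V) : GQ →* M2 V :=
  (Units.coeHom (M2 V)).comp ρ

@[simp] theorem mρ_apply {V : Type} [CommRing V] (ρ : GQ →* GL (Fin 2) V) (g : GQ) :
    mρ ρ g = (ρ g : M2 V) := rfl

/-- the uniformiser dies in characteristic two -/
theorem jpi {O V : Type} [CommRing O] [IsDomain O] [IsDiscreteValuationRing O] [CommRing V]
    [IsDomain V] [CharP V 2] {ϖ : O} (hϖ : Irreducible ϖ) (h2 : (2 : O) ≠ 0) (j : O →+* V) :
    j ϖ = 0 := by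
  obtain ⟨n, u, hu⟩ := IsDiscreteValuationRing.eq_unit_mul_pow_irreducible h2 hϖ
  have h0 : j 2 = 0 := by
    have : (2 : V) = 0 := CharP.cast_eq_zero V 2
    rw [map_ofNat, this]
  rw [hu, map_mul, map_pow] at h0
  rcases mul_eq_zero.1 h0 with h | h
  · exact absurd h ((Units.isUnit u).map j).ne_zero
  · exact eq_zero_of_pow_eq_zero h

theorem rd_one {V : Type} [CommRing V] (J : Ideal V) (ρ : GQ →* GL (Fin 2) V) (g : GQ) :
    _root_.P022G.Sel.rd J ρ g = 1 ↔ (ρ g : M2 V).map (Ideal.Quotient.mk J) = 1 := by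
  constructor
  · intro h
    have := congrArg (fun u : GL (Fin 2) (V ⧸ J) => (u : M2 (V ⧸ J))) h
    exact this
  · intro h
    exact Units.ext h

variable {O F : Type} [CommRing O] [IsDomain O] [IsDiscreteValuationRing O] [Field F]
  {S : Dat O F} {L : Pl O} {κ : Type} {gk : κ → GQ} {ι : Type} {G : Gs S L gk ι}
  {V : Type} [CommRing V] [IsDomain V] [IsDiscreteValuationRing V]
  {t : V} {j : O →+* V} {ρ : GQ →* GL (Fin 2) V} {θ : PS O (Sy ι) →+* V} {ϖ : O}

theorem det_j (ok : OkG L S) (hϖ : Irreducible ϖ) (hj : j ϖ = 0) (g : GQ) :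
    j (L.r g).det = 1 := by
  have h1 : S.red ((L.r g).det - 1) = 0 := by
    rw [map_sub, map_one, RingHom.map_det, RingHom.mapMatrix_apply, ok.lift, ok.det, sub_self]
  rw [ok.ker, hϖ.maximalIdeal_eq, Ideal.mem_span_singleton] at h1
  obtain ⟨c, hc⟩ := h1
  have := congrArg j hc
  rw [map_sub, map_one, map_mul, hj, zero_mul, sub_eq_zero] at this
  exact this

theorem crv_res (ht : Irreducible t) (h : G.Crv t j ρ θ) (g : GQ) (a b : Fin 2) :
    mρ ρ g a b - j (L.r g a b) ∈ maximalIdeal V := by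
  rw [ht.maximalIdeal_eq, Ideal.mem_span_singleton]
  exact h.res g a b

theorem crv_det (ok : OkG L S) (hϖ : Irreducible ϖ) (hj : j ϖ = 0) (h : G.Crv t j ρ θ) (g : GQ) :
    (mρ ρ g).det = j (L.r g).det := by
  rw [det_j ok hϖ hj, mρ_apply, h.det]

theorem crv_opn (ht : Irreducible t) (h : G.Crv t j ρ θ) (N : ℕ) :
    IsOpen {g | (mρ ρ g).map (Ideal.Quotient.mk (maximalIdeal V ^ N)) = 1} := by
  rw [ht.maximalIdeal_eq, Ideal.span_singleton_pow]
  have := (h.lv N).opn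
  simp only [rd_one] at this
  exact this

theorem crv_un (ht : Irreducible t) (h : G.Crv t j ρ θ) : Un S.T (mρ ρ) := by
  intro l hl P hP g hg
  have k : ∀ N a b, (mρ ρ g - 1) a b ∈ maximalIdeal V ^ N := by
    intro N a b
    rw [ht.maximalIdeal_eq, Ideal.span_singleton_pow]
    have := (rd_one _ ρ g).1 ((h.lv N).unr l hl P hP g hg)
    rw [← Ideal.Quotient.eq_zero_iff_mem, Matrix.sub_apply, map_sub]
    have e := congrFun (congrFun this a) b
    rw [Matrix.map_apply] at e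
    rw [mρ_apply, e]
    by_cases hab : a = b
    · subst hab; simp
    · simp [Matrix.one_apply_ne hab]
  rw [← sub_eq_zero]
  ext a b
  have hb := Ideal.iInf_pow_eq_bot_of_isLocalRing (maximalIdeal V)
    (maximalIdeal.isMaximal V).ne_top
  have : (mρ ρ g - 1) a b ∈ (⨅ N : ℕ, maximalIdeal V ^ N) := Ideal.mem_iInf.2 fun N => k N a b
  rw [hb] at this
  exact this

/-- the five hypotheses of `FRP` -/
theorem crvPt (ok : OkG L S) (hϖ : Irreducible ϖ) (hj : j ϖ = 0) (ht : Irreducible t)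
    (h : G.Crv t j ρ θ) :
    j ϖ ∈ maximalIdeal V ∧ (∀ g a b, mρ ρ g a b - j (L.r g a b) ∈ maximalIdeal V) ∧
      (∀ g, (mρ ρ g).det = j (L.r g).det) ∧
      (∀ N : ℕ, IsOpen {g | (mρ ρ g).map (Ideal.Quotient.mk (maximalIdeal V ^ N)) = 1}) ∧
      Un S.T (mρ ρ) :=
  ⟨by rw [hj]; exact zero_mem _, crv_res ht h, crv_det ok hϖ hj h, crv_opn ht h, crv_un ht h⟩

/-- the point of the universal ring given by a framed curve -/
theorem crv_frp (hF : FRP) [IsAdicComplete (maximalIdeal O) O] [Finite F] [CharP F 2] [Fintype ι]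
    [IsAdicComplete (maximalIdeal V) V] [Finite (ResidueField V)] [CharP V 2] {X : Finset ℕ}
    {as : ℕ} (h2 : (2 : O) ≠ 0) (hϖ : Irreducible ϖ) (hC : Cx S L X as) (ht : Irreducible t)
    (h : G.Crv t j ρ θ) :
    ∃ θ' : PP O ι →+* V, Pt G j (fun g => (ρ g : M2 V)) θ' ∧ Jac (dt G) ≤ RingHom.ker θ' ∧
      ∀ f ∈ maximalIdeal (PP O ι), θ' f ∈ maximalIdeal V := by
  obtain ⟨h1, h3, h4, h5, h6⟩ := crvPt hC.ok hϖ (jpi hϖ h2 j) ht h
  exact hF O F S L κ gk ι G ϖ X as h2 hϖ hC V j (mρ ρ) h1 h3 h4 h5 h6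

end Vale.Agent.P022G.Tr
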