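import Vale.Agent.P022G.Tr.Defs
import Vale.Agent.P022G.Tw.Crv

/-!
# P022G: a curve is a point of the universal ring
-/

set_option linter.all false

noncomputable section

namespace Vale.Agent.P022G.Tr.H14

open NumberField IsLocalRing MvPowerSeries
open Vale.Agent.P022 Vale.Agent.P022G.R Vale.Agent.P022G.Loc Vale.Agent.P022G.Tw
open Vale.Agent.P027M.S (Inert mx)
open Vale.Agent.P022D.Sel (M2)
open Vale.Agent.P022D.Core (PS)
open Vale.Agent.P022E.Loc (Pl)
open Vale.Agent.P022G.Pres (Jac Un)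
open _root_.P022G.Sel (tI rd)

/-- evaluations at elements of the maximal ideal are unique -/
theorem hm_ext {O σ V : Type} [CommRing O] [Fintype σ] [CommRing V] [IsLocalRing V]
    [IsNoetherianRing V] {j : O →+* V} {v : σ → V} (hv : ∀ s, v s ∈ maximalIdeal V)
    {ψ ψ' : PS O σ →+* V} (h : Hm j v ψ) (h' : Hm j v ψ') : ψ = ψ' := by
  have key : ∀ n : ℕ, ∀ f, ψ f - ψ' f ∈ maximalIdeal V ^ n := fun n => by
    induction n with
    | zero => intro f; rw [pow_zero, Ideal.one_eq_top]; trivial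
    | succ n ih =>
      intro f
      obtain ⟨g, hg, -⟩ := P022D.L2b.exists_decompV (f - C (constantCoeff f))
        (by rw [map_sub, constantCoeff_C, sub_self])
      rw [sub_eq_iff_eq_add'] at hg
      have e : ψ f - ψ' f = ∑ s, v s * (ψ (g s) - ψ' (g s)) := by
        conv_lhs => rw [hg]
        simp only [map_add, map_sum, map_mul, h.c, h'.c, h.x, h'.x, mul_sub,
          Finset.sum_sub_distrib]
        ring
      rw [e, pow_succ']
      exact Ideal.sum_mem _ fun s _ => Ideal.mul_mem_mul (hv s) (ih _)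
  refine RingHom.ext fun f => sub_eq_zero.1 ?_
  rw [← Ideal.mem_bot, ← Ideal.iInf_pow_eq_bot_of_isLocalRing (maximalIdeal V)
    (maximalIdeal.isMaximal V).ne_top, Ideal.mem_iInf]
  exact fun n => key n f

/-- the matrices of a representation -/
def mh {V : Type} [CommRing V] (ρ : GQ →* GL (Fin 2) V) : GQ →* M2 V := (Units.coeHom _).comp ρ

theorem mh_apply {V : Type} [CommRing V] (ρ : GQ →* GL (Fin 2) V) (g : GQ) :
    mh ρ g = (ρ g : M2 V) := rfl

section
variable {O F : Type} [CommRing O] [Field F] {S : Dat O F} {L : Pl O} {κ : Type} {gk : κ → GQ}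
  {ι : Type} {G : Gs S L gk ι} {V : Type} [CommRing V] [IsDomain V] [IsDiscreteValuationRing V]
  {t : V} {j : O →+* V} {ρ : GQ →* GL (Fin 2) V} {θ : PS O (Sy ι) →+* V}

theorem crv_res (ht : Irreducible t) (hc : G.Crv t j ρ θ) (g : GQ) (a b : Fin 2) :
    mh ρ g a b - j (L.r g a b) ∈ maximalIdeal V := by
  rw [ht.maximalIdeal_eq, Ideal.mem_span_singleton]
  exact hc.res g a b

theorem j_det [IsLocalRing O] (hL : OkG L S) (hj : ∀ c, S.red c = 0 → j c = 0) (g : GQ) :
    j (L.r g).det = 1 := by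
  have : S.red ((L.r g).det - 1) = 0 := by
    rw [map_sub, RingHom.map_det, RingHom.mapMatrix_apply, hL.lift, hL.det, map_one, sub_self]
  have := hj _ this
  rwa [map_sub, map_one, sub_eq_zero] at this

theorem crv_det [IsLocalRing O] (hL : OkG L S) (hj : ∀ c, S.red c = 0 → j c = 0)
    (hc : G.Crv t j ρ θ) (g : GQ) : (mh ρ g).det = j (L.r g).det :=
  (hc.det g).trans (j_det hL hj g).symm

theorem crv_opn (ht : Irreducible t) (hc : G.Crv t j ρ θ) (N : ℕ) :
    IsOpen {g | (mh ρ g).map (Ideal.Quotient.mk (maximalIdeal V ^ N)) = 1} := by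
  rw [ht.maximalIdeal_eq, Ideal.span_singleton_pow]
  have : {g | (mh ρ g).map (Ideal.Quotient.mk (tI t N)) = 1} = {g | rd (tI t N) ρ g = 1} :=
    Set.ext fun g => ⟨fun h => Units.ext h, fun h => congrArg Units.val h⟩
  rw [this]
  exact (hc.lv N).opn

theorem crv_un (ht : Irreducible t) (hc : G.Crv t j ρ θ) : Un S.T (mh ρ) :=
  fun l hl P hP g hg => by rw [mh_apply, crv_unr ht.not_isUnit hc hl hP hg, Units.val_one]

/-- a point above the point of the ring of traces -/
theorem pt_comp [Fintype ι] (ht : Irreducible t) (hc : G.Crv t j ρ θ)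
    {θ' : Pres.PP O ι →+* V} (h : Pt G j (mh ρ) θ') {φ : PS O (Sy ι) →+* Pres.PP O ι}
    (hφ : IsPhi G φ) : θ'.comp φ = θ := by
  refine hm_ext (j := j) (v := sv G.rc j fun i => (ρ (G.γ i) : M2 V)) (fun s => ?_)
    ⟨fun o => ?_, fun s => ?_⟩ hc.hm
  · rw [← residue_eq_zero_iff]
    refine sv_res _ _ _ _ (fun i a b => ?_) s
    rw [← sub_eq_zero, ← map_sub, residue_eq_zero_iff]
    exact crv_res ht hc _ a b
  · rw [RingHom.comp_apply, hφ.c, h.c]
  · rw [RingHom.comp_apply, hφ.x, sv_map, show θ'.comp C = j from RingHom.ext h.c]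
    exact congrArg (fun Z => sv G.rc j Z s) (funext fun i => Matrix.ext fun a b => h.z i a b)

end

/-- **a curve is a point of the universal ring** -/
theorem crv_pt (hF : FRP) {O F : Type} [CommRing O] [IsDomain O] [IsDiscreteValuationRing O]
    [IsAdicComplete (maximalIdeal O) O] [Field F] [Finite F] [CharP F 2] {S : Dat O F} {L : Pl O}
    {κ : Type} {gk : κ → GQ} {ι : Type} [Fintype ι] (G : Gs S L gk ι) {ϖ : O} {X : Finset ℕ}
    {as : ℕ} (h2 : (2 : O) ≠ 0) (hϖ : Irreducible ϖ) (hC : Cx S L X as) {V : Type} [CommRing V]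
    [IsDomain V] [IsDiscreteValuationRing V] [IsAdicComplete (maximalIdeal V) V]
    [Finite (ResidueField V)] {t : V} {j : O →+* V} {ρ : GQ →* GL (Fin 2) V}
    {θ : PS O (Sy ι) →+* V} (hj : ∀ c, S.red c = 0 → j c = 0) (ht : Irreducible t)
    (hc : G.Crv t j ρ θ) :
    ∃ θ' : Pres.PP O ι →+* V, Pt G j (mh ρ) θ' ∧ Jac (dt G) ≤ RingHom.ker θ' ∧
      (∀ f ∈ maximalIdeal (Pres.PP O ι), θ' f ∈ maximalIdeal V) ∧
      ∀ φ, IsPhi G φ → θ'.comp φ = θ := by
  have h0 : j ϖ = 0 := hj ϖ ((hC.ok.ker ϖ).2 hϖ.not_isUnit)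
  obtain ⟨θ', h1, h3, h4⟩ := hF O F S L κ gk ι G ϖ X as h2 hϖ hC V j (mh ρ)
    (h0 ▸ zero_mem _) (crv_res ht hc) (crv_det hC.ok hj hc) (crv_opn ht hc) (crv_un ht hc)
  exact ⟨θ', h1, h3, h4, fun φ hφ => pt_comp ht hc h1 hφ⟩

end Vale.Agent.P022G.Tr.H14
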