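import Vale.Agent.P022G.Tr.Defs
import Vale.Agent.P022D.NR.Ev

/-! # P022G: the framed point of a curve -/

set_option linter.all false

noncomputable section

namespace Vale.Agent.P022G.Tr.H87

open NumberField IsLocalRing MvPowerSeries
open Vale.Agent.P022 Vale.Agent.P022G.R Vale.Agent.P022G.Loc
open Vale.Agent.P027M.S (Inert mx)
open Vale.Agent.P022D.Sel (M2)
open Vale.Agent.P022D.Core (PS)
open Vale.Agent.P022E.Loc (Pl)
open Vale.Agent.P022G.Pres (PP Dt Jac Un)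

theorem j_zero {O V : Type} [CommRing O] [IsDomain O] [IsDiscreteValuationRing O]
    [CommRing V] [IsDomain V] [CharP V 2] (h : (2 : O) ≠ 0) (j : O →+* V) {ϖ : O}
    (hϖ : Irreducible ϖ) : j ϖ = 0 := by
  obtain ⟨n, u, hu⟩ := IsDiscreteValuationRing.eq_unit_mul_pow_irreducible h hϖ
  have h2 : j 2 = 0 := by
    rw [map_ofNat]
    exact CharTwo.two_eq_zero
  rw [hu, map_mul, map_pow] at h2
  exact IsNilpotent.eq_zero ⟨n, (mul_eq_zero.1 h2).resolve_left (u.isUnit.map j).ne_zero⟩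

theorem j_max {O V : Type} [CommRing O] [IsDomain O] [IsDiscreteValuationRing O]
    [CommRing V] [IsDomain V] [CharP V 2] (h : (2 : O) ≠ 0) (j : O →+* V) {o : O}
    (ho : o ∈ maximalIdeal O) : j o = 0 := by
  obtain ⟨ϖ, hϖ⟩ := IsDiscreteValuationRing.exists_irreducible O
  rw [(IsDiscreteValuationRing.irreducible_iff_uniformizer ϖ).1 hϖ] at ho
  obtain ⟨c, rfl⟩ := Ideal.mem_span_singleton'.1 ho
  rw [map_mul, j_zero h j hϖ, mul_zero]

/-- the representation as a map to matrices -/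
abbrev mh {V : Type} [CommRing V] (ρ : GQ →* GL (Fin 2) V) : GQ →* M2 V :=
  (Units.coeHom (M2 V)).comp ρ

variable {O F : Type} [CommRing O] [IsDomain O] [IsDiscreteValuationRing O] [Field F]
  {S : Dat O F} {L : Pl O} {κ : Type} {gk : κ → GQ} {ι : Type} {G : Gs S L gk ι}
  {V : Type} [CommRing V] [IsDomain V] [IsDiscreteValuationRing V] [CharP V 2]
  {t : V} {j : O →+* V} {ρ : GQ →* GL (Fin 2) V} {θ : PS O (Sy ι) →+* V}

theorem c_res (ht : Irreducible t) (hc : G.Crv t j ρ θ) (g : GQ) (a b : Fin 2) :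
    mh ρ g a b - j (L.r g a b) ∈ maximalIdeal V := by
  rw [(IsDiscreteValuationRing.irreducible_iff_uniformizer t).1 ht, Ideal.mem_span_singleton]
  exact hc.res g a b

theorem c_det (h2 : (2 : O) ≠ 0) (hL : OkG L S) (hc : G.Crv t j ρ θ) (g : GQ) :
    (mh ρ g).det = j (L.r g).det := by
  have h1 : S.red ((L.r g).det - 1) = 0 := by
    rw [map_sub, map_one, RingHom.map_det, RingHom.mapMatrix_apply, hL.lift, hL.det, sub_self]
  have h3 := j_max h2 j ((hL.ker _).1 h1)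
  rw [map_sub, map_one, sub_eq_zero] at h3
  rw [h3]
  exact hc.det g

theorem c_rd (J : Ideal V) (g : GQ) :
    _root_.P022G.Sel.rd J ρ g = 1 ↔ (mh ρ g).map (Ideal.Quotient.mk J) = 1 :=
  Units.ext_iff

theorem c_opn (ht : Irreducible t) (hc : G.Crv t j ρ θ) (N : ℕ) :
    IsOpen {g | (mh ρ g).map (Ideal.Quotient.mk (maximalIdeal V ^ N)) = 1} := by
  rw [(IsDiscreteValuationRing.irreducible_iff_uniformizer t).1 ht, Ideal.span_singleton_pow]
  have := (hc.lv N).opn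
  simpa only [c_rd] using this

theorem c_unr (ht : Irreducible t) (hc : G.Crv t j ρ θ) : Un S.T (mh ρ) := by
  intro l hl P hP g hg
  ext a b
  rw [← sub_eq_zero, ← Ideal.mem_bot,
    ← Ideal.iInf_pow_eq_bot_of_isLocalRing (maximalIdeal V) (maximalIdeal.isMaximal V).ne_top]
  refine Ideal.mem_iInf.2 fun N => ?_
  rw [(IsDiscreteValuationRing.irreducible_iff_uniformizer t).1 ht, Ideal.span_singleton_pow,
    ← Ideal.Quotient.eq]
  have h := congrFun (congrFun ((c_rd _ g).1 ((hc.lv N).unr l hl P hP g hg)) a) b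
  rw [Matrix.map_apply] at h
  rw [h, Matrix.one_apply, Matrix.one_apply, apply_ite (Ideal.Quotient.mk _), map_one, map_zero]

theorem sv_mem (ht : Irreducible t) (hc : G.Crv t j ρ θ) (s : Sy ι) :
    sv G.rc j (fun i => (ρ (G.γ i) : M2 V)) s ∈ maximalIdeal V := by
  rcases s with i | i | ⟨i, k⟩
  · exact c_res ht hc _ 0 0
  · exact c_res ht hc _ 1 1
  · have h1 := c_res ht hc (G.γ i) 0 1
    have h2 := c_res ht hc (G.γ k) 1 0
    show mh ρ (G.γ i) 0 1 * mh ρ (G.γ k) 1 0 - j (L.r (G.γ i) 0 1 * L.r (G.γ k) 1 0) ∈ _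
    have e : mh ρ (G.γ i) 0 1 * mh ρ (G.γ k) 1 0 - j (L.r (G.γ i) 0 1 * L.r (G.γ k) 1 0) =
        (mh ρ (G.γ i) 0 1 - j (L.r (G.γ i) 0 1)) * mh ρ (G.γ k) 1 0 +
          j (L.r (G.γ i) 0 1) * (mh ρ (G.γ k) 1 0 - j (L.r (G.γ k) 1 0)) := by
      rw [map_mul]
      ring
    rw [e]
    exact add_mem (Ideal.mul_mem_right _ _ h1) (Ideal.mul_mem_left _ _ h2)

/-- a framed point restricts to the point of the ring of traces -/
theorem comp_phi [Fintype ι] (ht : Irreducible t) (hc : G.Crv t j ρ θ) {th : PP O ι →+* V}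
    (hp : Pt G j (mh ρ) th) {φ : PS O (Sy ι) →+* PP O ι} (hφ : IsPhi G φ) : th.comp φ = θ := by
  have hx : ∀ s, th.comp φ (X s) = θ (X s) := by
    intro s
    rw [RingHom.comp_apply, hφ.x, hc.hm.x]
    rcases s with i | i | ⟨i, k⟩
    · show th (Z G i 0 0 - C _) = _
      rw [map_sub, hp.z, hp.c]
      rfl
    · show th (Z G i 1 1 - C _) = _
      rw [map_sub, hp.z, hp.c]
      rfl
    · show th (Z G i 0 1 * Z G k 1 0 - C _) = _
      rw [map_sub, map_mul, hp.z, hp.z, hp.c]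
      rfl
  refine P022D.NR.ev_ext (maximalIdeal V) (fun o => ?_) hx (fun s => ?_)
  · rw [RingHom.comp_apply, hφ.c, hp.c, hc.hm.c]
  · rw [hx, hc.hm.x]
    exact sv_mem ht hc s

/-- **the framed point of a curve** -/
theorem crvpt (hF : FRP) [IsAdicComplete (maximalIdeal O) O] [Finite F] [CharP F 2] [Fintype ι]
    [IsAdicComplete (maximalIdeal V) V] [Finite (ResidueField V)] {ϖ : O} {X : Finset ℕ} {as : ℕ}
    (h2 : (2 : O) ≠ 0) (hϖ : Irreducible ϖ) (hC : Cx S L X as) (ht : Irreducible t)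
    (hc : G.Crv t j ρ θ) : ∃ th : PP O ι →+* V, Pt G j (mh ρ) th ∧
      Jac (dt G) ≤ RingHom.ker th ∧ (∀ f ∈ maximalIdeal (PP O ι), th f ∈ maximalIdeal V) ∧
      th (C ϖ) = 0 ∧ L0 G ≤ RingHom.ker th ∧ ∀ φ, IsPhi G φ → th.comp φ = θ := by
  obtain ⟨th, h1, h3, h4⟩ := hF O F S L κ gk ι G ϖ X as h2 hϖ hC V j (mh ρ)
    (by rw [j_zero h2 j hϖ]; exact zero_mem _) (c_res ht hc) (c_det h2 hC.ok hc) (c_opn ht hc)
    (c_unr ht hc)
  refine ⟨th, h1, h3, h4, (h1.c ϖ).trans (j_zero h2 j hϖ), ?_, fun φ hφ => comp_phi ht hc h1 hφ⟩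
  rw [L0, Ideal.span_le]
  rintro _ (⟨i, rfl⟩ | rfl | rfl)
  · show th ((Z G i).det - C _) = 0
    have e : (Z G i).map th = mh ρ (G.γ i) := Matrix.ext fun a b => h1.z i a b
    rw [map_sub, RingHom.map_det, RingHom.mapMatrix_apply, e, h1.c, c_det h2 hC.ok hc]
    exact sub_self _
  · show th _ = 0
    rw [h1.z, G.h0]
    exact hc.dg.1
  · show th _ = 0
    rw [h1.z, G.h0]
    exact hc.dg.2

end Vale.Agent.P022G.Tr.H87
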