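import Vale.Agent.P022G.Tr.Defs
import Vale.Agent.P022G.Tor2
import Vale.Agent.P022G.Conn.Dim
import Vale.Agent.P022D.Rl.Ch0
import Vale.Agent.P022D.CA.Pow

/-!
# P022G: the map from the ring of traces to the framed ring
-/

set_option linter.all false

noncomputable section

namespace Vale.Agent.P022G.Tr

open IsLocalRing MvPowerSeries
open Vale.Agent.P022 Vale.Agent.P022G.R Vale.Agent.P022G.Loc
open Vale.Agent.P027M.S (mx)
open Vale.Agent.P022D.Sel (M2)
open Vale.Agent.P022D.Core (PS)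
open Vale.Agent.P022E.Loc (Pl)
open Vale.Agent.P022G.Pres (PP Dt Jac Un)
open Vale.Agent.P022D.CA Vale.Agent.P022G.Trc

section fibre
variable {O F : Type} [CommRing O] [IsDomain O] [IsDiscreteValuationRing O] [Field F]
  {ϖ : O} (red : O →+* F) (hs : Function.Surjective red)
  (hk : ∀ c, red c = 0 ↔ c ∈ maximalIdeal O) (hϖ : Irreducible ϖ)

include hk hϖ in
theorem ker_red : RingHom.ker red = Ideal.span {ϖ} := by
  rw [← hϖ.maximalIdeal_eq]
  ext c
  exact hk c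

include hs hk hϖ in
theorem fib_prime (σ : Type) : (Ideal.span {(C ϖ : MvPowerSeries σ O)}).IsPrime := by
  haveI : IsDomain (MvPowerSeries σ F) := NoZeroDivisors.to_isDomain _
  rw [← ker_map red (ker_red red hk hϖ)]
  exact RingHom.ker_isPrime _

include hϖ in
theorem fib_dim (σ : Type) [Fintype σ] : ((Fintype.card σ : ℕ) : WithBot ℕ∞) ≤
    ringKrullDim (MvPowerSeries σ O ⧸ Ideal.span {(C ϖ : MvPowerSeries σ O)}) := by
  have h := dimGE_sup (A := MvPowerSeries σ O) (I := ⊥) (x := C ϖ) (k := Fintype.card σ)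
    ((Cpl.mem_max_iff _).2 (by
      rw [constantCoeff_C, hϖ.maximalIdeal_eq]; exact Ideal.mem_span_singleton_self _))
    (by rw [Conn.dim_quot_bot, (P022D.Rl.Ch0.reg hϖ.maximalIdeal_eq).2])
  rwa [bot_sup_eq] at h

include hs hk hϖ in
theorem fib_cf {σ : Type} {I : Ideal (MvPowerSeries σ O)} (h : C ϖ ∈ I) : Trc.Cf I := by
  refine ⟨F, inferInstance, red.liftOfSurjective hs ⟨(Ideal.Quotient.mk I).comp C, fun o ho => ?_⟩,
    fun t => ⟨red (constantCoeff t), C (constantCoeff t), ?_, ?_⟩⟩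
  · rw [ker_red red hk hϖ, Ideal.mem_span_singleton] at ho
    obtain ⟨c, rfl⟩ := ho
    rw [RingHom.mem_ker, RingHom.comp_apply, Ideal.Quotient.eq_zero_iff_mem, map_mul]
    exact I.mul_mem_right _ h
  · rw [RingHom.liftOfSurjective_comp_apply]; rfl
  · rw [Cpl.mem_max_iff, map_sub, constantCoeff_C, sub_self]; exact Ideal.zero_mem _

end fibre

variable {O F : Type} [CommRing O] [Field F] {S : Dat O F} {L : Pl O} {κ : Type} {gk : κ → GQ}
  {ι : Type} {G : Gs S L gk ι}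

theorem Z_eq (i : ι) (a b : Fin 2) : Z G i a b = C (c0 G i a b) + X (i, a, b) := rfl

section
variable {φ : PS O (Sy ι) →+* PP O ι} (h : IsPhi G φ)
include h

theorem IsPhi.a (i : ι) : φ (aS G.rc id i) = Z G i 0 0 := by
  rw [aS, map_add, h.c, h.x]; exact add_sub_cancel _ _

theorem IsPhi.d (i : ι) : φ (dS G.rc id i) = Z G i 1 1 := by
  rw [dS, map_add, h.c, h.x]; exact add_sub_cancel _ _

theorem IsPhi.xx (i k : ι) : φ (xS G.rc id i k) = Z G i 0 1 * Z G k 1 0 := by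
  rw [xS, map_add, h.c, h.x]; exact add_sub_cancel _ _

theorem IsPhi.tr (i : ι) : φ (trS G.rc id i) = (Z G i).trace := by
  rw [trS, map_add, h.a, h.d, Matrix.trace_fin_two]

theorem IsPhi.tr2 (i k : ι) : φ (tr2 G.rc id i k) = (Z G i * Z G k).trace := by
  rw [P022G.tr2, map_add, map_add, map_add, map_mul, map_mul, h.a, h.a, h.d, h.d, h.xx, h.xx,
    Matrix.trace_fin_two, Matrix.mul_apply, Matrix.mul_apply, Fin.sum_univ_two, Fin.sum_univ_two]
  ring

theorem IsPhi.gen (s : Pres.Ix ι) :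
    ∃ u, X s = φ u ∨ ∃ i, X s = φ u + Z G i 0 1 ∨ X s = φ u + Z G i 1 0 := by
  obtain ⟨i, a, b⟩ := s
  have e : ∀ a b, X (i, a, b) = Z G i a b - C (c0 G i a b) := fun a b => by
    rw [Z_eq, add_sub_cancel_left]
  have e' : ∀ a b, X (i, a, b) = φ (-C (c0 G i a b)) + Z G i a b := fun a b => by
    rw [map_neg, h.c, e, neg_add_eq_sub]
  fin_cases a <;> fin_cases b
  · exact ⟨aS G.rc id i - C (c0 G i 0 0), Or.inl (by rw [map_sub, h.a, h.c]; exact e 0 0)⟩
  · exact ⟨_, Or.inr ⟨i, Or.inl (e' 0 1)⟩⟩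
  · exact ⟨_, Or.inr ⟨i, Or.inr (e' 1 0)⟩⟩
  · exact ⟨dS G.rc id i - C (c0 G i 1 1), Or.inl (by rw [map_sub, h.d, h.c]; exact e 1 1)⟩

theorem IsPhi.down [IsLocalRing O] [IsNoetherianRing O] [Fintype ι] (I : Ideal (PP O ι)) :
    Down φ I (NZ G) 1 :=
  Tor.down (fun i => Z G i 0 1) (fun i => Z G i 1 0) (fun o => ⟨C o, h.c o⟩)
    (fun i k => ⟨_, h.xx i k⟩) h.gen I

end

variable [IsLocalRing O]

theorem c0_sub (hL : OkG L S) (hD : (dt G).Ok) (i : ι) (a b : Fin 2) :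
    c0 G i a b - G.rc i a b ∈ maximalIdeal O := by
  have h1 : S.red (c0 G i a b) = mx S.rb (G.γ i) a b := congrFun (congrFun (hD.lift i) a) b
  have h2 : S.red (G.rc i a b) = mx S.rb (G.γ i) a b := congrFun (congrFun (hL.lift (G.γ i)) a) b
  rw [← hL.ker, map_sub, h1, h2, sub_self]

theorem Z_sub (hL : OkG L S) (hD : (dt G).Ok) (i : ι) (a b : Fin 2) :
    Z G i a b - C (G.rc i a b) ∈ maximalIdeal (PP O ι) := by
  rw [Cpl.mem_max_iff, Z_eq, map_sub, map_add, constantCoeff_C, constantCoeff_C, constantCoeff_X,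
    add_zero]
  exact c0_sub hL hD i a b

theorem sv_mem (hL : OkG L S) (hD : (dt G).Ok) (s : Sy ι) :
    sv G.rc C (Z G) s ∈ maximalIdeal (PP O ι) := by
  rcases s with i | i | ⟨i, k⟩
  · exact Z_sub hL hD i 0 0
  · exact Z_sub hL hD i 1 1
  · show Z G i 0 1 * Z G k 1 0 - C (G.rc i 0 1 * G.rc k 1 0) ∈ _
    rw [map_mul, show ∀ x y x' y' : PP O ι, x * y - x' * y' = (x - x') * y + x' * (y - y') from
      fun _ _ _ _ => by ring]
    exact Ideal.add_mem _ (Ideal.mul_mem_right _ _ (Z_sub hL hD i 0 1))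
      (Ideal.mul_mem_left _ _ (Z_sub hL hD k 1 0))

variable [Fintype ι]

theorem exists_phi [IsNoetherianRing O] [IsAdicComplete (maximalIdeal O) O] (hL : OkG L S)
    (hD : (dt G).Ok) : ∃ φ, IsPhi G φ := by
  haveI := Cpl.isAdicCompleteV (σ := Pres.Ix ι) (V := O) inferInstance
  obtain ⟨φ, h1, h2⟩ := Conn.exists_ev (maximalIdeal (PP O ι)) C _ (sv_mem hL hD)
  exact ⟨φ, h1, h2⟩

theorem IsPhi.loc {φ : PS O (Sy ι) →+* PP O ι} (h : IsPhi G φ) (hL : OkG L S) (hD : (dt G).Ok) :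
    ∀ u ∈ maximalIdeal (PS O (Sy ι)), φ u ∈ maximalIdeal (PP O ι) :=
  Tor.loc_of (fun c hc => by rw [h.c, Cpl.mem_max_iff, constantCoeff_C]; exact hc)
    fun s => by rw [h.x]; exact sv_mem hL hD s

section split
variable (hH : L.H = ⊤)
include hH

omit [IsLocalRing O] [Fintype ι] in
theorem c0_top (i : ι) : c0 G i = !![G.rc i 0 0, 0; 0, G.rc i 1 1] := by
  rw [c0, if_pos (by rw [hH]; trivial)]

omit [IsLocalRing O] [Fintype ι] in
theorem Z01 (i : ι) : Z G i 0 1 = X (i, 0, 1) := by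
  rw [Z_eq, c0_top hH]; simp

omit [IsLocalRing O] [Fintype ι] in
theorem Z10 (i : ι) : Z G i 1 0 = X (i, 1, 0) := by
  rw [Z_eq, c0_top hH]; simp

omit [IsLocalRing O] [Fintype ι] hH in
theorem hom00 (i : ι) : Tor.Hom wt 0 (Z G i 0 0) :=
  (Tor.hom_C _).add (Tor.hom_X (w := wt) (i, 0, 0))

omit [IsLocalRing O] [Fintype ι] hH in
theorem hom11 (i : ι) : Tor.Hom wt 0 (Z G i 1 1) :=
  (Tor.hom_C _).add (Tor.hom_X (w := wt) (i, 1, 1))

omit [IsLocalRing O] [Fintype ι] in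
theorem hom01 (i : ι) : Tor.Hom wt 1 (Z G i 0 1) := by
  rw [Z01 hH]; exact Tor.hom_X (w := wt) (i, 0, 1)

omit [IsLocalRing O] [Fintype ι] in
theorem hom10 (i : ι) : Tor.Hom wt (-1) (Z G i 1 0) := by
  rw [Z10 hH]; exact Tor.hom_X (w := wt) (i, 1, 0)

omit [IsLocalRing O] [Fintype ι] in
theorem hombc (i k : ι) : Tor.Hom wt 0 (Z G i 0 1 * Z G k 1 0) :=
  (hom01 hH i).mul (hom10 hH k)

omit [IsLocalRing O] [Fintype ι] in
theorem hom_de (i : ι) : Tor.Hom wt 0 (de G i) := by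
  rw [de, Matrix.det_fin_two]
  exact (((hom00 i).mul (hom11 i)).sub (hombc hH i i)).sub (Tor.hom_C _)

theorem IsPhi.tor [IsNoetherianRing O] {φ : PS O (Sy ι) →+* PP O ι} (h : IsPhi G φ) (hL : OkG L S)
    (hD : (dt G).Ok) : Tor.Tr wt φ where
  wt := fun ⟨i, a, b⟩ => by fin_cases a <;> fin_cases b <;> simp [wt]
  loc := h.loc hL hD
  hom := fun u => Tor.hom_lim fun n => by
    obtain ⟨p, hp, hp'⟩ := Tor.poly ((Tor.R0 wt).comap φ)
      (fun c => by rw [Subring.mem_comap, h.c]; exact Tor.hom_C c) (fun s => by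
        rw [Subring.mem_comap, h.x]
        rcases s with i | i | ⟨i, k⟩
        · exact (hom00 i).sub (Tor.hom_C _)
        · exact (hom11 i).sub (Tor.hom_C _)
        · exact (hombc hH i k).sub (Tor.hom_C _)) n u
    exact ⟨φ p, hp, by rw [← map_sub]; exact Tor.map_pow_mem (h.loc hL hD) n hp'⟩
  cst := fun c => ⟨C c, h.c c⟩
  zero := fun ⟨i, a, b⟩ hw => by
    fin_cases a <;> fin_cases b
    · refine ⟨X (Sum.inl i), (Cpl.mem_max_iff _).2 (by simp), ?_⟩
      rw [h.x]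
      show Z G i 0 0 - C (G.rc i 0 0) = X (i, 0, 0)
      rw [Z_eq, c0_top hH]; simp
    · simp [wt] at hw
    · simp [wt] at hw
    · refine ⟨X (Sum.inr (Sum.inl i)), (Cpl.mem_max_iff _).2 (by simp), ?_⟩
      rw [h.x]
      show Z G i 1 1 - C (G.rc i 1 1) = X (i, 1, 1)
      rw [Z_eq, c0_top hH]; simp
  pair := fun ⟨i, a, b⟩ ⟨k, a', b'⟩ hw hw' => by
    obtain ⟨rfl, rfl⟩ : a = 0 ∧ b = 1 := by
      fin_cases a <;> fin_cases b <;> simp [wt] at hw ⊢
    obtain ⟨rfl, rfl⟩ : a' = 1 ∧ b' = 0 := by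
      fin_cases a' <;> fin_cases b' <;> simp [wt] at hw' ⊢
    refine ⟨xS G.rc id i k, ?_, by rw [h.xx, Z01 hH, Z10 hH]⟩
    have := c0_sub hL hD i 0 1
    rw [c0_top hH] at this
    rw [Cpl.mem_max_iff, xS, map_add, constantCoeff_C, constantCoeff_X, add_zero]
    exact Ideal.mul_mem_right _ _ (by simpa using this)

end split

end Vale.Agent.P022G.Tr
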