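import Vale.Agent.P022G.Rows2
import Vale.Agent.P022G.Tr.Frp
import Vale.Agent.P022G.Tr.Dok
import Vale.Agent.P022G.Tr.Phi
import Vale.Agent.P022G.Tr.CrvPt
import Vale.Agent.P022D.NR.Ev

/-! # P022G: a surface through every irreducible curve -/

set_option linter.all false

noncomputable section

namespace Vale.Agent.P022G.Tr.H60

open NumberField IsLocalRing MvPowerSeries
open Vale.Agent.P022 Vale.Agent.P022G.R Vale.Agent.P022G.Loc
open Vale.Agent.P027M.S (Inert mx)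
open Vale.Agent.P022D.Sel (M2)
open Vale.Agent.P022D.Core (PS Coef)
open Vale.Agent.P022E.Loc (Pl)
open Vale.Agent.P022G.Pres (Dt Jac Un Adm pm pm_apply pm_one)

theorem presc2C (h2 : PR2) (hA : AG) (hV : CRV) (hD : KDA) : PRESC2 := by
  intro O F _ _ _ _ _ _ _ ϖ S L X as β τ ι' _ _ _ K ι _ G hϖ hC hK hE J p hp hI hr
  classical
  haveI : IsAdicComplete (maximalIdeal O) O := Coef.cpl
  have hS := dokC O F S L _ K.g ι G ϖ X as Coef.ne hϖ hC.cx
  obtain ⟨n, e, hn, he, hJ⟩ := h2 O F S L _ K.g ι G ϖ X as Coef.ne hϖ hC.cx hE.cz J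
    (Jac (dt G)) (Ideal.span_eq _)
  have i1 : G.aG ≤ p := (le_sup_left.trans le_sup_left).trans hI
  have i2 : C ϖ ∈ p := hI (Ideal.mem_sup_left (Ideal.mem_sup_right
    (Ideal.mem_span_singleton_self _)))
  have i3 : IPt G.rc id G.iτ G.iφ J ≤ p := le_sup_right.trans hI
  obtain ⟨V, _, _, _, _, _, _, t, j, ρ, θA, ht, hc, rfl⟩ := hV O F ϖ S L X as β τ ι' K ι G hϖ hC hK
    p hp ((hD O F ϖ S L X as β τ ι' K ι G hϖ hC hK).1.trans i1) i2
  obtain ⟨θ, hθ, hJθ, hl⟩ := crv_frp (frpC dokC) Coef.ne hϖ hC.cx ht hc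
  obtain ⟨φ, hφ⟩ := exists_phi (G := G) hC.cx.ok hS
  have hz : ∀ i a b, θ (Z G i a b) = (ρ (G.γ i) : M2 V) a b := hθ.z
  have cm : θ.comp φ = θA := by
    refine P022D.NR.ev_ext (maximalIdeal V) (fun c => ?_) (fun s => ?_) fun s => ?_
    · rw [RingHom.comp_apply, hφ.c, hθ.c, hc.hm.c]
    · rw [RingHom.comp_apply, hφ.x, hc.hm.x]
      rcases s with i | i | ⟨i, k⟩
      · show θ (Z G i 0 0 - C (G.rc i 0 0)) = _
        rw [map_sub, hz, hθ.c]; rfl
      · show θ (Z G i 1 1 - C (G.rc i 1 1)) = _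
        rw [map_sub, hz, hθ.c]; rfl
      · show θ (Z G i 0 1 * Z G k 1 0 - C (G.rc i 0 1 * G.rc k 1 0)) = _
        rw [map_sub, map_mul, hz, hz, hθ.c]; rfl
    · rw [RingHom.comp_apply, hφ.x]
      exact hl _ (sv_mem hC.cx.ok hS s)
  have up : ∀ f ∈ RingHom.ker θA, θ (φ f) = 0 := fun f hf => by
    rw [← cm] at hf; exact hf
  obtain ⟨i0, k0, ir⟩ := hr
  have ir' : θ (Z G i0 0 1) * θ (Z G k0 1 0) ≠ 0 := fun k => ir (by
    rw [← cm, RingHom.mem_ker, RingHom.comp_apply, hφ.xx, map_mul, k])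
  have jp : j ϖ = 0 := jpi hϖ Coef.ne j
  obtain ⟨hreg, -⟩ := P022D.Rl.Ch0.reg (σ := Pres.Ix ι) hϖ.maximalIdeal_eq
  let w : L.C × Fin 3 → Pres.PP O ι := fun a => if a.1 ∈ J then
      ![(Z G (G.iτ a.1)).trace, (Z G (G.iφ a.1)).trace, (Z G (G.iτ a.1) * Z G (G.iφ a.1)).trace] a.2
    else ![Z G (G.iτ a.1) 0 0 - 1, Z G (G.iτ a.1) 0 1, Z G (G.iτ a.1) 1 0] a.2
  let E : Fin n ⊕ ι ⊕ (L.C × Fin 3) ⊕ Fin 3 → Pres.PP O ι := Sum.elim e (Sum.elim (de G)
    (Sum.elim w ![Z G G.i0 0 1, Z G G.i0 1 0, (Z G G.ic).trace]))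
  obtain ⟨q, hq, q0, hE', hqθ, hd⟩ := P022G.Cat.cat E (Q := Ideal.span {C ϖ})
    (p := RingHom.ker θ) (fib_prime S.red S.surj hC.cx.ok.ker hϖ _) (RingHom.ker_isPrime θ)
    ((Ideal.span_singleton_le_iff_mem _).2 (by rw [RingHom.mem_ker, hθ.c, jp])) (fun s => by
      rw [RingHom.mem_ker]
      rcases s with i | i | ⟨a, c⟩ | c
      · exact hJθ (he i)
      · show θ ((Z G i).det - C (G.rc i).det) = 0
        have := crv_det hC.cx.ok hϖ jp hc (G.γ i)
        rw [map_sub, hθ.c, Gs.rc, ← this, mρ_apply, Matrix.det_fin_two, Matrix.det_fin_two]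
        simp only [map_sub, map_mul, hz, sub_self]
      · show θ (w (a, c)) = 0
        by_cases ha : a ∈ J
        · simp only [w, if_pos ha]
          fin_cases c
          · exact (congrArg θ (hφ.tr _)).symm.trans
              (up _ (i3 (Ideal.subset_span (Or.inl ⟨a, ha, Or.inl rfl⟩))))
          · exact (congrArg θ (hφ.tr _)).symm.trans
              (up _ (i3 (Ideal.subset_span (Or.inl ⟨a, ha, Or.inr (Or.inl rfl)⟩))))
          · exact (congrArg θ (hφ.tr2 _ _)).symm.trans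
              (up _ (i3 (Ideal.subset_span (Or.inl ⟨a, ha, Or.inr (Or.inr rfl)⟩))))
        · simp only [w, if_neg ha]
          have m : ∀ f ∈ tauP G.rc id (G.iτ a), θ (φ f) = 0 := fun f hf =>
            up _ (i3 (Ideal.subset_span (Or.inr ⟨a, ha, hf⟩)))
          fin_cases c
          · have := m _ (Or.inl (Or.inl rfl))
            rwa [map_sub, hφ.a, map_one] at this
          · have := m _ (Or.inr (Or.inl ⟨k0, rfl⟩))
            rw [hφ.xx, map_mul] at this
            exact (mul_eq_zero.1 this).resolve_right (right_ne_zero_of_mul ir')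
          · have := m _ (Or.inr (Or.inr ⟨i0, rfl⟩))
            rw [hφ.xx, map_mul] at this
            exact (mul_eq_zero.1 this).resolve_left (left_ne_zero_of_mul ir')
      · fin_cases c
        · show θ (Z G G.i0 0 1) = 0
          rw [hz, G.h0]; exact hc.dg.1
        · show θ (Z G G.i0 1 0) = 0
          rw [hz, G.h0]; exact hc.dg.2
        · show θ (Z G G.ic).trace = 0
          have two : (2 : V) = 0 := CharTwo.two_eq_zero
          have h1 : (ρ L.c : M2 V) * (ρ L.c : M2 V) = 1 := by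
            obtain ⟨u, hu⟩ := hC.cx.ok.cj
            have : L.c * L.c = 1 := by
              refine AlgEquiv.ext fun x => u.injective ?_
              rw [AlgEquiv.mul_apply, hu, hu, starRingEnd_self_apply]
              rfl
            rw [← Units.val_mul, ← map_mul, this, map_one, Units.val_one]
          have h3 := hc.det L.c
          rw [Matrix.trace_fin_two, map_add, hz, hz, G.hc]
          generalize (ρ L.c : M2 V) = M at h1 h3
          have a := congrFun (congrFun h1 0) 0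
          have d := congrFun (congrFun h1 1) 1
          simp only [Matrix.mul_apply, Fin.sum_univ_two, Matrix.one_apply_eq] at a d
          rw [Matrix.det_fin_two] at h3
          refine pow_eq_zero_iff two_ne_zero |>.1 ?_
          linear_combination a + d + 2 * h3 + 2 * two) (k := 2 + 1) (le_trans (by
      simp only [Fintype.card_sum, Fintype.card_prod, Fintype.card_fin, Fintype.card_coe]
      exact_mod_cast (by omega : 2 + 1 + (n + (Fintype.card ι + (L.C.card * 3 + 3))) ≤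
        Fintype.card ι * (2 * 2))) (fib_dim hϖ (Pres.Ix ι)))
  have qp : C ϖ ∈ q := q0 (Ideal.mem_span_singleton_self _)
  have q1 : ∀ i, de G i ∈ q := fun i => hE' (Sum.inr (Sum.inl i))
  have qw : ∀ a, w a ∈ q := fun a => hE' (Sum.inr (Sum.inr (Sum.inl a)))
  have q2 : ∀ a ∉ J, Z G (G.iτ a) 0 0 - 1 ∈ q ∧ Z G (G.iτ a) 0 1 ∈ q ∧
      Z G (G.iτ a) 1 0 ∈ q := fun a ha => by
    have := fun c => qw (a, c)
    simp only [w, if_neg ha] at this
    exact ⟨this 0, this 1, this 2⟩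
  have q3 : ∀ a ∈ J, (Z G (G.iτ a)).trace ∈ q ∧ (Z G (G.iφ a)).trace ∈ q ∧
      (Z G (G.iτ a) * Z G (G.iφ a)).trace ∈ q := fun a ha => by
    have := fun c => qw (a, c)
    simp only [w, if_pos ha] at this
    exact ⟨this 0, this 1, this 2⟩
  have l0 : L0 G ≤ q := Ideal.span_le.2 (by
    rintro _ (⟨i, rfl⟩ | rfl | rfl)
    · exact q1 i
    · exact hE' (Sum.inr (Sum.inr (Sum.inr 0)))
    · exact hE' (Sum.inr (Sum.inr (Sum.inr 1))))
  have hJq : Jac (dt G) ≤ q := hJ.trans (sup_le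
    (Ideal.span_le.2 (by rintro _ ⟨i, rfl⟩; exact hE' (Sum.inl i)))
    (sup_le (sup_le (sup_le q0 l0) (Ideal.span_le.2 (by
      rintro _ ⟨l, hl, h⟩
      have k := q2 l hl
      rcases h with rfl | rfl | rfl
      exacts [k.1, k.2.1, k.2.2]))) (Ideal.span_le.2 (by
      rintro _ (rfl | ⟨l, hl, h⟩)
      · exact hE' (Sum.inr (Sum.inr (Sum.inr 2)))
      · have k := q3 l hl
        rcases h with rfl | rfl | rfl
        exacts [k.1, k.2.1, k.2.2]))))
  have hN : ¬ NZ G ≤ q := fun h => ir' (by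
    rw [← map_mul]; exact hqθ (h (Ideal.subset_span ⟨i0, k0, rfl⟩)))
  refine ⟨q.comap φ, ⟨Ideal.comap_isPrime φ q, sup_le (sup_le (Ideal.map_le_iff_le_comap.1
    (hA O F S L _ K.g ι G ϖ X as Coef.ne hϖ hC.cx φ hφ q hq (sup_le hJq l0) (Or.inl qp)))
    ((Ideal.span_singleton_le_iff_mem _).2 (by rw [Ideal.mem_comap, hφ.c]; exact qp)))
    (Ideal.span_le.2 fun f hf => ?_), hφ.down ⊥ q hq bot_le hN 2 hd⟩, fun f hf => by
      rw [← cm]; exact hqθ hf⟩
  show φ f ∈ q
  rcases hf with ⟨a, ha, rfl | rfl | rfl⟩ | ⟨a, ha, hf⟩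
  · rw [hφ.tr]; exact (q3 a ha).1
  · rw [hφ.tr]; exact (q3 a ha).2.1
  · rw [hφ.tr2]; exact (q3 a ha).2.2
  obtain ⟨k1, k2, k3⟩ := q2 a ha
  rcases hf with (rfl | rfl) | ⟨k, rfl⟩ | ⟨k, rfl⟩
  · rw [map_sub, hφ.a, map_one]; exact k1
  · rw [map_sub, hφ.d, map_one]
    have k4 := q1 (G.iτ a)
    have k6 : C ((G.rc (G.iτ a)).det - 1) ∈ q := by
      have : (G.rc (G.iτ a)).det - 1 ∈ maximalIdeal O := by
        rw [← hC.cx.ok.ker, map_sub, map_one, RingHom.map_det, RingHom.mapMatrix_apply, Gs.rc,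
          hC.cx.ok.lift, hC.cx.ok.det, sub_self]
      rw [hϖ.maximalIdeal_eq] at this
      obtain ⟨d, hd⟩ := Ideal.mem_span_singleton'.1 this
      rw [← hd, map_mul]
      exact q.mul_mem_left _ qp
    rw [de, Matrix.det_fin_two] at k4
    rw [map_sub, map_one] at k6
    have k5 := q.sub_mem (q.add_mem (q.add_mem k4 k6) (q.mul_mem_right (Z G (G.iτ a) 1 0) k2))
      (q.mul_mem_right (Z G (G.iτ a) 1 1) k1)
    convert k5 using 1
    ring
  · show φ (xS G.rc id (G.iτ a) k) ∈ q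
    rw [hφ.xx]; exact q.mul_mem_right _ k2
  · show φ (xS G.rc id k (G.iτ a)) ∈ q
    rw [hφ.xx]; exact q.mul_mem_left _ k3

end Vale.Agent.P022G.Tr.H60
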