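import Vale.Agent.P022G.Tr.Pr2
import Vale.Agent.P022G.Tr.Phi
import Vale.Agent.P022G.Obs.Tr
import Vale.Agent.P022G.Pres.LoclT62
import Vale.Agent.P027M.F.Tra

/-!
# P022G: the dimension of the reducible locus
-/

set_option linter.all false

noncomputable section

namespace Vale.Agent.P022G.Tr

open NumberField IsLocalRing MvPowerSeries
open Vale.Agent.P022 Vale.Agent.P022G.R Vale.Agent.P022G.Loc Vale.Agent.P022.H443
open Vale.Agent.P027M.S (Inert mx)
open Vale.Agent.P022D.Sel (M2)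
open Vale.Agent.P022E.Loc (Pl Tm)
open Vale.Agent.P022E.GW (Ov H1)
open Vale.Agent.P022G.Pres (PP Dt Jac Un Adm Fn sep mxm mxi mxi' mx1 meml memr)
open Vale.Agent.P022G.Obs (Dz ac ac_def)
open scoped Pointwise

namespace R62

section
variable {O F ι : Type} [CommRing O] [IsLocalRing O] [Field F] [Fintype ι] {S : Dt O F ι}

theorem ent {ρ : GQ →* GL (Fin 2) F} (hz : Dz ρ ⊤) {T : Finset ℕ} {c : GQ → M2 F}
    (hc : c ∈ H1 ρ T ⊤) {u v : Fin 2} (huv : u ≠ v) :
    (fun g => Matrix.single u v (c g u v)) ∈ H1 ρ T ⊤ := by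
  obtain ⟨h1, -, ⟨U, hU, h3⟩, h4⟩ := hc
  refine ⟨fun g _ h _ => ?_, fun g k => absurd trivial k, ⟨U, hU, fun σ k => by simp [h3 σ k]⟩,
    fun l hl P hP g k => by simp [h4 l hl P hP g k]⟩
  beta_reduce
  rw [h1 g trivial h trivial, ← ac_def, ← ac_def, hz.acin trivial, hz.acin trivial]
  ext a b
  fin_cases u <;> fin_cases v <;> first | exact absurd rfl huv | skip
  all_goals fin_cases a <;> fin_cases b <;> simp

theorem core (hS : S.Ok) (r : GQ →* M2 O) (hr : ∀ g, (r g).map S.red = mx S.rb g)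
    (hδ : ∀ g, S.δ g = (r g).det) (hz : Dz S.rb ⊤) {J0 J : Ideal (PP O ι)}
    {ρ : GQ →* M2 (PP O ι ⧸ J0)} (hρ : Adm S (Ideal.Quotient.mk J0) ρ) (P : GQ → M2 (PP O ι))
    (p1 : ∀ g a b, Ideal.Quotient.mk J0 (P g a b) = ρ g a b)
    (p2 : ∀ g a b, S.π0 (P g a b) = mx S.rb g a b) (le : J0 ≤ J)
    (m2 : maximalIdeal (PP O ι) * maximalIdeal (PP O ι) ≤ J)
    (hm : ∀ c ∈ maximalIdeal O, (C c : PP O ι) ∈ J) {u v : Fin 2} (huv : u ≠ v)
    (hZ : ∀ i, S.Z i u v ∈ J) {κ : Type} (g : κ → GQ)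
    (hg : ∀ t, (P (g t) - (r (g t)).map C : M2 (PP O ι)) 0 0 ∈ J ∧
      (P (g t) - (r (g t)).map C : M2 (PP O ι)) v u ∈ J)
    (big : ∀ c ∈ H1 S.rb S.T ⊤, (∀ t, c (g t) = 0) → c = 0) : maximalIdeal (PP O ι) ≤ J := by
  intro x hx
  by_contra n
  obtain ⟨lam, hl, l0, l1⟩ := sep hS.sur (I := maximalIdeal (PP O ι)) (I' := J)
    (fun b hb y hy => m2 (Ideal.mul_mem_mul (hS.max.1 hb) hy)) hx n
  let K : GQ → M2 (PP O ι) := fun s => (r s).map C
  have k0 : ∀ s, (K s).map S.π0 = mx S.rb s := fun s => by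
    rw [← hr]
    ext a b
    simp [K, Dt.π0]
  have k1 : ∀ s a b, S.π0 (K s a b) = mx S.rb s a b := fun s a b => congrFun (congrFun (k0 s) a) b
  have km : ∀ s t, K (s * t) = K s * K t := fun s t => by
    simp only [K, map_mul, Matrix.map_mul]
  obtain ⟨D, hD⟩ : ∃ D : GQ → M2 (PP O ι), ∀ s, D s = P s - K s := ⟨_, fun _ => rfl⟩
  have dm : ∀ s a b, D s a b ∈ maximalIdeal (PP O ι) := fun s a b => hS.max.1 (by
    rw [hD, Matrix.sub_apply, map_sub, p2, k1, sub_self])
  have cg : ∀ {y z}, y ∈ maximalIdeal (PP O ι) → z ∈ maximalIdeal (PP O ι) → y - z ∈ J →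
      lam y = lam z := fun hy hz h => by
    rw [← sub_eq_zero, ← hl.sub hy hz]; exact l0 _ (sub_mem hy hz) h
  have pe : ∀ s (M : M2 (PP O ι)), M.map (Ideal.Quotient.mk J0) = ρ s →
      ∀ a b, (P s - M) a b ∈ J := fun s M h a b => le (Ideal.Quotient.eq.1 (by
    rw [p1, ← h]; rfl))
  have pm : ∀ s, (P s).map (Ideal.Quotient.mk J0) = ρ s := fun s => Matrix.ext (p1 s)
  let b : GQ → M2 F := fun s => (D s).map lam
  have bm : ∀ s t, b (s * t) = mx S.rb s * b t + b s * mx S.rb t := fun s t => by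
    rw [← k0 s, ← k0 t, ← hl.mull _ (dm t), ← hl.mulr (dm s),
      ← hl.addm (meml _ (dm t)) (memr (dm s) _)]
    ext a c
    refine cg (dm _ a c) (add_mem (meml _ (dm t) a c) (memr (dm s) _ a c)) ?_
    have e : D (s * t) - (K s * D t + D s * K t) = (P (s * t) - P s * P t) + D s * D t := by
      rw [hD, hD, hD, km]; noncomm_ring
    rw [← Matrix.sub_apply, e, Matrix.add_apply, Matrix.mul_apply]
    exact add_mem (pe _ _ (by rw [Matrix.map_mul, pm, pm, map_mul]) a c)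
      (sum_mem fun d _ => m2 (Ideal.mul_mem_mul (dm _ _ _) (dm _ _ _)))
  have cm : ∀ o o' : O, S.red o = S.red o' → (C o - C o' : PP O ι) ∈ J := fun o o' h => by
    rw [← map_sub]; exact hm _ ((hS.ker _).1 (by rw [map_sub, h, sub_self]))
  have b1 : ∀ s, ρ s = 1 → S.rb s = 1 → b s = 0 := fun s h h' => by
    ext a c
    refine l0 _ (dm s a c) ?_
    have e1 := pe s ((1 : M2 O).map C) (by
      rw [h, Matrix.map_one _ (map_zero _) (map_one _), Matrix.map_one _ (map_zero _) (map_one _)])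
      a c
    have e2 := cm ((1 : M2 O) a c) (r s a c) (by
      have := congrFun (congrFun (hr s) a) c
      rw [show mx S.rb s = 1 from congrArg Units.val h'] at this
      rw [show S.red (r s a c) = _ from this, Matrix.one_apply, Matrix.one_apply]
      split_ifs <;> simp)
    have := add_mem e1 e2
    rw [hD]
    convert this using 1
    simp only [K, Matrix.sub_apply, Matrix.map_apply]
    ring
  let c : GQ → M2 F := fun s => b s * mx S.rb s⁻¹
  have hc : c ∈ H1 S.rb S.T ⊤ := by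
    refine ⟨fun s _ t _ => ?_, fun s k => absurd trivial k, ?_, fun l h Q hQ s k => ?_⟩
    · simp only [c]
      rw [bm, mul_inv_rev, mxm, add_mul, add_comm, mul_assoc (b s), ← mul_assoc (mx S.rb t), mxi,
        one_mul]
      simp only [mul_assoc]
    · refine ⟨ρ.toHomUnits.ker ⊓ S.rb.ker, IsOpen.inter ?_ hS.opn, fun s k => ?_⟩
      · convert hρ.opn using 1
        exact Set.ext fun s => Units.ext_iff
      · simp only [c]
        rw [b1 s (congrArg Units.val k.1) k.2, zero_mul]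
    · simp only [c]
      rw [b1 s (hρ.unr l h Q hQ s k) (hS.unr l h Q hQ s k), zero_mul]
  have ce : ∀ s a d, c s a d = b s a d * mx S.rb s⁻¹ d d := fun s a d => by
    obtain ⟨e1, e2⟩ := hz.dg s⁻¹ trivial
    simp only [c, Matrix.mul_apply, Fin.sum_univ_two]
    fin_cases d <;> simp [e1, e2]
  have nz : ∀ s d, mx S.rb s d d ≠ 0 := fun s d => by
    obtain ⟨e1, e2⟩ := hz.in1 (g := s) trivial
    fin_cases d
    · exact left_ne_zero_of_mul_eq_one e1
    · exact left_ne_zero_of_mul_eq_one e2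
  have bz : ∀ i a d, b (S.gam i) a d = lam (X (i, a, d)) := fun i a d => by
    refine cg (dm _ a d) (hS.max.1 (by simp [Dt.π0])) ?_
    have := add_mem (pe _ (S.Z i) (hρ.gen i).symm a d) (cm (S.c0 i a d) (r (S.gam i) a d) (by
      rw [show S.red (r (S.gam i) a d) = _ from congrFun (congrFun (hr _) a) d]
      exact congrFun (congrFun (hS.lift i) a) d))
    rw [hD]
    convert this using 1
    simp only [K, Dt.Z, Matrix.sub_apply, Matrix.of_apply, Matrix.map_apply]
    ring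
  have off : ∀ s, mx S.rb s u v = 0 := fun s => by
    fin_cases u <;> fin_cases v <;> first | exact absurd rfl huv | skip
    · exact (hz.dg s trivial).1
    · exact (hz.dg s trivial).2
  have c1 : ∀ s, c s u v = 0 := fun s => by
    have := congrFun (hS.gen _ (ent hz hc huv) fun i => by
      have e : b (S.gam i) u v = 0 := by
        rw [bz]
        refine l0 _ (hS.max.1 (by simp [Dt.π0])) ?_
        have := sub_mem (hZ i) (hm (S.c0 i u v) ((hS.ker _).1
          ((congrFun (congrFun (hS.lift i) u) v).trans (off _))))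
        simpa [Dt.Z] using this
      simp [ce, e]) s
    simpa using congrFun (congrFun this u) v
  have dt : ∀ s, b s 0 0 = 0 → b s 1 1 = 0 := fun s h => by
    have e1 : (P s).det - (K s).det ∈ J := le (Ideal.Quotient.eq.1 (by
      rw [RingHom.map_det, RingHom.mapMatrix_apply, pm, hρ.det, hδ, RingHom.map_det]; rfl))
    have mm : ∀ y a d, y * D s a d ∈ maximalIdeal (PP O ι) := fun y a d =>
      Ideal.mul_mem_left _ _ (dm s a d)
    have e2 := cg (add_mem (mm (K s 0 0) 1 1) (mm (K s 1 1) 0 0))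
      (add_mem (mm (K s 0 1) 1 0) (mm (K s 1 0) 0 1)) (by
        have := sub_mem e1 (sub_mem (m2 (Ideal.mul_mem_mul (dm s 0 0) (dm s 1 1)))
          (m2 (Ideal.mul_mem_mul (dm s 0 1) (dm s 1 0))))
        convert this using 1
        simp only [Matrix.det_fin_two, hD, Matrix.sub_apply]
        ring)
    rw [hl.add _ (mm _ _ _) _ (mm _ _ _), hl.add _ (mm _ _ _) _ (mm _ _ _), hl.mul _ _ (dm _ _ _),
      hl.mul _ _ (dm _ _ _), hl.mul _ _ (dm _ _ _), hl.mul _ _ (dm _ _ _), k1, k1, k1, k1,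
      (hz.dg s trivial).1, (hz.dg s trivial).2, show lam (D s 0 0) = 0 from h] at e2
    simp only [mul_zero, zero_mul, add_zero] at e2
    exact (mul_eq_zero.1 e2).resolve_left (nz s 0)
  have c0 := big c hc fun t => by
    have a0 : b (g t) 0 0 = 0 := l0 _ (dm _ _ _) (hD _ ▸ (hg t).1)
    have a1 : c (g t) v u = 0 := by
      rw [ce, show b (g t) v u = 0 from l0 _ (dm _ _ _) (hD _ ▸ (hg t).2), zero_mul]
    have a2 := c1 (g t)
    have a3 : c (g t) 0 0 = 0 := by rw [ce, a0, zero_mul]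
    have a4 : c (g t) 1 1 = 0 := by rw [ce, dt _ a0, zero_mul]
    ext a d
    fin_cases u <;> fin_cases v <;> first | exact absurd rfl huv | skip
    all_goals fin_cases a <;> fin_cases d <;> assumption
  have lx : ∀ s, lam (X s) = 0 := fun ⟨i, a, d⟩ => by
    have := ce (S.gam i) a d
    rw [c0, bz] at this
    exact (mul_eq_zero.1 this.symm).resolve_right (nz _ d)
  obtain ⟨w, hw⟩ := P022D.L2b.decomp x
  have xm : ∀ s, (X s : PP O ι) ∈ maximalIdeal (PP O ι) := fun s => hS.max.1 (by simp [Dt.π0])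
  have := cg hx (sum_mem fun s (_ : s ∈ Finset.univ) => Ideal.mul_mem_left _ (w s) (xm s)) (by
    have := hm _ ((P022D.L2b.mem_max_iff x).1 hx)
    convert this using 1
    simp only [mul_comm (w _)]
    exact sub_eq_of_eq_add hw)
  rw [l1, hl.sum _ _ fun s => Ideal.mul_mem_left _ _ (xm s)] at this
  simp [hl.mul _ _ (xm _), lx] at this

end

theorem big2 {F : Type} [Field F] [CharP F 2] {ρ : GQ →* GL (Fin 2) F} {T X : Finset ℕ}
    {P : ℕ → Ideal (𝓞 Qb)} {τ φ : ℕ → GQ} (hP : ∀ a ∈ X, Ov a (P a))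
    (tm : ∀ a ∈ X, Tm a (P a) (τ a) (φ a))
    (h1 : ∀ a ∈ X, ∀ Q, Ov a Q → ∀ s, Inert Q s → mx ρ s = 1) {c : GQ → M2 F}
    (hc : c ∈ H1 ρ T ⊤) (h0 : ∀ a ∈ X, c (τ a) = 0) : c ∈ H1 ρ (T \ X) ⊤ := by
  refine ⟨hc.1, hc.2.1, hc.2.2.1, fun l hl Q hQ s hs => ?_⟩
  by_cases hT : l ∈ T
  swap
  · exact hc.2.2.2 l hT Q hQ s hs
  have hX : l ∈ X := by
    by_contra n
    exact hl (Finset.mem_sdiff.2 ⟨hT, n⟩)
  have ad : ∀ x ∈ inP (P l), ∀ y, c (x * y) = c x + c y := fun x hx y => by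
    rw [hc.1 x trivial y trivial, h1 l hX _ (hP l hX) x hx,
      h1 l hX _ (hP l hX) x⁻¹ ((inP (P l)).inv_mem hx), one_mul, mul_one]
  have c1 : c 1 = 0 := by
    have := ad 1 (one_mem _) 1
    rw [mul_one] at this
    exact left_eq_add.1 this
  have pw : ∀ x ∈ inP (P l), ∀ n : ℕ, c (x ^ n) = n • c x := fun x hx n => by
    induction n with
    | zero => rw [pow_zero, c1, zero_smul]
    | succ n ih => rw [pow_succ', ad x hx, ih, succ_nsmul']
  have z : ∀ x ∈ inP (P l), c x = 0 := fun x hx => by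
    have := galQb
    obtain ⟨V, hV, v0⟩ := hc.2.2.1
    obtain ⟨U, hU⟩ := ProfiniteGrp.exist_openNormalSubgroup_sub_open_nhds_of_one hV V.one_mem
    haveI := U.isNormal'
    obtain ⟨N, h⟩ := (tm l hX).tame _ (QuotientGroup.mk' U.toSubgroup) (by
      convert U.isOpen' using 1
      ext x
      exact QuotientGroup.eq_one_iff x)
    obtain ⟨j, p, hp, rfl⟩ := h.cyc x hx
    obtain ⟨m, ⟨k, rfl⟩, e⟩ := h.odd p hp
    rw [← map_pow] at e
    have e1 := v0 _ (hU ((QuotientGroup.eq_one_iff _).1 e))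
    rw [pw p (h.NI hp), add_nsmul, one_nsmul, mul_nsmul', two_nsmul, Obs.two_m, zero_add] at e1
    rw [ad _ (pow_mem h.tau j), pw _ h.tau, h0 l hX, smul_zero, e1, add_zero]
  obtain ⟨g, rfl⟩ := P027M.F.Tra.trans hQ.1 (hP l hX).2.1 hQ.2.1 (hP l hX).2.2 hQ.2.2
  have m : g⁻¹ * s * g ∈ inP (P l) := fun x => by
    have := hs (g • x)
    rw [← Ideal.smul_mem_pointwise_smul_iff (a := g), smul_sub, smul_smul,
      show g * (g⁻¹ * s * g) = s * g by group, mul_smul]
    exact this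
  have e := hc.1 g trivial (g⁻¹ * s * g * g⁻¹) trivial
  have e' := hc.1 g trivial g⁻¹ trivial
  rw [ad _ m, z _ m, zero_add, ← e', mul_inv_cancel, c1,
    show g * (g⁻¹ * s * g * g⁻¹) = s by group] at e
  exact e

variable {O F : Type} [CommRing O] [IsLocalRing O] [Field F] [CharP F 2] {S : Dat O F} {L : Pl O}
  {κ : Type} {gk : κ → GQ} {ι : Type} (G : Gs S L gk ι)

theorem one_of (hL : OkG L S) (hH : L.H = ⊤) {g : GQ} (h : (mx S.rb g).trace = 0) :
    mx S.rb g = 1 := by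
  obtain ⟨a, b⟩ := hL.dh.dg g (hH ▸ trivial)
  have c := Pr.eq_of_tr h
  have d := hL.det g
  rw [Matrix.det_fin_two, a, c, zero_mul, sub_zero, mul_self_eq_one_iff, CharTwo.neg_eq,
    or_self] at d
  ext i j
  fin_cases i <;> fin_cases j <;> simp [a, b, c, d]

theorem lt_le (hL : OkG L S) (hH : L.H = ⊤) (hS : (dt G).Ok) {J : Ideal (PP O ι)}
    (h0 : L0 G ≤ J) (m2 : maximalIdeal (PP O ι) * maximalIdeal (PP O ι) ≤ J)
    (hm : ∀ c ∈ maximalIdeal O, (C c : PP O ι) ∈ J) : Lt G Finset.univ ≤ J := by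
  have two : (2 : PP O ι) ∈ J := by
    have := hm 2 (Pres.T62.two_mem hS)
    rwa [map_ofNat] at this
  have y : ∀ i, mx S.rb (G.γ i) = 1 → Z G i 0 0 - 1 ∈ maximalIdeal (PP O ι) ∧
      Z G i 1 1 - 1 ∈ maximalIdeal (PP O ι) ∧ Z G i 0 1 ∈ maximalIdeal (PP O ι) ∧
      Z G i 1 0 ∈ maximalIdeal (PP O ι) := fun i h => by
    refine ⟨hS.max.1 ?_, hS.max.1 ?_, hS.max.1 ?_, hS.max.1 ?_⟩ <;> simp [Pr.piz G hS, h]
  have t : ∀ i, mx S.rb (G.γ i) = 1 → (Z G i).trace ∈ J := fun i h => by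
    obtain ⟨a, b, c, d⟩ := y i h
    have e1 : de G i ∈ J := h0 (Ideal.subset_span (Or.inl ⟨i, rfl⟩))
    have e2 := hm ((G.rc i).det - 1) ((hL.ker _).1 (by
      rw [map_sub, map_one, RingHom.map_det, RingHom.mapMatrix_apply, Gs.rc, hL.lift, hL.det,
        sub_self]))
    have := add_mem (sub_mem (add_mem (add_mem two e1) e2) (m2 (Ideal.mul_mem_mul a b)))
      (m2 (Ideal.mul_mem_mul c d))
    convert this using 1
    rw [de, map_sub, map_one, Matrix.det_fin_two (Z G i), Matrix.trace_fin_two]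
    ring
  have hτ : ∀ l : L.C, mx S.rb (G.γ (G.iτ l)) = 1 := fun l => by
    rw [G.hτ]; exact Pr.tau_one hL l.2
  have hφ : ∀ l : L.C, mx S.rb (G.γ (G.iφ l)) = 1 := fun l => by
    rw [G.hφ]; exact one_of hL hH (hL.uni l l.2 _ (Pr.phi_dec hL l.2))
  refine Ideal.span_le.2 ?_
  rintro f (rfl | ⟨l, -, rfl | rfl | rfl⟩)
  · exact t _ (by rw [G.hc]; exact one_of hL hH (Pr.tr_c hL))
  · exact t _ (hτ l)
  · exact t _ (hφ l)
  · obtain ⟨a, b, c, d⟩ := y _ (hτ l)
    obtain ⟨a', b', c', d'⟩ := y _ (hφ l)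
    have := add_mem (add_mem (sub_mem (add_mem (add_mem (add_mem (m2 (Ideal.mul_mem_mul a a'))
      (m2 (Ideal.mul_mem_mul b b'))) (t _ (hτ l))) (t _ (hφ l))) two)
      (m2 (Ideal.mul_mem_mul c d'))) (m2 (Ideal.mul_mem_mul d c'))
    rw [SetLike.mem_coe]
    convert this using 1
    simp only [Matrix.trace_fin_two, Matrix.mul_apply, Fin.sum_univ_two]
    ring

end R62

open R62 P022D.CA in
/-- **row RED** -/
theorem redH62 (hD : DOK) : RED := by
  intro O F _ _ _ _ _ _ _ S L κ gk ι _ G ϖ X as h2 hϖ hx hz hH I hI hπ h0 hJ hdim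
  classical
  have hS := hD O F S L κ gk ι G ϖ X as h2 hϖ hx
  have hL := hx.ok
  haveI : IsNoetherianRing (PP O ι) := inferInstance
  obtain ⟨k, g, hk, big⟩ := hz.big
  obtain ⟨-, ρ, hρ⟩ := Pres.go_jac hS 2
  choose P p1 p2 using hρ.res
  obtain ⟨p, hp, le, hd⟩ := dimGE_prime hdim
  obtain ⟨u, v, huv, hZ⟩ : ∃ u v : Fin 2, u ≠ v ∧ ∀ i, Z G i u v ∈ p := by
    by_cases h : ∀ i, Z G i 0 1 ∈ p
    · exact ⟨0, 1, by decide, h⟩
    · push Not at h
      obtain ⟨i, hi⟩ := h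
      exact ⟨1, 0, by decide, fun j => (hp.mem_or_mem
        (le (Ideal.mem_sup_right (Ideal.subset_span ⟨i, j, rfl⟩)))).resolve_left hi⟩
  let γ : Fin k ⊕ X → GQ := Sum.elim g fun a => L.τ a
  let D : GQ → M2 (PP O ι) := fun s => Matrix.of (P s) - (L.r s).map C
  have dm : ∀ s a b, D s a b ∈ maximalIdeal (PP O ι) := fun s a b => hS.max.1 (by
    show (dt G).π0 (P s a b - C (L.r s a b)) = 0
    rw [map_sub, p2, sub_eq_zero]
    have := congrFun (congrFun (hL.lift s) a) b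
    simpa [Pres.Dt.π0, dt] using this.symm)
  let fs : List (PP O ι) := (Finset.univ.toList.map fun t => D (γ t) 0 0) ++
    (Finset.univ.toList.map fun t => D (γ t) v u)
  have h1 := dimGE_ofList fs (I := p) (k := 1) (fun f hf => by
    simp only [fs, List.mem_append, List.mem_map] at hf
    rcases hf with ⟨t, -, rfl⟩ | ⟨t, -, rfl⟩ <;> exact dm _ _ _) (le_trans (by
      simp only [fs, List.length_append, List.length_map, Finset.length_toList, Finset.card_univ,
        Fintype.card_sum, Fintype.card_fin, Fintype.card_coe]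
      exact_mod_cast (by omega)) hd)
  obtain ⟨q, hq, lq, dq⟩ := dimGE_prime h1
  have iq : I ≤ q ⊔ maximalIdeal (PP O ι) * maximalIdeal (PP O ι) :=
    ((le_sup_left.trans le).trans (le_sup_left.trans lq)).trans le_sup_left
  have hm : ∀ c ∈ maximalIdeal O,
      (C c : PP O ι) ∈ q ⊔ maximalIdeal (PP O ι) * maximalIdeal (PP O ι) := fun c hc => by
    rw [hϖ.maximalIdeal_eq, Ideal.mem_span_singleton] at hc
    obtain ⟨d, rfl⟩ := hc
    rw [map_mul]
    exact Ideal.mul_mem_right _ _ (iq hπ)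
  have fq : ∀ f ∈ fs, f ∈ q ⊔ maximalIdeal (PP O ι) * maximalIdeal (PP O ι) := fun f hf =>
    Ideal.mem_sup_left (lq (Ideal.mem_sup_right (Ideal.subset_span hf)))
  have key := core (S := dt G) hS L.r hL.lift (fun _ => rfl)
    ⟨fun g _ => hL.dh.dg g (hH ▸ trivial), fun g h => absurd trivial h, hL.dh.opn⟩ hρ
    (fun s => Matrix.of (P s)) p1 p2
    (sup_le (hJ.trans (sup_le iq (lt_le G hL hH hS (h0.trans iq) le_sup_right hm)))
      (by rw [pow_two]; exact le_sup_right)) le_sup_right hm huv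
    (fun i => Ideal.mem_sup_left (lq (Ideal.mem_sup_left (hZ i)))) γ
    (fun t => ⟨fq _ (by simp [fs, D]), fq _ (by simp [fs, D])⟩)
    fun c hc h => big c (big2 (P := L.P) (φ := L.φ) (fun a ha => Pr.ov hL (hx.sub ha))
      (fun a ha => hL.tm a (Finset.mem_union_right _ (hx.sub ha))) (fun a ha Q hQ s hs => by
        rw [← hL.lift, hx.unr a hQ.1 (Or.inr ha) Q hQ.2.1 hQ.2.2 s hs,
          Matrix.map_one _ (map_zero _) (map_one _)]) hc fun a ha => h (Sum.inr ⟨a, ha⟩))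
      fun i => h (Sum.inl i)
  have mq : maximalIdeal (PP O ι) ≤ q := Submodule.le_of_le_smul_of_le_jacobson_bot
    (IsNoetherian.noetherian _) (IsLocalRing.maximalIdeal_le_jacobson _) key
  obtain rfl : q = maximalIdeal (PP O ι) := le_antisymm (le_maximalIdeal hq.ne_top) mq
  rw [ringKrullDim_eq_zero_of_isField
    ((Ideal.Quotient.maximal_ideal_iff_isField_quotient _).1 inferInstance)] at dq
  exact absurd dq (by decide)

end Vale.Agent.P022G.Tr
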