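import Vale.Agent.P022G.Rows
import Vale.Agent.P022G.Tr.Defs

/-!
# P022G: the rows on the ring of traces with a large set of auxiliary primes
-/

set_option linter.all false

noncomputable section

namespace Vale.Agent.P022G

open IsLocalRing MvPowerSeries
open Vale.Agent.P022 Vale.Agent.P022G.R Vale.Agent.P022G.Loc
open Vale.Agent.P022D.Core (PS Coef)
open Vale.Agent.P022E.Loc (Pl)
open Vale.Agent.P022E.As (Out2)
open Vale.Agent.P022G.Chain (Pd Cn)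

def PRESC2 : Prop := All fun O F _ _ _ _ _ _ _ ϖ S L X as β τ ι' _ _ _ K ι _ G => Tr.Cz S X →
  ∀ (J : Finset L.C) (p : Ideal (PS O (Sy ι))), Chain.Cv p → G.IT ϖ J ≤ p → G.Irr p →
    ∃ E, Pd (G.IT ϖ J) 2 E ∧ E ≤ p

def CONNJ2 : Prop := All fun O F _ _ _ _ _ _ _ ϖ S L X as β τ ι' _ _ _ K ι _ G => Tr.Cz S X →
  ∀ J : Finset L.C, (∀ a : L.C, (a : ℕ) ∈ X → a ∈ J) → Cn (G.IT ϖ J) 1

def ZED2 : Prop := All fun O F _ _ _ _ _ _ _ ϖ S L X as β τ ι' _ _ _ K ι _ G => Tr.Cz S X →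
  ∃ Z, Pd G.aG 3 Z ∧ (∀ a : L.C, (a : ℕ) ∈ X → tauP G.rc id (G.iτ a) ⊆ Z) ∧
    ∀ f ∈ Z, constantCoeff f = 0

/-- **the Galois side** -/
def L2G2 : Prop := ∀ (O F : Type) [CommRing O] [IsDomain O] [IsDiscreteValuationRing O] [Coef O]
  [Field F] [Finite F] [CharP F 2] (ϖ : O) (S : Dat O F) (L : Pl O) (X : Finset ℕ) (as : ℕ),
  Irreducible ϖ → Cy S L X as → Tr.Cz S X →
  AllF ϖ S L S.T fun I Y0 W0 _ _ _ _ iJ =>
    AllF ϖ S (subL L X) (S.T \ X) fun I' Y0' W0' _ _ _ _ iJ' =>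
      (∀ J : Finset L.C, (∀ a ∈ J, (a : ℕ) ∉ X) →
        P022G.Tr O (Y0 (iJ J)) (Y0' (iJ' (resJ X J)))) →
      Out2 ϖ (subL L X) W0'

end Vale.Agent.P022G
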