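import Vale.Agent.P022G.Tr.Rows2
import Vale.Agent.P022G.Tr.Frp
import Vale.Agent.P022G.Tr.Dok
import Vale.Agent.P022G.Tor2

/-! # P022G: the component in characteristic zero through the point -/

set_option linter.all false

noncomputable section

namespace Vale.Agent.P022G.Tr

open NumberField IsLocalRing MvPowerSeries
open Vale.Agent.P022 Vale.Agent.P022G.R Vale.Agent.P022G.Loc
open Vale.Agent.P027M.S (Inert mx)
open Vale.Agent.P022D.Sel (M2)
open Vale.Agent.P022D.Core (PS Coef)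
open Vale.Agent.P022E.Loc (Pl)
open Vale.Agent.P022G.Pres (Dt Jac Un Adm pm pm_apply pm_one)

namespace Zed

/-- the matrices with a vanishing off-diagonal entry -/
def tri (A : Type) [CommRing A] {a b : Fin 2} (hab : a ≠ b) : Submonoid (M2 A)ˣ where
  carrier := {x | (x : M2 A) a b = 0}
  one_mem' := Matrix.one_apply_ne hab
  mul_mem' := by
    intro x y hx hy
    have hx' : (x : M2 A) a b = 0 := hx
    have hy' : (y : M2 A) a b = 0 := hy
    show ((x : M2 A) * (y : M2 A)) a b = 0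
    rw [Matrix.mul_apply]
    refine Finset.sum_eq_zero fun c _ => ?_
    rcases (by omega : c = a ∨ c = b) with rfl | rfl
    · rw [hy', mul_zero]
    · rw [hx', zero_mul]

variable {O F : Type} [CommRing O] [IsDomain O] [IsDiscreteValuationRing O] [Coef O] [Field F]
  [CharP F 2] {S : Dat O F} {L : Pl O} {X : Finset ℕ} {as : ℕ} {κ : Type} {gk : κ → GQ}
  {ι : Type}

theorem un (hC : Cx S L X as) : Un S.T L.r :=
  fun l hl P hP g hg => hC.unr l hP.1 (Or.inl hl) P hP.2.1 hP.2.2 g hg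

theorem off (hC : Cx S L X as) (G : Gs S L gk ι) {a b : Fin 2} (hab : a ≠ b)
    (h : ∀ i, L.r (G.γ i) a b = 0) (g : GQ) : L.r g a b = 0 := by
  have h0 := Ideal.iInf_pow_eq_bot_of_isLocalRing (maximalIdeal O) (maximalIdeal.isMaximal O).ne_top
  rw [← Ideal.mem_bot, ← h0, Ideal.mem_iInf]
  intro N
  have hfin : Finite (O ⧸ maximalIdeal O ^ N) :=
    haveI : Finite (O ⧸ maximalIdeal O) := (Coef.fin : Finite (ResidueField O))
    Ideal.finite_quotient_pow (IsNoetherian.noetherian _) N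
  let f := (pm (Ideal.Quotient.mk (maximalIdeal O ^ N)) L.r).toHomUnits
  have hf : ∀ g, f g = 1 ↔ (L.r g).map (Ideal.Quotient.mk (maximalIdeal O ^ N)) = 1 :=
    fun g => Units.ext_iff
  have k := G.gen 0 Fin.elim0 Fin.elim0 (fun i => i.elim0) _ f
    (by
      have : {g : GQ | f g = 1} =
        {g | (L.r g).map (Ideal.Quotient.mk (maximalIdeal O ^ N)) = 1} := Set.ext hf
      rw [this]
      exact hC.ok.cont N)
    (fun g hg => ⟨N, by
      rw [← map_pow, hf, map_pow]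
      have k1 : ∀ a b, (L.r g - 1 : M2 O) a b ∈ maximalIdeal O := by
        intro a b
        rw [← hC.ok.ker, Matrix.sub_apply, map_sub]
        have e : S.red (L.r g a b) = mx S.rb g a b := congrFun (congrFun (hC.ok.lift g) a) b
        rw [e, Dok.mx_one S.rb hg, Matrix.one_apply, Matrix.one_apply, apply_ite S.red,
          map_one, map_zero, sub_self]
      ext a b
      have k5 := Ideal.pow_le_pow_right (Nat.le_succ N) (Frp.pow_step Coef.two k1 N a b)
      rw [Matrix.sub_apply, ← Ideal.Quotient.eq] at k5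
      rw [Matrix.map_apply, k5, Matrix.one_apply, Matrix.one_apply, apply_ite
        (Ideal.Quotient.mk _), map_one, map_zero]⟩)
    (fun l hl hT _ Q hQ hlQ s hs => (hf s).2 (by
      rw [un hC l hT Q ⟨hl, hQ, hlQ⟩ s hs, Matrix.map_one _ (map_zero _) (map_one _)])) g
  rw [← Subgroup.mem_toSubmonoid, Subgroup.closure_toSubmonoid_of_finite] at k
  have k2 : f g ∈ tri _ hab := by
    refine (Submonoid.closure_le.2 ?_ : _ ≤ tri _ hab) k
    rintro _ ⟨i, rfl⟩
    rcases i with i | i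
    · show Ideal.Quotient.mk _ (L.r (G.γ i) a b) = 0
      rw [h i, map_zero]
    · exact i.elim0
  exact Ideal.Quotient.eq_zero_iff_mem.1 k2

theorem trc (hC : Cx S L X as) : (L.r L.c).trace = 0 := by
  have h1 : L.c * L.c = 1 := by
    obtain ⟨φ, hφ⟩ := hC.ok.cj
    refine AlgEquiv.ext fun x => φ.injective ?_
    rw [AlgEquiv.mul_apply, hφ, hφ, starRingEnd_self_apply]
    rfl
  have h2 : L.r L.c * L.r L.c = 1 := by rw [← map_mul, h1, map_one]
  have h3 := hC.ok.odd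
  generalize L.r L.c = M at h2 h3
  have a := congrFun (congrFun h2 0) 0
  have b := congrFun (congrFun h2 0) 1
  have c := congrFun (congrFun h2 1) 0
  have d := congrFun (congrFun h2 1) 1
  simp only [Matrix.mul_apply, Fin.sum_univ_two, Matrix.one_apply_eq, ne_eq, zero_ne_one,
    one_ne_zero, not_false_eq_true, Matrix.one_apply_ne] at a b c d
  rw [Matrix.det_fin_two] at h3
  rw [Matrix.trace_fin_two]
  linear_combination M 0 0 * (a + h3) + M 1 0 * b - (M 0 0 + M 1 1) * a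

theorem exphi [Fintype ι] (hC : Cx S L X as) (G : Gs S L gk ι) :
    ∃ φ : PS O (Sy ι) →+* Pres.PP O ι, IsPhi G φ := by
  haveI : IsAdicComplete (maximalIdeal O) O := Coef.cpl
  haveI : IsAdicComplete (maximalIdeal (Pres.PP O ι)) (Pres.PP O ι) := P022D.CA.Cpl.isAdicCompleteV Coef.cpl
  have e : ∀ i a b, S.red (constantCoeff (Z G i a b)) = S.red (G.rc i a b) := fun i a b => by
    have k1 : S.red (c0 G i a b) = mx S.rb (G.γ i) a b :=
      congrFun (congrFun (Dok.lift hC G i) a) b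
    have k2 : S.red (G.rc i a b) = mx S.rb (G.γ i) a b :=
      congrFun (congrFun (hC.ok.lift (G.γ i)) a) b
    show S.red (constantCoeff (C (c0 G i a b) + MvPowerSeries.X (i, a, b))) = _
    rw [map_add, constantCoeff_C, constantCoeff_X, add_zero, k1, k2]
  obtain ⟨φ, h1, h2⟩ := P022G.Conn.exists_ev (ι := Sy ι) (maximalIdeal (Pres.PP O ι))
    (C : O →+* Pres.PP O ι) (sv G.rc C (Z G)) (fun s => by
      rw [P022D.CA.Cpl.mem_max_iff, ← hC.ok.ker]
      rcases s with i | i | ⟨i, k⟩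
      · show S.red (constantCoeff (Z G i 0 0 - C (G.rc i 0 0))) = 0
        rw [map_sub, map_sub, e, constantCoeff_C, sub_self]
      · show S.red (constantCoeff (Z G i 1 1 - C (G.rc i 1 1))) = 0
        rw [map_sub, map_sub, e, constantCoeff_C, sub_self]
      · show S.red (constantCoeff (Z G i 0 1 * Z G k 1 0 - C (G.rc i 0 1 * G.rc k 1 0))) = 0
        rw [map_sub, map_sub, map_mul, map_mul, e, e, constantCoeff_C, map_mul, sub_self])
  exact ⟨φ, h1, h2⟩

section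
variable {G : Gs S L gk ι} {φ : PS O (Sy ι) →+* Pres.PP O ι}

theorem pa (h : IsPhi G φ) (i : ι) : φ (aS G.rc id i) = Z G i 0 0 := by
  rw [aS, map_add, h.c, h.x]; exact add_sub_cancel _ _

theorem pd (h : IsPhi G φ) (i : ι) : φ (dS G.rc id i) = Z G i 1 1 := by
  rw [dS, map_add, h.c, h.x]; exact add_sub_cancel _ _

theorem px (h : IsPhi G φ) (i k : ι) : φ (xS G.rc id i k) = Z G i 0 1 * Z G k 1 0 := by
  rw [xS, map_add, h.c, h.x]; exact add_sub_cancel _ _

theorem dn [Fintype ι] (h : IsPhi G φ) (I : Ideal (Pres.PP O ι)) : Trc.Down φ I (NZ G) 1 := by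
  have e : ∀ i a b, (MvPowerSeries.X (i, a, b) : Pres.PP O ι) = Z G i a b - C (c0 G i a b) :=
    fun i a b => (add_sub_cancel_left _ _).symm
  refine Tor.down (fun i => Z G i 0 1) (fun i => Z G i 1 0) (fun o => ⟨C o, h.c o⟩)
    (fun i k => ⟨_, px h i k⟩) (fun s => ?_) I
  obtain ⟨i, a, b⟩ := s
  rw [e]
  fin_cases a <;> fin_cases b
  · exact ⟨aS G.rc id i - C (c0 G i 0 0), Or.inl (by rw [map_sub, pa h, h.c]; rfl)⟩
  · exact ⟨-C (c0 G i 0 1), Or.inr ⟨i, Or.inl (by rw [map_neg, h.c]; exact sub_eq_neg_add _ _)⟩⟩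
  · exact ⟨-C (c0 G i 1 0), Or.inr ⟨i, Or.inr (by rw [map_neg, h.c]; exact sub_eq_neg_add _ _)⟩⟩
  · exact ⟨dS G.rc id i - C (c0 G i 1 1), Or.inl (by rw [map_sub, pd h, h.c]; rfl)⟩

theorem cc [Fintype ι] (h : IsPhi G φ) {θ : Pres.PP O ι →+* O} (hθ : Pt G (RingHom.id O) L.r θ)
    (f : PS O (Sy ι)) : θ (φ f) = constantCoeff f := by
  obtain ⟨g, hg, -⟩ := P022D.CA.Cpl.exists_decompV (f - C (constantCoeff f)) (by simp)
  have hx : ∀ s, θ (φ (MvPowerSeries.X s)) = 0 := fun s => by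
    rw [h.x]
    rcases s with i | i | ⟨i, k⟩
    · show θ (Z G i 0 0 - C (G.rc i 0 0)) = 0
      rw [map_sub, hθ.z, hθ.c]; exact sub_self _
    · show θ (Z G i 1 1 - C (G.rc i 1 1)) = 0
      rw [map_sub, hθ.z, hθ.c]; exact sub_self _
    · show θ (Z G i 0 1 * Z G k 1 0 - C (G.rc i 0 1 * G.rc k 1 0)) = 0
      rw [map_sub, map_mul, hθ.z, hθ.z, hθ.c]; exact sub_self _
  have k := congrArg (fun u => θ (φ u)) hg
  simp only [map_sub, map_sum, map_mul, hx, zero_mul, Finset.sum_const_zero, h.c, hθ.c,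
    RingHom.id_apply] at k
  exact sub_eq_zero.1 k

end

end Zed

theorem zed2C (h0 : PR0) (hA : AG) : ZED2 := by
  intro O F _ _ _ _ _ _ _ ϖ S L X as β τ ι' _ _ _ K ι _ G hϖ hC hK hZ
  classical
  haveI : IsAdicComplete (maximalIdeal O) O := Coef.cpl
  haveI : Finite (ResidueField O) := Coef.fin
  have hm := (IsDiscreteValuationRing.irreducible_iff_uniformizer ϖ).1 hϖ
  obtain ⟨n, e, hn, he, hJ⟩ := h0 O F S L _ K.g ι G ϖ X as Coef.ne hϖ hC.cx hZ
  obtain ⟨θ, hθ, hJθ, -⟩ := frpC dokC O F S L _ K.g ι G ϖ X as Coef.ne hϖ hC.cx O (RingHom.id O)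
    L.r (hm ▸ Ideal.mem_span_singleton_self ϖ) (fun g a b => by simp) (fun g => rfl)
    hC.cx.ok.cont (Zed.un hC.cx)
  obtain ⟨φ, hφ⟩ := Zed.exphi hC.cx G
  obtain ⟨hreg, hdim⟩ := P022D.Rl.Ch0.reg (σ := Pres.Ix ι) hm
  have hτ : ∀ a : L.C, (a : ℕ) ∈ X → G.rc (G.iτ a) = 1 := fun a ha => by
    have k : (a : ℕ) ∈ L.W ∪ L.C := Finset.mem_union_right _ a.2
    rw [Gs.rc, G.hτ]
    exact hC.cx.unr a (hC.cx.ok.pr a k).1 (Or.inr ha) _ (hC.cx.ok.hP a k).1 (hC.cx.ok.hP a k).2 _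
      (hC.cx.ok.tm a k).tau
  have hz : ∀ i a b, θ (Z G i a b) = G.rc i a b := hθ.z
  let u : X → ι := fun a => G.iτ ⟨a, hC.cx.sub a.2⟩
  let E : Fin n ⊕ ι ⊕ (X × Fin 3) ⊕ Fin 3 → Pres.PP O ι := Sum.elim e (Sum.elim (de G) (Sum.elim
    (fun p => ![Z G (u p.1) 0 0 - 1, Z G (u p.1) 0 1, Z G (u p.1) 1 0] p.2)
    ![Z G G.i0 0 1, Z G G.i0 1 0, (Z G G.ic).trace]))
  obtain ⟨q, hq, -, hE, hqθ, hd⟩ := P022G.Cat.cat E (Q := ⊥) (p := RingHom.ker θ) Ideal.bot_prime
    (RingHom.ker_isPrime θ) bot_le (fun s => by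
      rw [RingHom.mem_ker]
      rcases s with i | i | ⟨a, c⟩ | c
      · exact hJθ (he i)
      · show θ ((Z G i).det - C (G.rc i).det) = 0
        rw [Matrix.det_fin_two, Matrix.det_fin_two]
        simp only [map_sub, map_mul, hz, hθ.c, RingHom.id_apply, sub_self]
      · have k := hτ ⟨a, hC.cx.sub a.2⟩ a.2
        fin_cases c
        · show θ (Z G (u a) 0 0 - 1) = 0
          rw [map_sub, hz, map_one, k]; simp
        · show θ (Z G (u a) 0 1) = 0
          rw [hz, k]; simp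
        · show θ (Z G (u a) 1 0) = 0
          rw [hz, k]; simp
      · fin_cases c
        · show θ (Z G G.i0 0 1) = 0
          rw [hz, Gs.rc, G.h0]; exact hC.cx.g0.2.2.1
        · show θ (Z G G.i0 1 0) = 0
          rw [hz, Gs.rc, G.h0]; exact hC.cx.g0.2.2.2
        · show θ (Z G G.ic).trace = 0
          rw [Matrix.trace_fin_two, map_add, hz, hz, Gs.rc, G.hc, ← Matrix.trace_fin_two]
          exact Zed.trc hC.cx) (k := 3 + 1) (by
      rw [ringKrullDim_eq_of_ringEquiv (RingEquiv.quotientBot _), hdim]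
      simp only [Fintype.card_sum, Fintype.card_prod, Fintype.card_fin, Fintype.card_coe]
      exact_mod_cast (by omega : 3 + 1 + (n + (Fintype.card ι + (X.card * 3 + 3))) ≤
        Fintype.card ι * (2 * 2) + 1))
  have q1 : ∀ i, de G i ∈ q := fun i => hE (Sum.inr (Sum.inl i))
  have q2 : ∀ a : L.C, (a : ℕ) ∈ X → Z G (G.iτ a) 0 0 - 1 ∈ q ∧ Z G (G.iτ a) 0 1 ∈ q ∧
      Z G (G.iτ a) 1 0 ∈ q := fun a ha =>
    ⟨hE (Sum.inr (Sum.inr (Sum.inl (⟨a, ha⟩, 0)))), hE (Sum.inr (Sum.inr (Sum.inl (⟨a, ha⟩, 1)))),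
      hE (Sum.inr (Sum.inr (Sum.inl (⟨a, ha⟩, 2))))⟩
  have l0 : L0 G ≤ q := Ideal.span_le.2 (by
    rintro _ (⟨i, rfl⟩ | rfl | rfl)
    · exact q1 i
    · exact hE (Sum.inr (Sum.inr (Sum.inr 0)))
    · exact hE (Sum.inr (Sum.inr (Sum.inr 1))))
  have hJq : Jac (dt G) ≤ q := hJ.trans (sup_le
    (Ideal.span_le.2 (by rintro _ ⟨i, rfl⟩; exact hE (Sum.inl i)))
    (sup_le (sup_le l0 (Ideal.span_le.2 (by
      rintro _ ⟨l, hl, h⟩
      have k := q2 l (by simpa using hl)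
      rcases h with rfl | rfl | rfl
      exacts [k.1, k.2.1, k.2.2]))) (Ideal.span_le.2 (by
      rintro _ (rfl | ⟨l, hl, -⟩)
      · exact hE (Sum.inr (Sum.inr (Sum.inr 2)))
      · simp at hl))))
  have hN : ¬ NZ G ≤ q := fun h => by
    obtain ⟨⟨g, hg⟩, g', hg'⟩ := hC.cx.irr
    obtain ⟨i, hi⟩ := not_forall.1 fun k => hg (Zed.off hC.cx G (by decide) k g)
    obtain ⟨k, hk⟩ := not_forall.1 fun k => hg' (Zed.off hC.cx G (by decide) k g')
    have k3 : θ (Z G i 0 1 * Z G k 1 0) = 0 := hqθ (h (Ideal.subset_span ⟨i, k, rfl⟩))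
    rw [map_mul, hz, hz] at k3
    exact mul_ne_zero hi hk k3
  refine ⟨q.comap φ, ⟨Ideal.comap_isPrime φ q, Ideal.map_le_iff_le_comap.1
    (hA O F S L _ K.g ι G ϖ X as Coef.ne hϖ hC.cx φ hφ q hq (sup_le hJq l0)
      (Or.inr ⟨θ, hθ, hqθ⟩)), Zed.dn hφ ⊥ q hq bot_le hN 3 hd⟩, fun a ha f hf => ?_,
    fun f hf => (Zed.cc hφ hθ f).symm.trans (hqθ hf)⟩
  obtain ⟨k1, k2, k3⟩ := q2 a ha
  show φ f ∈ q
  rcases hf with (rfl | rfl) | ⟨k, rfl⟩ | ⟨k, rfl⟩
  · rw [map_sub, Zed.pa hφ, map_one]; exact k1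
  · rw [map_sub, Zed.pd hφ, map_one]
    have k4 := q1 (G.iτ a)
    rw [de, hτ a ha, Matrix.det_one, map_one, Matrix.det_fin_two] at k4
    have k5 := q.sub_mem (q.add_mem k4 (q.mul_mem_right (Z G (G.iτ a) 1 0) k2))
      (q.mul_mem_right (Z G (G.iτ a) 1 1) k1)
    convert k5 using 1
    ring
  · show φ (xS G.rc id (G.iτ a) k) ∈ q
    rw [Zed.px hφ]; exact q.mul_mem_right _ k2
  · show φ (xS G.rc id k (G.iτ a)) ∈ q
    rw [Zed.px hφ]; exact q.mul_mem_left _ k3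

end Vale.Agent.P022G.Tr
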